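import Vale.Agent.P269.R2.H284.Basic

noncomputable section

namespace Vale.Agent.P269.R2.H284

open Finset
open scoped Classical

variable {T : Target}

/-- The string operator. -/
def str (G : T.Fn) : T.Fn := fun S => G ((0, T.one) :: S) - der (low T) G S

/-- The insertion `τ_0(1)` can be moved. -/
def Cm (G : T.Fn) : Prop :=
  ∀ S₁ s S₂, G (S₁ ++ s :: (0, T.one) :: S₂) = G (S₁ ++ (0, T.one) :: s :: S₂)

theorem Cm.cons {G : T.Fn} (h : Cm G) (x : T.Ins) : Cm (fun S => G (x :: S)) := by
  intro S₁ s S₂
  exact h (x :: S₁) s S₂

theorem str_cons {G : T.Fn} (h : Cm G) (x : T.Ins) (S : List T.Ins) :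
    str (fun S => G (x :: S)) S = str G (x :: S) + ins (low T x) G S := by
  have := h [] x S
  simp only [List.nil_append] at this
  simp only [str, der_cons, this]
  ring

theorem str_add (G H : T.Fn) (S : List T.Ins) : str (G + H) S = str G S + str H S := by
  simp only [str, Pi.add_apply, der_add]; ring

theorem str_smul (c : ℂ) (G : T.Fn) (S : List T.Ins) : str (c • G) S = c * str G S := by
  simp only [str, Pi.smul_apply, der_smul, smul_eq_mul]; ring

theorem str_finsupp_sum {κ : Type*} (v : κ →₀ ℂ) (G : κ → T.Fn) (S : List T.Ins) :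
    str (fun S => v.sum fun x c => c * G x S) S = v.sum fun x c => c * str (G x) S := by
  unfold str
  rw [der_finsupp_sum]
  simp only [mul_sub]
  exact (Finsupp.sum_sub).symm

theorem str_ins {G : T.Fn} (h : Cm G) (v : T.Ins →₀ ℂ) (S : List T.Ins) :
    str (ins v G) S = ins v (str G) S + ins (ext (low T) v) G S := by
  have : ins v G = fun S => v.sum fun x c => c * (fun S => G (x :: S)) S := rfl
  rw [this, str_finsupp_sum, ins_ext]
  simp only [str_cons h, mul_add]
  exact Finsupp.sum_add

theorem str_der (R : T.Ins → (T.Ins →₀ ℂ)) (G : T.Fn) (S : List T.Ins) :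
    str (der R G) S = der R (str G) S + ins (R (0, T.one)) G S +
      (der (fun s => ext (low T) (R s)) G S - der (fun s => ext R (low T s)) G S) := by
  have e : str G = (fun S => G ((0, T.one) :: S)) + (-1 : ℂ) • der (low T) G := by
    funext S
    simp only [str, Pi.add_apply, Pi.smul_apply, smul_eq_mul]
    ring
  have h := der_comm R (low T) G S
  rw [e, der_add, der_smul]
  simp only [str, der_cons]
  linear_combination h

theorem low_even : Even' (low T) := by
  intro s x h
  unfold low at h
  split_ifs at h with h0
  · simp at h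
  · have : (s.1 - 1, s.2) = x := by
      by_contra hne
      exact h (by simp [Finsupp.single_apply, hne])
    rw [← this]

theorem str_mul (hT : IsTarget T) (w : ℕ) (G H : T.Fn) (S : List T.Ins) :
    str (mul w G H) S = mul w (str G) H S + mul w G (str H) S := by
  have hp : T.par (((0, T.one) : T.Ins).2) = 0 := by
    simp [Target.par, hT.p_one, hT.q_one]
  have e1 : str G = (fun S => G ((0, T.one) :: S)) + (-1 : ℂ) • der (low T) G := by
    funext S
    simp only [str, Pi.add_apply, Pi.smul_apply, smul_eq_mul]
    ring
  have e2 : str H = (fun S => H ((0, T.one) :: S)) + (-1 : ℂ) • der (low T) H := by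
    funext S
    simp only [str, Pi.add_apply, Pi.smul_apply, smul_eq_mul]
    ring
  rw [e1, e2, mul_add_left, mul_add_right, mul_smul_left, mul_smul_right]
  simp only [str, mul_cons, hp, der_mul low_even]
  simp
  ring

end Vale.Agent.P269.R2.H284
end
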