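import Vale.Agent.P269.R2.H284.Defs

noncomputable section

namespace Vale.Agent.P269.R2.H284

open Finset
open scoped Classical

variable {T : Target}

/-- contraction with a combination of insertions -/
def ins (v : T.Ins →₀ ℂ) (G : T.Fn) : T.Fn := fun S => v.sum fun x c => c * G (x :: S)

theorem ins_zero (G : T.Fn) : ins (0 : T.Ins →₀ ℂ) G = 0 := by
  funext S; simp [ins]

theorem ins_single (x : T.Ins) (c : ℂ) (G : T.Fn) (S : List T.Ins) :
    ins (Finsupp.single x c) G S = c * G (x :: S) := by
  simp [ins]

theorem ins_add (v w : T.Ins →₀ ℂ) (G : T.Fn) : ins (v + w) G = ins v G + ins w G := by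
  funext S
  simp only [ins, Pi.add_apply]
  exact Finsupp.sum_add_index' (by simp) (by intros; ring)

theorem ins_smul (c : ℂ) (v : T.Ins →₀ ℂ) (G : T.Fn) : ins (c • v) G = c • ins v G := by
  funext S
  simp only [ins, Pi.smul_apply, smul_eq_mul, Finsupp.smul_sum]
  rw [Finsupp.sum_smul_index (by simp), Finsupp.mul_sum]
  simp only [mul_assoc]

theorem ins_sum {κ : Type*} (s : Finset κ) (v : κ → T.Ins →₀ ℂ) (G : T.Fn) :
    ins (∑ k ∈ s, v k) G = ∑ k ∈ s, ins (v k) G := by
  classical
  induction s using Finset.induction_on with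
  | empty => simp [ins_zero]
  | insert a s ha ih => rw [Finset.sum_insert ha, Finset.sum_insert ha, ins_add, ih]

theorem ins_add_fn (v : T.Ins →₀ ℂ) (G H : T.Fn) : ins v (G + H) = ins v G + ins v H := by
  funext S
  simp only [ins, Pi.add_apply, mul_add]
  exact Finsupp.sum_add

theorem ins_smul_fn (v : T.Ins →₀ ℂ) (c : ℂ) (G : T.Fn) : ins v (c • G) = c • ins v G := by
  funext S
  simp only [ins, Pi.smul_apply, smul_eq_mul]
  rw [Finsupp.mul_sum]
  exact Finsupp.sum_congr fun x _ => by ring

theorem ins_zero_fn (v : T.Ins →₀ ℂ) : ins v (0 : T.Fn) = 0 := by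
  funext S
  simp [ins]

/-- linear extension -/
def ext (R : T.Ins → (T.Ins →₀ ℂ)) (v : T.Ins →₀ ℂ) : T.Ins →₀ ℂ := v.sum fun x c => c • R x

theorem ext_single (R : T.Ins → (T.Ins →₀ ℂ)) (x : T.Ins) (c : ℂ) :
    ext R (Finsupp.single x c) = c • R x := by simp [ext]

theorem ext_add (R : T.Ins → (T.Ins →₀ ℂ)) (v w : T.Ins →₀ ℂ) :
    ext R (v + w) = ext R v + ext R w := by
  unfold ext
  exact Finsupp.sum_add_index' (by simp) (by intros; rw [add_smul])

theorem ext_zero (R : T.Ins → (T.Ins →₀ ℂ)) : ext R (0 : T.Ins →₀ ℂ) = 0 := by simp [ext]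

theorem ext_sum {κ : Type*} (R : T.Ins → (T.Ins →₀ ℂ)) (s : Finset κ) (v : κ → T.Ins →₀ ℂ) :
    ext R (∑ k ∈ s, v k) = ∑ k ∈ s, ext R (v k) := by
  classical
  induction s using Finset.induction_on with
  | empty => simp [ext_zero]
  | insert a s ha ih => rw [Finset.sum_insert ha, Finset.sum_insert ha, ext_add, ih]

theorem ins_ext (R : T.Ins → (T.Ins →₀ ℂ)) (v : T.Ins →₀ ℂ) (G : T.Fn) (S : List T.Ins) :
    ins (ext R v) G S = v.sum fun x c => c * ins (R x) G S := by
  induction v using Finsupp.induction_linear with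
  | zero => simp [ext_zero, ins_zero]
  | add v w hv hw =>
    rw [ext_add, ins_add, Pi.add_apply, hv, hw]
    exact (Finsupp.sum_add_index' (by simp) (by intros; ring)).symm
  | single x c => simp [ext_single, ins_smul]

/-! ### `der` -/

theorem der_cons (R : T.Ins → (T.Ins →₀ ℂ)) (G : T.Fn) (s : T.Ins) (S : List T.Ins) :
    der R G (s :: S) = ins (R s) G S + der R (fun S => G (s :: S)) S := rfl

theorem der_nil (R : T.Ins → (T.Ins →₀ ℂ)) (G : T.Fn) : der R G [] = 0 := rfl

theorem der_add (R : T.Ins → (T.Ins →₀ ℂ)) (G H : T.Fn) (S : List T.Ins) :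
    der R (G + H) S = der R G S + der R H S := by
  induction S generalizing G H with
  | nil => simp [der_nil]
  | cons s S ih =>
    rw [der_cons, der_cons, der_cons, ins_add_fn, Pi.add_apply]
    have : (fun S => (G + H) (s :: S)) = (fun S => G (s :: S)) + fun S => H (s :: S) := rfl
    rw [this, ih]; ring

theorem der_smul (R : T.Ins → (T.Ins →₀ ℂ)) (c : ℂ) (G : T.Fn) (S : List T.Ins) :
    der R (c • G) S = c * der R G S := by
  induction S generalizing G with
  | nil => simp [der_nil]
  | cons s S ih =>
    rw [der_cons, der_cons, ins_smul_fn, Pi.smul_apply, smul_eq_mul]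
    have : (fun S => (c • G) (s :: S)) = c • (fun S => G (s :: S)) := rfl
    rw [this, ih]; ring

theorem der_zero (R : T.Ins → (T.Ins →₀ ℂ)) (S : List T.Ins) : der R (0 : T.Fn) S = 0 := by
  have := der_smul R 0 (0 : T.Fn) S
  simpa using this

theorem der_sum {κ : Type*} (R : T.Ins → (T.Ins →₀ ℂ)) (s : Finset κ) (G : κ → T.Fn)
    (S : List T.Ins) : der R (∑ k ∈ s, G k) S = ∑ k ∈ s, der R (G k) S := by
  classical
  induction s using Finset.induction_on with
  | empty => simp [der_zero]
  | insert a s ha ih => rw [Finset.sum_insert ha, Finset.sum_insert ha, der_add, ih]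

theorem der_addR (R R' : T.Ins → (T.Ins →₀ ℂ)) (G : T.Fn) (S : List T.Ins) :
    der (fun s => R s + R' s) G S = der R G S + der R' G S := by
  induction S generalizing G with
  | nil => simp [der_nil]
  | cons s S ih => rw [der_cons, der_cons, der_cons, ins_add, Pi.add_apply, ih]; ring

theorem der_smulR (c : ℂ) (R : T.Ins → (T.Ins →₀ ℂ)) (G : T.Fn) (S : List T.Ins) :
    der (fun s => c • R s) G S = c * der R G S := by
  induction S generalizing G with
  | nil => simp [der_nil]
  | cons s S ih => rw [der_cons, der_cons, ins_smul, Pi.smul_apply, ih, smul_eq_mul]; ring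

/-- finite sums commute with `der` -/
theorem der_finsupp_sum {κ : Type*} (R : T.Ins → (T.Ins →₀ ℂ)) (v : κ →₀ ℂ) (G : κ → T.Fn)
    (S : List T.Ins) :
    der R (fun S => v.sum fun x c => c * G x S) S = v.sum fun x c => c * der R (G x) S := by
  have : (fun S => v.sum fun x c => c * G x S) = ∑ x ∈ v.support, v x • G x := by
    funext S
    simp [Finsupp.sum, Finset.sum_apply]
  rw [this, der_sum]
  simp [Finsupp.sum, der_smul]

theorem der_ins (R : T.Ins → (T.Ins →₀ ℂ)) (v : T.Ins →₀ ℂ) (G : T.Fn) (S : List T.Ins) :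
    der R (ins v G) S = v.sum fun x c => c * der R (fun S => G (x :: S)) S :=
  der_finsupp_sum R v (fun x S => G (x :: S)) S

theorem ins_der (R : T.Ins → (T.Ins →₀ ℂ)) (v : T.Ins →₀ ℂ) (G : T.Fn) (S : List T.Ins) :
    ins v (der R G) S = ins (ext R v) G S + der R (ins v G) S := by
  rw [der_ins, ins_ext]
  have h : ins v (der R G) S = v.sum fun x c => c * (ins (R x) G S + der R (fun S => G (x :: S)) S) :=
    rfl
  rw [h]
  simp only [mul_add]
  exact Finsupp.sum_add

/-- commutator of two derivations -/
theorem der_comm (R R' : T.Ins → (T.Ins →₀ ℂ)) (G : T.Fn) (S : List T.Ins) :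
    der R (der R' G) S + der (fun s => ext R (R' s)) G S =
      der R' (der R G) S + der (fun s => ext R' (R s)) G S := by
  induction S generalizing G with
  | nil => simp [der_nil]
  | cons s S ih =>
    have h1 : (fun S => der R' G (s :: S)) = ins (R' s) G + der R' (fun S => G (s :: S)) := rfl
    have h2 : (fun S => der R G (s :: S)) = ins (R s) G + der R (fun S => G (s :: S)) := rfl
    rw [der_cons, der_cons, der_cons, der_cons, h1, h2, der_add, der_add, ins_der, ins_der]
    have := ih (fun S => G (s :: S))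
    linear_combination this

/-! ### `mul` -/

theorem mul_cons (w : ℕ) (G H : T.Fn) (s : T.Ins) (S : List T.Ins) :
    mul w G H (s :: S) = (-1) ^ (w * T.par s.2) * mul w (fun S => G (s :: S)) H S +
      mul (w + T.par s.2) G (fun S => H (s :: S)) S := rfl

theorem mul_add_left (w : ℕ) (G G' H : T.Fn) (S : List T.Ins) :
    mul w (G + G') H S = mul w G H S + mul w G' H S := by
  induction S generalizing w G G' H with
  | nil => simp only [mul, Pi.add_apply]; ring
  | cons s S ih =>
    rw [mul_cons, mul_cons, mul_cons]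
    have : (fun S => (G + G') (s :: S)) = (fun S => G (s :: S)) + fun S => G' (s :: S) := rfl
    rw [this, ih, ih]; ring

theorem mul_add_right (w : ℕ) (G H H' : T.Fn) (S : List T.Ins) :
    mul w G (H + H') S = mul w G H S + mul w G H' S := by
  induction S generalizing w G H H' with
  | nil => simp only [mul, Pi.add_apply]; ring
  | cons s S ih =>
    rw [mul_cons, mul_cons, mul_cons]
    have : (fun S => (H + H') (s :: S)) = (fun S => H (s :: S)) + fun S => H' (s :: S) := rfl
    rw [this, ih, ih]; ring

theorem mul_smul_left (w : ℕ) (c : ℂ) (G H : T.Fn) (S : List T.Ins) :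
    mul w (c • G) H S = c * mul w G H S := by
  induction S generalizing w G H with
  | nil => simp only [mul, Pi.smul_apply, smul_eq_mul]; ring
  | cons s S ih =>
    rw [mul_cons, mul_cons]
    have : (fun S => (c • G) (s :: S)) = c • (fun S => G (s :: S)) := rfl
    rw [this, ih, ih]; ring

theorem mul_smul_right (w : ℕ) (c : ℂ) (G H : T.Fn) (S : List T.Ins) :
    mul w G (c • H) S = c * mul w G H S := by
  induction S generalizing w G H with
  | nil => simp only [mul, Pi.smul_apply, smul_eq_mul]; ring
  | cons s S ih =>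
    rw [mul_cons, mul_cons]
    have : (fun S => (c • H) (s :: S)) = c • (fun S => H (s :: S)) := rfl
    rw [this, ih, ih]; ring

theorem mul_zero_left (w : ℕ) (H : T.Fn) (S : List T.Ins) : mul w 0 H S = 0 := by
  have := mul_smul_left w 0 (0 : T.Fn) H S
  simpa using this

theorem mul_zero_right (w : ℕ) (G : T.Fn) (S : List T.Ins) : mul w G 0 S = 0 := by
  have := mul_smul_right w 0 G (0 : T.Fn) S
  simpa using this

theorem mul_sum_left {κ : Type*} (w : ℕ) (s : Finset κ) (G : κ → T.Fn) (H : T.Fn)
    (S : List T.Ins) : mul w (∑ k ∈ s, G k) H S = ∑ k ∈ s, mul w (G k) H S := by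
  classical
  induction s using Finset.induction_on with
  | empty => simp [mul_zero_left]
  | insert a s ha ih => rw [Finset.sum_insert ha, Finset.sum_insert ha, mul_add_left, ih]

theorem mul_sum_right {κ : Type*} (w : ℕ) (s : Finset κ) (G : T.Fn) (H : κ → T.Fn)
    (S : List T.Ins) : mul w G (∑ k ∈ s, H k) S = ∑ k ∈ s, mul w G (H k) S := by
  classical
  induction s using Finset.induction_on with
  | empty => simp [mul_zero_right]
  | insert a s ha ih => rw [Finset.sum_insert ha, Finset.sum_insert ha, mul_add_right, ih]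

theorem mul_ins_left (w : ℕ) (v : T.Ins →₀ ℂ) (G H : T.Fn) (S : List T.Ins) :
    mul w (ins v G) H S = v.sum fun x c => c * mul w (fun S => G (x :: S)) H S := by
  have : ins v G = ∑ x ∈ v.support, v x • fun S => G (x :: S) := by
    funext S
    simp [ins, Finsupp.sum, Finset.sum_apply]
  rw [this, mul_sum_left]
  simp [Finsupp.sum, mul_smul_left]

theorem mul_ins_right (w : ℕ) (v : T.Ins →₀ ℂ) (G H : T.Fn) (S : List T.Ins) :
    mul w G (ins v H) S = v.sum fun x c => c * mul w G (fun S => H (x :: S)) S := by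
  have : ins v H = ∑ x ∈ v.support, v x • fun S => H (x :: S) := by
    funext S
    simp [ins, Finsupp.sum, Finset.sum_apply]
  rw [this, mul_sum_right]
  simp [Finsupp.sum, mul_smul_right]

/-- the sign depends on the parity only -/
theorem mul_congr_parity {w w' : ℕ} (h : w % 2 = w' % 2) (G H : T.Fn) (S : List T.Ins) :
    mul w G H S = mul w' G H S := by
  induction S generalizing w w' G H with
  | nil => rfl
  | cons s S ih =>
    rw [mul_cons, mul_cons, ih h, ih (w := w + T.par s.2) (w' := w' + T.par s.2) (by omega)]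
    congr 2
    rw [neg_one_pow_eq_pow_mod_two, neg_one_pow_eq_pow_mod_two (n := w' * T.par s.2),
      Nat.mul_mod, h, ← Nat.mul_mod]

/-- `R` preserves the parity -/
def Even' (R : T.Ins → (T.Ins →₀ ℂ)) : Prop :=
  ∀ s x, R s x ≠ 0 → T.par x.2 % 2 = T.par s.2 % 2

theorem der_mul {R : T.Ins → (T.Ins →₀ ℂ)} (hR : Even' R) (w : ℕ) (G H : T.Fn)
    (S : List T.Ins) :
    der R (mul w G H) S = mul w (der R G) H S + mul w G (der R H) S := by
  induction S generalizing w G H with
  | nil => simp [der_nil, mul]
  | cons s S ih =>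
    have e1 : (fun S => mul w G H (s :: S)) =
        (-1 : ℂ) ^ (w * T.par s.2) • (fun S => mul w (fun S => G (s :: S)) H S) +
          fun S => mul (w + T.par s.2) G (fun S => H (s :: S)) S := rfl
    rw [der_cons, e1, der_add, der_smul, ih, ih, mul_cons, mul_cons]
    have e2 : (fun S => der R G (s :: S)) = ins (R s) G + der R (fun S => G (s :: S)) := rfl
    have e3 : (fun S => der R H (s :: S)) = ins (R s) H + der R (fun S => H (s :: S)) := rfl
    rw [e2, e3, mul_add_left, mul_add_right, mul_ins_left, mul_ins_right]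
    have e4 : ins (R s) (mul w G H) S =
        (-1 : ℂ) ^ (w * T.par s.2) * ((R s).sum fun x c => c * mul w (fun S => G (x :: S)) H S) +
          (R s).sum fun x c => c * mul (w + T.par s.2) G (fun S => H (x :: S)) S := by
      unfold ins
      rw [Finsupp.mul_sum, ← Finsupp.sum_add]
      apply Finsupp.sum_congr
      intro x hx
      have hp := hR s x (by simpa using hx)
      rw [mul_cons, mul_congr_parity (w := w + T.par x.2) (w' := w + T.par s.2) (by omega)]
      have : (-1 : ℂ) ^ (w * T.par x.2) = (-1) ^ (w * T.par s.2) := by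
        rw [neg_one_pow_eq_pow_mod_two, neg_one_pow_eq_pow_mod_two (n := w * T.par s.2),
          Nat.mul_mod, hp, ← Nat.mul_mod]
      rw [this]; ring
    rw [e4]; ring

end Vale.Agent.P269.R2.H284
end
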