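import Vale.Agent.P269.R2.H284.DivC

noncomputable section

namespace Vale.Agent.P269.R2.H284

open Finset
open scoped Classical

theorem amb_det {n : ℕ} (a : ℂ) (ha : a ≠ 0) :
    (Matrix.of fun i j : Fin (n + 1) => if (i : ℕ) + j = n then a else 0).det ≠ 0 := by
  have : (Matrix.of fun i j : Fin (n + 1) => if (i : ℕ) + j = n then a else 0) *
      (Matrix.of fun i j : Fin (n + 1) => if (i : ℕ) + j = n then a⁻¹ else 0) = 1 := by
    ext i k
    rw [Matrix.mul_apply, Matrix.one_apply]
    have hi : (i : ℕ) ≤ n := Nat.lt_succ_iff.mp i.2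
    rw [Finset.sum_eq_single (⟨n - i, by omega⟩ : Fin (n + 1))]
    · simp only [Matrix.of_apply]
      rw [if_pos (by omega)]
      by_cases h : i = k
      · subst h
        rw [if_pos (by omega), if_pos rfl, mul_inv_cancel₀ ha]
      · rw [if_neg, if_neg h, mul_zero]
        intro h'
        apply h
        ext
        omega
    · intro j _ hj
      simp only [Matrix.of_apply]
      rw [if_neg, zero_mul]
      intro h
      apply hj
      ext
      simp only
      omega
    · intro h
      exact absurd (Finset.mem_univ _) h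
  have h2 := congrArg Matrix.det this
  rw [Matrix.det_mul, Matrix.det_one] at h2
  exact left_ne_zero_of_mul (by rw [h2]; exact one_ne_zero)

theorem block_det {D : ℕ} {V : Type} [Fintype V] (a : ℂ) (ha : a ≠ 0) (ηV : Matrix V V ℂ)
    (h : ηV.det ≠ 0) (dec : DecidableEq (Fin (D + 1) ⊕ V)) :
    @Matrix.det (Fin (D + 1) ⊕ V) dec _ ℂ _ (Matrix.fromBlocks
      (Matrix.of fun i j : Fin (D + 1) => if (i : ℕ) + j = D then a else 0) 0 0 ηV) ≠ 0 := by
  have : dec = instDecidableEqSum := Subsingleton.elim _ _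
  subst this
  rw [Matrix.det_fromBlocks_zero₂₁]
  refine mul_ne_zero (amb_det _ ha) ?_
  convert h

theorem block_adj {D : ℕ} {V : Type} [Fintype V] (a r : ℂ) (ηV : Matrix V V ℂ) :
    Matrix.fromBlocks (Matrix.of fun i j : Fin (D + 1) => if (j : ℕ) = i + 1 then r else 0) 0 0
      (0 : Matrix V V ℂ) *
      Matrix.fromBlocks (Matrix.of fun i j : Fin (D + 1) => if (i : ℕ) + j = D then a else 0)
        0 0 ηV =
    Matrix.fromBlocks (Matrix.of fun i j : Fin (D + 1) => if (i : ℕ) + j = D then a else 0)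
        0 0 ηV * (Matrix.fromBlocks
          (Matrix.of fun i j : Fin (D + 1) => if (j : ℕ) = i + 1 then r else 0) 0 0
            (0 : Matrix V V ℂ)).transpose := by
  rw [Matrix.fromBlocks_transpose, Matrix.fromBlocks_multiply, Matrix.fromBlocks_multiply]
  simp only [Matrix.transpose_zero, Matrix.mul_zero, Matrix.zero_mul, add_zero]
  congr 1
  ext i k
  rw [Matrix.mul_apply, Matrix.mul_apply]
  simp only [Matrix.of_apply, Matrix.transpose_apply]
  have hi : (i : ℕ) ≤ D := Nat.lt_succ_iff.mp i.2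
  have hk : (k : ℕ) ≤ D := Nat.lt_succ_iff.mp k.2
  by_cases h : (i : ℕ) + 1 + k = D
  · rw [Finset.sum_eq_single (⟨i + 1, by omega⟩ : Fin (D + 1))]
    · rw [Finset.sum_eq_single (⟨k + 1, by omega⟩ : Fin (D + 1))]
      · simp only
        rw [if_pos trivial, if_pos h, if_pos (by omega)]
        ring
      · intro j _ hj
        have : ¬ ((j : ℕ) = k + 1) := fun h' => hj (Fin.ext h')
        rw [if_neg this, mul_zero]
      · intro h'; exact absurd (Finset.mem_univ _) h'
    · intro j _ hj
      have : ¬ ((j : ℕ) = i + 1) := fun h' => hj (Fin.ext h')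
      rw [if_neg this, zero_mul]
    · intro h'; exact absurd (Finset.mem_univ _) h'
  · rw [Finset.sum_eq_zero, Finset.sum_eq_zero]
    · intro j _
      by_cases h1 : (j : ℕ) = k + 1
      · rw [if_neg (by omega), zero_mul]
      · rw [if_neg h1, mul_zero]
    · intro j _
      by_cases h1 : (j : ℕ) = i + 1
      · rw [if_neg (c := (j : ℕ) + k = D) (by omega), mul_zero]
      · rw [if_neg h1, zero_mul]

theorem ci_isTarget {D : ℕ} {c : ℕ} {e : Fin c → ℕ} (he : ∀ j, 1 ≤ e j) {V : Type} [Fintype V]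
    {pV qV : V → ℕ} {ηV : Matrix V V ℂ} (hV : IsPrimitive D e V pV qV ηV) :
    IsTarget (ci D e V pV qV ηV) where
  p_one := rfl
  q_one := rfl
  C_type := by
    rintro (i | v) (j | w) h
    · have h' : (if (j : ℕ) = i + 1 then (idx (D + c) e : ℂ) else 0) ≠ 0 := h
      split_ifs at h' with h0
      · exact ⟨h0, h0⟩
      · exact absurd rfl h'
    all_goals exact absurd rfl h
  η_type := by
    rintro (i | v) (j | w) h
    · have h' : (if (i : ℕ) + j = D then ∏ k, (e k : ℂ) else 0) ≠ 0 := h
      split_ifs at h' with h0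
      · exact ⟨h0, h0⟩
      · exact absurd rfl h'
    · exact absurd rfl h
    · exact absurd rfl h
    · have h' : ηV v w ≠ 0 := h
      have h1 := hV.pair v w h'
      have h2 := hV.type v
      have h3 := hV.type w
      have h4 : qV v + qV w = D := by omega
      exact ⟨h1, h4⟩
  η_symm := by
    rintro (i | v) (j | w)
    · have h1 : (ci D e V pV qV ηV).par (Sum.inl i) = 2 * i := by
        show (i : ℕ) + i = 2 * i
        ring
      rw [h1]
      have h2 : ((-1 : ℂ)) ^ (2 * (i : ℕ) * (ci D e V pV qV ηV).par (Sum.inl j)) = 1 := by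
        rw [mul_assoc, pow_mul]
        simp
      rw [h2, one_mul]
      show (if (i : ℕ) + j = D then ∏ k, (e k : ℂ) else 0) =
        (if (j : ℕ) + i = D then ∏ k, (e k : ℂ) else 0)
      rw [add_comm]
    · show (0 : ℂ) = _ * (0 : ℂ)
      rw [mul_zero]
    · show (0 : ℂ) = _ * (0 : ℂ)
      rw [mul_zero]
    · have h1 : ∀ u, (ci D e V pV qV ηV).par (Sum.inr u) = D := fun u => hV.type u
      rw [h1, h1]
      have h2 : ((-1 : ℂ)) ^ (D * D) = (-1) ^ D := by
        apply neg_pow_congr
        rcases Nat.mod_two_eq_zero_or_one D with h | h <;> simp [Nat.mul_mod, h]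
      rw [h2]
      exact hV.symm v w
  nondeg := by
    refine block_det _ ?_ _ hV.nondeg _
    rw [Finset.prod_ne_zero_iff]
    intro j _
    have := he j
    exact_mod_cast (by omega : e j ≠ 0)
  C_adj := block_adj _ _ _
  c1_zero := by
    show idx (D + c) e * ((0 : ℕ) : ℤ) = 0
    simp
  c1_add := by
    intro d d'
    have : ∀ d d' : ℕ, idx (D + c) e * ((d + d' : ℕ) : ℤ) =
        idx (D + c) e * (d : ℤ) + idx (D + c) e * (d' : ℤ) := by
      intro d d'
      push_cast
      ring
    exact this d d'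
  χ_eq := by
    rw [← hV.gaussBonnet]
    show ((D : ℂ) + 1) + (-1) ^ D * Fintype.card V =
      ∑ a : Fin (D + 1) ⊕ V, (-1 : ℂ) ^ (ci D e V pV qV ηV).par a
    rw [Fintype.sum_sum_type]
    have h1 : ∀ i : Fin (D + 1), (-1 : ℂ) ^ (ci D e V pV qV ηV).par (Sum.inl i) = 1 := by
      intro i
      have : (ci D e V pV qV ηV).par (Sum.inl i) = 2 * i := by
        show (i : ℕ) + i = 2 * i
        ring
      rw [this, pow_mul]
      simp
    have h2 : ∀ v : V, (-1 : ℂ) ^ (ci D e V pV qV ηV).par (Sum.inr v) = (-1) ^ D := by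
      intro v
      have : (ci D e V pV qV ηV).par (Sum.inr v) = D := hV.type v
      rw [this]
    rw [Finset.sum_congr rfl fun i _ => h1 i, Finset.sum_congr rfl fun v _ => h2 v]
    simp
    ring
  libgoberWood := by
    have := hV.libgoberWood
    show (3 - (D : ℂ)) * (ci D e V pV qV ηV).χ / 48 - (ci D e V pV qV ηV).c1cD / 24 =
      (ci D e V pV qV ηV).χ / 16 - strMuSq (ci D e V pV qV ηV) / 4
    rw [this]
    ring

theorem block_comm {D : ℕ} {V : Type} [Fintype V] (r : ℂ) :
    Matrix.fromBlocks (Matrix.of fun i j : Fin (D + 1) => if (j : ℕ) = i + 1 then (1 : ℂ) else 0)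
      0 0 (0 : Matrix V V ℂ) *
      Matrix.fromBlocks (Matrix.of fun i j : Fin (D + 1) => if (j : ℕ) = i + 1 then r else 0) 0 0
      (0 : Matrix V V ℂ) =
    Matrix.fromBlocks (Matrix.of fun i j : Fin (D + 1) => if (j : ℕ) = i + 1 then r else 0) 0 0
      (0 : Matrix V V ℂ) *
      Matrix.fromBlocks (Matrix.of fun i j : Fin (D + 1) => if (j : ℕ) = i + 1 then (1 : ℂ) else 0)
      0 0 (0 : Matrix V V ℂ) := by
  have : Matrix.fromBlocks
      (Matrix.of fun i j : Fin (D + 1) => if (j : ℕ) = i + 1 then r else 0) 0 0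
      (0 : Matrix V V ℂ) = r • Matrix.fromBlocks
        (Matrix.of fun i j : Fin (D + 1) => if (j : ℕ) = i + 1 then (1 : ℂ) else 0)
      0 0 (0 : Matrix V V ℂ) := by
    rw [Matrix.fromBlocks_smul]
    simp only [smul_zero]
    congr 1
    ext i j
    simp
  rw [this, Matrix.mul_smul, Matrix.smul_mul]

theorem ci_isDivisor {D : ℕ} {c : ℕ} {e : Fin c → ℕ} {V : Type} [Fintype V]
    {pV qV : V → ℕ} {ηV : Matrix V V ℂ} :
    IsDivisor (ci D e V pV qV ηV) (ciDiv D e V pV qV ηV) where
  H_type := by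
    rintro (i | v) (j | w) h
    · have h' : (if (j : ℕ) = i + 1 then (1 : ℂ) else 0) ≠ 0 := h
      split_ifs at h' with h0
      · exact ⟨h0, h0⟩
      · exact absurd rfl h'
    all_goals exact absurd rfl h
  H_adj := block_adj _ _ _
  H_comm := block_comm _
  deg_zero := by
    show (((0 : ℕ) : ℤ)) = 0
    simp
  deg_add := by
    intro d d'
    have : ∀ d d' : ℕ, (((d + d' : ℕ) : ℤ)) = (d : ℤ) + (d' : ℤ) := by
      intro d d'
      push_cast
      ring
    exact this d d'

theorem ci_C_eq {D : ℕ} {c : ℕ} {e : Fin c → ℕ} {V : Type} [Fintype V]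
    {pV qV : V → ℕ} {ηV : Matrix V V ℂ} (a b : (ci D e V pV qV ηV).A) :
    (ci D e V pV qV ηV).C a b = (idx (D + c) e : ℂ) * (ciDiv D e V pV qV ηV).H a b := by
  rcases a with i | v <;> rcases b with j | w
  · show (if (j : ℕ) = i + 1 then (idx (D + c) e : ℂ) else 0) =
      (idx (D + c) e : ℂ) * (if (j : ℕ) = i + 1 then (1 : ℂ) else 0)
    split_ifs <;> simp
  · show (0 : ℂ) = _ * (0 : ℂ)
    rw [mul_zero]
  · show (0 : ℂ) = _ * (0 : ℂ)
    rw [mul_zero]
  · show (0 : ℂ) = _ * (0 : ℂ)
    rw [mul_zero]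

theorem ci_isGW {D : ℕ} {c : ℕ} {e : Fin c → ℕ} {V : Type} [Fintype V]
    {pV qV : V → ℕ} {ηV : Matrix V V ℂ} {F : Corr (ci D e V pV qV ηV)}
    (h0 : IsGW0 (ci D e V pV qV ηV) F) (h1 : IsGWDiv (ci D e V pV qV ηV)
      (ciDiv D e V pV qV ηV) F) : IsGW (ci D e V pV qV ηV) F where
  toIsGW0 := h0
  divisor := by
    intro g d S
    have h2 := h1 g d S
    simp only [ci_C_eq, mul_assoc, ← Finset.mul_sum]
    rw [h2]
    have e1 : ∀ (G : (ci D e V pV qV ηV).Fn) S, der (divr (ci D e V pV qV ηV)) G S =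
        (idx (D + c) e : ℂ) * der (divh (ciDiv D e V pV qV ηV)) G S := by
      intro G S
      rw [← der_smulR]
      congr 1
      funext s
      unfold divr divh
      split_ifs
      · simp
      · rw [Finset.smul_sum]
        apply Finset.sum_congr rfl
        intro b _
        rw [ci_C_eq, Finsupp.smul_single, smul_eq_mul]
    have e2 : (ci D e V pV qV ηV).C * (ci D e V pV qV ηV).η =
        (idx (D + c) e : ℂ) • ((ciDiv D e V pV qV ηV).H * (ci D e V pV qV ηV).η) := by
      ext a b
      rw [Matrix.smul_apply, Matrix.mul_apply, Matrix.mul_apply, smul_eq_mul, Finset.mul_sum]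
      apply Finset.sum_congr rfl
      intro x _
      rw [ci_C_eq]; ring
    have e3 : ∀ (r : ℂ) (M : Matrix (ci D e V pV qV ηV).A (ci D e V pV qV ηV).A ℂ) S,
        two (ci D e V pV qV ηV) (r • M) S = r * two (ci D e V pV qV ηV) M S := by
      intro r M S
      match S with
      | [] => simp [two_nil]
      | [s] => simp [two_sing]
      | [s, t] =>
        rw [two_pair, two_pair]
        split_ifs <;> simp
      | s :: t :: u :: S => simp [two_long]
    have e4 : (((ci D e V pV qV ηV).c1 d : ℤ) : ℂ) =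
        (idx (D + c) e : ℂ) * (((ciDiv D e V pV qV ηV).deg d : ℤ) : ℂ) := by
      have : ∀ d : ℕ, ((idx (D + c) e * (d : ℤ) : ℤ) : ℂ) =
          (idx (D + c) e : ℂ) * (((d : ℤ)) : ℂ) := by
        intro d
        push_cast
        ring
      exact this d
    have e5 : ∀ (r κ : ℂ) S, cst (ci D e V pV qV ηV) (r * κ) S =
        r * cst (ci D e V pV qV ηV) κ S := by
      intro r κ S
      cases S with
      | nil => rfl
      | cons s S => simp [cst]
    have e6 : -((ci D e V pV qV ηV).c1cD / 24) =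
        (idx (D + c) e : ℂ) * (-((ciDiv D e V pV qV ηV).hc / 24)) := by
      show -((idx (D + c) e : ℂ) * (∏ k, (e k : ℂ)) *
        PowerSeries.coeff (D - 1) (chern (D + c) e) / 24) = (idx (D + c) e : ℂ) *
          (-((∏ k, (e k : ℂ)) * PowerSeries.coeff (D - 1) (chern (D + c) e) / 24))
      ring
    rw [e1, e2, e4, e6, e5, e3]
    split_ifs <;> ring

end Vale.Agent.P269.R2.H284
end
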