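import Vale.Agent.P269.R2.H284.Axioms

noncomputable section

namespace Vale.Agent.P269.R2.H284

open Finset
open scoped Classical

variable {T : Target}

/-! ### the coefficients `br` -/

open Polynomial in
theorem br_sub (x : ℂ) (K i : ℕ) : br x (K + 1) i - br (x - 1) (K + 1) i = (K + 1) * br x K i := by
  unfold br
  have h : (∏ j ∈ range (K + 1), (X + C (x + (j : ℂ)))) -
      (∏ j ∈ range (K + 1), (X + C (x - 1 + (j : ℂ)))) =
      C ((K : ℂ) + 1) * ∏ j ∈ range K, (X + C (x + (j : ℂ))) := by
    rw [Finset.prod_range_succ, Finset.prod_range_succ']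
    have : ∀ j ∈ range K, (X + C (x - 1 + ((j + 1 : ℕ) : ℂ))) = (X + C (x + (j : ℂ))) := by
      intro j _
      push_cast
      ring_nf
    rw [Finset.prod_congr rfl this]
    simp only [map_add, map_sub, map_one, Nat.cast_zero]
    simp
    ring
  rw [← Polynomial.coeff_sub, h, Polynomial.coeff_C_mul]

theorem br_top (x : ℂ) (K : ℕ) : br x K K = 1 := by
  unfold br
  have hm : (∏ j ∈ range K, (Polynomial.X + Polynomial.C (x + (j : ℂ)))).Monic :=
    Polynomial.monic_prod_of_monic _ _ fun j _ => Polynomial.monic_X_add_C _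
  have hd : (∏ j ∈ range K, (Polynomial.X + Polynomial.C (x + (j : ℂ)))).natDegree = K := by
    rw [Polynomial.natDegree_prod_of_monic _ _ fun j _ => Polynomial.monic_X_add_C _]
    simp only [Polynomial.natDegree_X_add_C]
    simp
  have := hm.coeff_natDegree
  rwa [hd] at this

theorem br_gt (x : ℂ) {K i : ℕ} (h : K < i) : br x K i = 0 := by
  unfold br
  apply Polynomial.coeff_eq_zero_of_natDegree_lt
  rw [Polynomial.natDegree_prod_of_monic _ _ fun j _ => Polynomial.monic_X_add_C _]
  simp only [Polynomial.natDegree_X_add_C]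
  simpa using h

theorem br_zero_zero (x : ℂ) : br x 0 0 = 1 := br_top x 0

theorem br_one_zero (x : ℂ) : br x 1 0 = x := by
  simp [br]

theorem br_two_zero (x : ℂ) : br x 2 0 = x * (x + 1) := by
  simp [br, Finset.prod_range_succ, Polynomial.mul_coeff_zero]

/-- `[x]^K_K` for `K + 1` factors -/
theorem br_subtop (x : ℂ) (K : ℕ) : br x (K + 1) K = (K + 1) * x + K * (K + 1) / 2 := by
  induction K with
  | zero => simp [br]
  | succ K ih =>
    have h : br x (K + 1 + 1) (K + 1) =
        br x (K + 1) K + (x + (K + 1 : ℕ)) * br x (K + 1) (K + 1) := by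
      unfold br
      rw [Finset.prod_range_succ, mul_add, Polynomial.coeff_add, Polynomial.coeff_mul_X,
        Polynomial.coeff_mul_C]
      ring
    rw [h, ih, br_top]
    push_cast
    ring

open Polynomial in
theorem br_reflect (x : ℂ) (L i : ℕ) : br (-x - L) (L + 1) i = (-1) ^ (L + 1 + i) * br x (L + 1) i := by
  unfold br
  have h : (∏ j ∈ range (L + 1), (X + C (-x - L + (j : ℂ)))) =
      C ((-1) ^ (L + 1)) * (∏ j ∈ range (L + 1), (X + C (x + (j : ℂ)))).comp (-X) := by
    rw [Polynomial.prod_comp, ← Finset.prod_range_reflect]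
    have : C ((-1 : ℂ) ^ (L + 1)) = ∏ _j ∈ range (L + 1), C (-1 : ℂ) := by
      rw [Finset.prod_const, card_range, map_pow]
    rw [this, ← Finset.prod_mul_distrib]
    apply Finset.prod_congr rfl
    intro j hj
    have hj' : j ≤ L := by simpa [Nat.lt_succ_iff] using hj
    simp only [add_comp, X_comp, C_comp]
    have : ((L + 1 - 1 - j : ℕ) : ℂ) = L - j := by
      rw [Nat.add_sub_cancel, Nat.cast_sub hj']
    rw [this]
    simp only [map_add, map_sub, map_neg, map_one]
    ring
  rw [h, Polynomial.coeff_C_mul]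
  have hc : ∀ (q : ℂ[X]) (i : ℕ), (q.comp (-X)).coeff i = (-1) ^ i * q.coeff i := by
    intro q i
    have : q.comp (-X) = q.comp (C (-1 : ℂ) * X) := by simp
    rw [this, Polynomial.comp_C_mul_X_coeff]
    ring
  rw [hc, pow_add]
  ring

end Vale.Agent.P269.R2.H284
end
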