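import Vale.Agent.P269.R2.H284.Coef

noncomputable section

namespace Vale.Agent.P269.R2.H284

open Finset
open scoped Classical

variable {T : Target}

/-- graded symmetric functions of lists -/
def Sy (G : T.Fn) : Prop := ∀ S₁ x y S₂, G (S₁ ++ x :: y :: S₂) =
    (-1) ^ (T.par x.2 * T.par y.2) * G (S₁ ++ y :: x :: S₂)

theorem Sy.cons {G : T.Fn} (h : Sy G) (x : T.Ins) : Sy (fun S => G (x :: S)) := by
  intro S₁ s t S₂
  exact h (x :: S₁) s t S₂

theorem Sy.cm {G : T.Fn} (hT : IsTarget T) (h : Sy G) : Cm G := by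
  intro S₁ s S₂
  have hp : T.par T.one = 0 := by simp [Target.par, hT.p_one, hT.q_one]
  rw [h S₁ s (0, T.one) S₂]
  simp [hp]

/-- total parity of a list -/
def tp (S : List T.Ins) : ℕ := (S.map fun s => T.par s.2).sum

theorem tp_cons (s : T.Ins) (S : List T.Ins) : tp (s :: S) = T.par s.2 + tp S := by
  simp [tp]

/-- the function has parity `t` -/
def Pt (t : ℕ) (G : T.Fn) : Prop := ∀ S, G S ≠ 0 → tp S % 2 = t % 2

theorem Pt.cons {G : T.Fn} {t : ℕ} (h : Pt t G) (x : T.Ins) :
    Pt (t + T.par x.2) (fun S => G (x :: S)) := by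
  intro S hS
  have := h _ hS
  rw [tp_cons] at this
  omega

theorem mul_cst_left (w : ℕ) (c : ℂ) (H : T.Fn) (S : List T.Ins) :
    mul w (cst T c) H S = c * H S := by
  induction S generalizing w H with
  | nil => simp [mul, cst]
  | cons s S ih =>
    rw [mul_cons]
    have : (fun S => cst T c (s :: S)) = 0 := by funext S; rfl
    rw [this, mul_zero_left, ih]
    ring

theorem mul_cst_right (w : ℕ) (c : ℂ) (G : T.Fn) (S : List T.Ins) :
    mul w G (cst T c) S = (-1) ^ (w * tp S) * G S * c := by
  induction S generalizing w G with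
  | nil => simp [mul, cst, tp]
  | cons s S ih =>
    rw [mul_cons]
    have : (fun S => cst T c (s :: S)) = 0 := by funext S; rfl
    rw [this, mul_zero_right, ih, tp_cons, mul_add, pow_add]
    ring

/-- a function supported on lists of length one -/
def one1 (v : T.Ins → ℂ) : T.Fn
  | [s] => v s
  | _ => 0

theorem one1_cons (v : T.Ins → ℂ) (s : T.Ins) :
    (fun S => one1 v (s :: S)) = cst T (v s) := by
  funext S
  cases S <;> rfl

theorem der_single_eq (v : T.Ins → ℂ) (y : T.Ins) (G : T.Fn) (s : T.Ins) (S : List T.Ins) :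
    der (fun s => Finsupp.single y (v s)) G (s :: S) = v s * G (y :: S) +
      der (fun s => Finsupp.single y (v s)) (fun S => G (s :: S)) S := by
  rw [der_cons, ins_single]

theorem neg_pow_congr {a b : ℕ} (h : a % 2 = b % 2) : (-1 : ℂ) ^ a = (-1) ^ b := by
  rw [neg_one_pow_eq_pow_mod_two, h, ← neg_one_pow_eq_pow_mod_two]

theorem mul_one_left (v : T.Ins → ℂ) (y : T.Ins) (hv : ∀ s, v s ≠ 0 → T.par s.2 % 2 = T.par y.2 % 2)
    {G : T.Fn} (hG : Sy G) (w : ℕ) (S : List T.Ins) :
    mul w (one1 v) (fun S => G (y :: S)) S =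
      (-1) ^ (w * T.par y.2) * der (fun s => Finsupp.single y (v s)) G S := by
  induction S generalizing w G with
  | nil => simp [mul, one1, der_nil]
  | cons s S ih =>
    rw [mul_cons, one1_cons, mul_cst_left, der_single_eq]
    have e : (fun S => G (y :: s :: S)) =
        (-1 : ℂ) ^ (T.par y.2 * T.par s.2) • fun S => G (s :: y :: S) := by
      funext S
      have := hG [] y s S
      simpa using this
    rw [e, mul_smul_right, ih (hG.cons s)]
    by_cases h0 : v s = 0
    · have h1 : (-1 : ℂ) ^ (T.par y.2 * T.par s.2) * (-1) ^ ((w + T.par s.2) * T.par y.2) =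
          (-1) ^ (w * T.par y.2) := by
        rw [← pow_add]
        apply neg_pow_congr
        have : T.par y.2 * T.par s.2 + (w + T.par s.2) * T.par y.2 =
            w * T.par y.2 + 2 * (T.par y.2 * T.par s.2) := by ring
        rw [this]; omega
      rw [h0]
      linear_combination (der (fun s => Finsupp.single y (v s)) (fun S => G (s :: S)) S) * h1
    · have hp := hv s h0
      have h1 : (-1 : ℂ) ^ (T.par y.2 * T.par s.2) * (-1) ^ ((w + T.par s.2) * T.par y.2) =
          (-1) ^ (w * T.par y.2) := by
        rw [← pow_add]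
        apply neg_pow_congr
        have : T.par y.2 * T.par s.2 + (w + T.par s.2) * T.par y.2 =
            w * T.par y.2 + 2 * (T.par y.2 * T.par s.2) := by ring
        rw [this]; omega
      have h2 : (-1 : ℂ) ^ (w * T.par s.2) = (-1) ^ (w * T.par y.2) := by
        apply neg_pow_congr
        rw [Nat.mul_mod, hp, ← Nat.mul_mod]
      rw [h2]
      linear_combination (der (fun s => Finsupp.single y (v s)) (fun S => G (s :: S)) S) * h1

theorem mul_one_right (v : T.Ins → ℂ) (x : T.Ins)
    (hv : ∀ s, v s ≠ 0 → T.par s.2 % 2 = T.par x.2 % 2)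
    {G : T.Fn} (hG : Sy G) {t : ℕ} (ht : Pt t G) (w : ℕ) (S : List T.Ins) :
    mul w (fun S => G (x :: S)) (one1 v) S =
      (-1) ^ ((w + T.par x.2) * (t + T.par x.2)) *
        der (fun s => Finsupp.single x (v s)) G S := by
  induction S generalizing w G t with
  | nil => simp [mul, one1, der_nil]
  | cons s S ih =>
    rw [mul_cons, one1_cons, mul_cst_right, der_single_eq]
    have e : (fun S => G (x :: s :: S)) =
        (-1 : ℂ) ^ (T.par x.2 * T.par s.2) • fun S => G (s :: x :: S) := by
      funext S
      have := hG [] x s S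
      simpa using this
    rw [e, mul_smul_left, ih (hG.cons s) (ht.cons s)]
    have h1 : (-1 : ℂ) ^ (w * T.par s.2) * ((-1 : ℂ) ^ (T.par x.2 * T.par s.2) *
        (-1) ^ ((w + T.par x.2) * (t + T.par s.2 + T.par x.2))) =
          (-1) ^ ((w + T.par x.2) * (t + T.par x.2)) := by
      rw [← pow_add, ← pow_add]
      apply neg_pow_congr
      have : w * T.par s.2 + (T.par x.2 * T.par s.2 +
          (w + T.par x.2) * (t + T.par s.2 + T.par x.2)) =
          (w + T.par x.2) * (t + T.par x.2) + 2 * ((w + T.par x.2) * T.par s.2) := by ring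
      rw [this]; omega
    have h2 : (-1 : ℂ) ^ ((w + T.par s.2) * tp S) * G (x :: S) * v s =
        (-1) ^ ((w + T.par x.2) * (t + T.par x.2)) * (v s * G (x :: S)) := by
      by_cases h0 : v s = 0
      · simp [h0]
      by_cases h3 : G (x :: S) = 0
      · simp [h3]
      have hp := hv s h0
      have hq := ht _ h3
      rw [tp_cons] at hq
      have : (-1 : ℂ) ^ ((w + T.par s.2) * tp S) =
          (-1) ^ ((w + T.par x.2) * (t + T.par x.2)) := by
        apply neg_pow_congr
        rw [Nat.mul_mod, Nat.mul_mod (w + T.par x.2)]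
        have a1 : (w + T.par s.2) % 2 = (w + T.par x.2) % 2 := by omega
        have a2 : tp S % 2 = (t + T.par x.2) % 2 := by omega
        rw [a1, a2]
      rw [this]; ring
    rw [h2]
    linear_combination (der (fun s => Finsupp.single x (v s)) (fun S => G (s :: S)) S) * h1

theorem two_cons (M : Matrix T.A T.A ℂ) (x : T.Ins) :
    (fun S => two T M (x :: S)) =
      one1 (fun s => if x.1 = 0 ∧ s.1 = 0 then M x.2 s.2 else 0) := by
  funext S
  obtain ⟨n, a⟩ := x
  match S with
  | [] => cases n <;> rfl
  | [(m, b)] =>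
    cases n with
    | zero => cases m <;> simp [two, one1]
    | succ n => simp [two, one1]
  | s :: t :: S =>
    obtain ⟨m, b⟩ := s
    cases n <;> cases m <;> rfl

end Vale.Agent.P269.R2.H284
end
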