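import Mathlib

noncomputable section

namespace Vale.Agent.P269.R2.H284

open Finset
open scoped Classical

/-- The cohomological data of a target `X`: a homogeneous basis `φ_a` of `H^*(X; ℂ)` of Hodge types
`(p a, q a)` with the unit `φ_one`, the Poincare pairing `η`, the matrix `C` of the cup product by
`c_1` (`c_1 φ_a = ∑ b, C a b φ_b`), the dimension `D`, the curve classes `B` and the
pairing `c1` with `c_1(X)`, and the numbers `∫ c_1 c_{D-1}` and `∫ c_D`. -/
structure Target where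
  A : Type
  [fin : Fintype A]
  B : Type
  [mon : AddCommMonoid B]
  [anti : HasAntidiagonal B]
  D : ℕ
  p : A → ℕ
  q : A → ℕ
  one : A
  η : Matrix A A ℂ
  C : Matrix A A ℂ
  c1 : B → ℤ
  c1cD : ℂ
  χ : ℂ

attribute [instance] Target.fin Target.mon Target.anti

variable (T : Target)

/-- An insertion `τ_m(φ_a)`. -/
abbrev Target.Ins : Type := ℕ × T.A

/-- The parity exponent of a class. -/
def Target.par (a : T.A) : ℕ := T.p a + T.q a

/-- The inverse of the pairing. -/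
def Target.ι : Matrix T.A T.A ℂ := T.η⁻¹

/-- The grading `μ`. -/
def Target.mu (a : T.A) : ℂ := (T.p a : ℂ) - (T.D : ℂ) / 2

/-- The coefficient of `s ^ i` in `(s + x)(s + x + 1)⋯(s + x + K - 1)`. -/
def br (x : ℂ) (K i : ℕ) : ℂ :=
  (∏ j ∈ range K, (Polynomial.X + Polynomial.C (x + (j : ℂ)))).coeff i

/-- Functions of lists of insertions. -/
abbrev Target.Fn : Type := List T.Ins → ℂ

variable {T}

/-- Sum over the positions of a list: the insertion `s` is replaced by the combination `R s`. -/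
def der (R : T.Ins → (T.Ins →₀ ℂ)) : T.Fn → List T.Ins → ℂ
  | _, [] => 0
  | G, s :: S => ((R s).sum fun x c => c * G (x :: S)) + der R (fun S => G (s :: S)) S

/-- The product with Koszul signs: the sum over all ways to distribute the list on two factors; `w`
is the parity of what stands before the list and belongs to the second factor. -/
def mul : ℕ → T.Fn → T.Fn → List T.Ins → ℂ
  | _, G, H, [] => G [] * H []
  | w, G, H, s :: S =>
    (-1) ^ (w * T.par s.2) * mul w (fun S => G (s :: S)) H S +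
      mul (w + T.par s.2) G (fun S => H (s :: S)) S

variable (T)

/-- `τ_m(φ_a) ↦ τ_{m-1}(φ_a)`. -/
def low (s : T.Ins) : T.Ins →₀ ℂ := if s.1 = 0 then 0 else Finsupp.single (s.1 - 1, s.2) 1

/-- `τ_m(φ_a) ↦ ∑ i, [μ_a + m + 1/2]^{K-1}_i τ_{m+K-1-i}(c_1^i φ_a)`. -/
def vir (K : ℕ) (s : T.Ins) : T.Ins →₀ ℂ :=
  ∑ i ∈ range (K + 1), if i + 1 ≤ s.1 + K then
    ∑ b, Finsupp.single (s.1 + K - 1 - i, b) (br (T.mu s.2 + s.1 + 1 / 2) K i * (T.C ^ i) s.2 b)
  else 0

/-- `τ_m(φ_a) ↦ τ_{m-1}(c_1 φ_a)`. -/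
def divr (s : T.Ins) : T.Ins →₀ ℂ :=
  if s.1 = 0 then 0 else ∑ b, Finsupp.single (s.1 - 1, b) (T.C s.2 b)

/-- The dilaton-shift term. -/
def shift (K : ℕ) : T.Ins →₀ ℂ :=
  ∑ i ∈ range (K + 1), ∑ b,
    Finsupp.single (K - i, b) (br ((3 - (T.D : ℂ)) / 2) K i * (T.C ^ i) T.one b)

/-- The bivector of the second-order term. -/
def biv (K : ℕ) : T.Ins × T.Ins →₀ ℂ :=
  ∑ i ∈ range (K - 1), ∑ nm ∈ antidiagonal (K - 2 - i), ∑ c, ∑ a, ∑ b,
    Finsupp.single ((nm.1, c), (nm.2, b))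
      ((-1) ^ (nm.1 + 1) * T.ι c a * br (T.mu a - nm.1 - 1 / 2) K i * (T.C ^ i) a b)

/-- The function of lists with value `(M a b)` at `[τ_0(φ_a), τ_0(φ_b)]` and zero elsewhere. -/
def two (M : Matrix T.A T.A ℂ) : T.Fn
  | [(0, a), (0, b)] => M a b
  | _ => 0

/-- The function of lists with value `c` at the empty list. -/
def cst (c : ℂ) : T.Fn
  | [] => c
  | _ => 0

/-- The super trace of `μ^2`. -/
def strMuSq : ℂ := ∑ a, (-1) ^ T.par a * T.mu a ^ 2

/-- Systems of numbers `F g d [x_1, ..., x_n] = ⟨x_1 ⋯ x_n⟩_{g,d}`. -/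
abbrev Corr : Type := ℕ → T.B → T.Fn

variable {T}

/-- The coefficient of `ħ^(g-1) Q^d` and of the product of the variables dual to the list in
`Z⁻¹ L_{K-1} Z`. -/
def z (F : Corr T) (K g : ℕ) (d : T.B) (S : List T.Ins) : ℂ :=
  -((shift T K).sum fun x c => c * F g d (x :: S)) + der (vir T K) (F g d) S +
    (1 / 2) * ((biv T K).sum fun xy c => c *
      ((if g = 0 then 0 else F (g - 1) d (xy.1 :: xy.2 :: S)) +
        ∑ gg ∈ antidiagonal g, ∑ dd ∈ antidiagonal d, mul (T.par xy.2.2)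
          (fun S => F gg.1 dd.1 (xy.1 :: S)) (fun S => F gg.2 dd.2 (xy.2 :: S)) S)) +
    (if g = 0 ∧ d = 0 then two T ((T.C ^ K) * T.η) S else 0) +
    (if K = 1 ∧ g = 1 ∧ d = 0 then cst T (T.χ / 16 - strMuSq T / 4) S else 0)

/-- The standard properties of the cohomology ring of a smooth projective variety. -/
structure IsTarget (T : Target) : Prop where
  p_one : T.p T.one = 0
  q_one : T.q T.one = 0
  C_type : ∀ a b, T.C a b ≠ 0 → T.p b = T.p a + 1 ∧ T.q b = T.q a + 1
  η_type : ∀ a b, T.η a b ≠ 0 → T.p a + T.p b = T.D ∧ T.q a + T.q b = T.D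
  η_symm : ∀ a b, T.η a b = (-1) ^ (T.par a * T.par b) * T.η b a
  nondeg : T.η.det ≠ 0
  C_adj : T.C * T.η = T.η * T.C.transpose
  c1_zero : T.c1 0 = 0
  c1_add : ∀ d d', T.c1 (d + d') = T.c1 d + T.c1 d'
  χ_eq : T.χ = ∑ a, (-1 : ℂ) ^ T.par a
  libgoberWood : (3 - (T.D : ℂ)) * T.χ / 48 - T.c1cD / 24 = T.χ / 16 - strMuSq T / 4

/-- The standard properties of the descendant Gromov-Witten invariants of `X`: graded symmetry, the
dimension condition (for both parts of the Hodge type), the convention for the unstable cases, the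
string and dilaton equations. -/
structure IsGW0 (T : Target) (F : Corr T) : Prop where
  symm : ∀ g d S₁ x y S₂, F g d (S₁ ++ x :: y :: S₂) =
    (-1) ^ (T.par x.2 * T.par y.2) * F g d (S₁ ++ y :: x :: S₂)
  dim_p : ∀ g d S, F g d S ≠ 0 →
    (S.map fun s => ((s.1 + T.p s.2 : ℕ) : ℤ) - 1).sum = ((T.D : ℤ) - 3) * (1 - g) + T.c1 d
  dim_q : ∀ g d S, F g d S ≠ 0 →
    (S.map fun s => ((s.1 + T.q s.2 : ℕ) : ℤ) - 1).sum = ((T.D : ℤ) - 3) * (1 - g) + T.c1 d
  unst : ∀ S, S.length < 3 → F 0 0 S = 0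
  unst1 : F 1 0 [] = 0
  string : ∀ g d S, F g d ((0, T.one) :: S) = der (low T) (F g d) S +
    (if g = 0 ∧ d = 0 then two T T.η S else 0)
  dilaton : ∀ g d S, F g d ((1, T.one) :: S) = (2 * (g : ℂ) - 2 + S.length) * F g d S +
    (if g = 1 ∧ d = 0 then cst T (T.χ / 24) S else 0)

/-- Moreover the divisor equation for `c_1(X)` holds. -/
structure IsGW (T : Target) (F : Corr T) : Prop extends IsGW0 T F where
  divisor : ∀ g d S, ∑ b, T.C T.one b * F g d ((0, b) :: S) =
    (T.c1 d : ℂ) * F g d S + der (divr T) (F g d) S +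
    (if g = 0 ∧ d = 0 then two T (T.C * T.η) S else 0) +
    (if g = 1 ∧ d = 0 then cst T (-(T.c1cD / 24)) S else 0)

/-- The virtual dimension without marked points. -/
def vd (T : Target) (g : ℕ) (d : T.B) : ℤ := ((T.D : ℤ) - 3) * (1 - g) + T.c1 d

/-- A divisor class `h` on a target: the matrix of the cup product by `h`, the degrees `∫_d h` of the
curve classes and the number `∫ h c_{D-1}`. -/
structure Divisor (T : Target) where
  H : Matrix T.A T.A ℂ
  deg : T.B → ℤ
  hc : ℂ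

variable {T : Target}

/-- The standard properties of the cup product by a divisor class. -/
structure IsDivisor (T : Target) (P : Divisor T) : Prop where
  H_type : ∀ a b, P.H a b ≠ 0 → T.p b = T.p a + 1 ∧ T.q b = T.q a + 1
  H_adj : P.H * T.η = T.η * P.H.transpose
  H_comm : P.H * T.C = T.C * P.H
  deg_zero : P.deg 0 = 0
  deg_add : ∀ d d', P.deg (d + d') = P.deg d + P.deg d'

/-- `τ_m(φ_a) ↦ τ_{m-1}(h φ_a)`. -/
def divh (P : Divisor T) (s : T.Ins) : T.Ins →₀ ℂ :=
  if s.1 = 0 then 0 else ∑ b, Finsupp.single (s.1 - 1, b) (P.H s.2 b)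

/-- `τ_0(h)`. -/
def hv (P : Divisor T) : T.Ins →₀ ℂ := ∑ b, Finsupp.single (0, b) (P.H T.one b)

/-- The divisor equation for `h`. -/
def IsGWDiv (T : Target) (P : Divisor T) (F : Corr T) : Prop :=
  ∀ g d S, ∑ b, P.H T.one b * F g d ((0, b) :: S) =
    (P.deg d : ℂ) * F g d S + der (divh P) (F g d) S +
    (if g = 0 ∧ d = 0 then two T (P.H * T.η) S else 0) +
    (if g = 1 ∧ d = 0 then cst T (-(P.hc / 24)) S else 0)

/-- Lists of insertions `τ_m(φ_a)` with `2m + p_a + q_a ≥ 3`. -/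
def Red (S : List T.Ins) : Prop := ∀ s ∈ S, 3 ≤ 2 * s.1 + T.p s.2 + T.q s.2

/-- `(1 + x)^(N+1) / ∏ (1 + e_j x)`, the total Chern class of a complete intersection of degrees
`e_j` in projective space of dimension `N`, as a series in the hyperplane class. -/
def chern {c : ℕ} (N : ℕ) (e : Fin c → ℕ) : PowerSeries ℂ :=
  (1 + PowerSeries.X) ^ (N + 1) * ∏ j, (1 + PowerSeries.C (e j : ℂ) * PowerSeries.X)⁻¹

/-- `N + 1 - ∑ e_j`. -/
def idx {c : ℕ} (N : ℕ) (e : Fin c → ℕ) : ℤ := N + 1 - ∑ j, (e j : ℤ)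

/-- The cohomology of a complete intersection `X` of degrees `e_j` and dimension `D` in projective
space of dimension `D + c`: the powers `h^i`, `i ≤ D`, of the hyperplane class and a basis `V` of the
primitive classes, of Hodge types `(pV v, qV v)` and with pairing `ηV`. -/
def ci (D : ℕ) {c : ℕ} (e : Fin c → ℕ) (V : Type) [Fintype V] (pV qV : V → ℕ)
    (ηV : Matrix V V ℂ) : Target where
  A := Fin (D + 1) ⊕ V
  B := ℕ
  D := D
  p := Sum.elim (fun i => i) pV
  q := Sum.elim (fun i => i) qV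
  one := Sum.inl 0
  η := Matrix.fromBlocks (Matrix.of fun i j => if (i : ℕ) + j = D then ∏ k, (e k : ℂ) else 0)
    0 0 ηV
  C := Matrix.fromBlocks
    (Matrix.of fun i j => if (j : ℕ) = i + 1 then (idx (D + c) e : ℂ) else 0) 0 0 0
  c1 d := idx (D + c) e * d
  c1cD := (idx (D + c) e : ℂ) * (∏ k, (e k : ℂ)) * PowerSeries.coeff (D - 1) (chern (D + c) e)
  χ := (∏ k, (e k : ℂ)) * PowerSeries.coeff D (chern (D + c) e)

/-- The hyperplane class of a complete intersection. -/
def ciDiv (D : ℕ) {c : ℕ} (e : Fin c → ℕ) (V : Type) [Fintype V] (pV qV : V → ℕ)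
    (ηV : Matrix V V ℂ) : Divisor (ci D e V pV qV ηV) where
  H := Matrix.fromBlocks (Matrix.of fun i j : Fin (D + 1) => if (j : ℕ) = i + 1 then (1 : ℂ) else 0)
    0 0 (0 : Matrix V V ℂ)
  deg := fun d : ℕ => (d : ℤ)
  hc := (∏ k, (e k : ℂ)) * PowerSeries.coeff (D - 1) (chern (D + c) e)

/-- The known properties of the primitive cohomology (of dimension `D ≥ 1`): Hodge types, graded
symmetry and nondegeneracy of the pairing, the Gauss-Bonnet formula for the Euler characteristic and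
the Libgober-Wood formula. -/
structure IsPrimitive (D : ℕ) {c : ℕ} (e : Fin c → ℕ) (V : Type) [Fintype V] (pV qV : V → ℕ)
    (ηV : Matrix V V ℂ) : Prop where
  type : ∀ v, pV v + qV v = D
  pair : ∀ v w, ηV v w ≠ 0 → pV v + pV w = D
  symm : ∀ v w, ηV v w = (-1) ^ D * ηV w v
  nondeg : ηV.det ≠ 0
  gaussBonnet : ((D : ℂ) + 1) + (-1) ^ D * Fintype.card V = (ci D e V pV qV ηV).χ
  libgoberWood : strMuSq (ci D e V pV qV ηV) = (D : ℂ) * (ci D e V pV qV ηV).χ / 12 +
    (ci D e V pV qV ηV).c1cD / 6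

end Vale.Agent.P269.R2.H284
end
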