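import Vale.Agent.P269.R2.H284.Op

noncomputable section

namespace Vale.Agent.P269.R2.H284

open Finset
open scoped Classical

variable {T : Target}

/-- the identity as an operation on insertions -/
def idI (s : T.Ins) : T.Ins →₀ ℂ := Finsupp.single s 1

theorem ext_idI (u : T.Ins →₀ ℂ) : ext (idI (T := T)) u = u := by
  unfold ext idI
  simp

theorem der_idI (G : T.Fn) (S : List T.Ins) : der idI G S = S.length * G S := by
  have := der_diag (T := T) (fun _ => 1) G S
  unfold idI
  rw [this]
  simp

/-- The dilaton operator. -/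
def dil (G : T.Fn) : T.Fn := op (Finsupp.single (1, T.one) 1) idI G

theorem dil_eq (G : T.Fn) (S : List T.Ins) :
    dil G S = G ((1, T.one) :: S) - S.length * G S := by
  unfold dil op
  rw [ins_single, der_idI, one_mul]

theorem two_zero (S : List T.Ins) : two T (0 : Matrix T.A T.A ℂ) S = 0 := by
  match S with
  | [] => rfl
  | [s] => exact two_sing _ _
  | [s, t] => rw [two_pair]; simp
  | s :: t :: u :: S => exact two_long _ _ _ _ _

theorem dil_isOp (hT : IsTarget T) {F : Corr T} (hF : IsGW T F) :
    IsOp T (Finsupp.single (1, T.one) 1) idI F (fun g _ => 2 * (g : ℂ) - 2) 2 0 (T.χ / 24) where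
  vev := by
    intro x hx
    obtain ⟨rfl, _⟩ := single_ne hx
    simp [Target.par, hT.p_one, hT.q_one]
  Rev := by
    intro s x hx
    obtain ⟨rfl, _⟩ := single_ne hx
    rfl
  lam_add := by
    intro g d gg hgg dd hdd
    have : gg.1 + gg.2 = g := by simpa using hgg
    rw [← this]
    push_cast
    ring
  lam_one := by
    intro g d
    push_cast
    ring
  eq := by
    intro g d S
    have := dil_eq (F g d) S
    unfold dil at this
    rw [this, hF.dilaton, two_zero]
    simp only [ite_self, add_zero]
    ring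

theorem vir_e1 (hT : IsTarget T) (K : ℕ) : vir T K (1, T.one) = shift T K := by
  unfold vir shift
  apply Finset.sum_congr rfl
  intro i hi
  have hi' : i ≤ K := by simpa [Nat.lt_succ_iff] using hi
  rw [if_pos (by simp only; omega)]
  apply Finset.sum_congr rfl
  intro b _
  have e1 : (((1, T.one) : T.Ins).1 + K - 1 - i) = K - i := by simp only; omega
  rw [e1]
  simp only
  have e2 : T.mu T.one + ((1 : ℕ) : ℂ) + 1 / 2 = (3 - (T.D : ℂ)) / 2 := by
    rw [mu_one hT]; push_cast; ring
  rw [e2]

theorem dil_two (M : Matrix T.A T.A ℂ) (S : List T.Ins) :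
    dil (two T M) S = -2 * two T M S := by
  rw [dil_eq]
  match S with
  | [] => rw [two_sing, two_nil]; simp
  | [s] => rw [two_pair, two_sing]; simp
  | [s, t] => rw [two_long]; simp
  | s :: t :: u :: S => rw [two_long, two_long]; simp

/-- the dilaton equation for the coefficients of `Z⁻¹ L_k Z` -/
theorem z_dil (hT : IsTarget T) {F : Corr T} (hF : IsGW T F) (K g : ℕ) (d : T.B)
    (S : List T.Ins) : dil (z F K g d) S = (2 * (g : ℂ) - 2) * z F K g d S := by
  have hO := dil_isOp hT hF
  have hfn : op (Finsupp.single (1, T.one) 1) idI (F g d) = (2 * (g : ℂ) - 2) • F g d +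
      fun S => if g = 1 ∧ d = 0 then cst T (T.χ / 24) S else 0 := by
    funext S
    rw [hO.eq, two_zero]
    simp only [ite_self, add_zero, Pi.add_apply, Pi.smul_apply, smul_eq_mul]
  have hins : ∀ u : T.Ins →₀ ℂ, ins u (fun S => if g = 1 ∧ d = 0 then cst T (T.χ / 24) S else 0)
      = 0 := by
    intro u
    funext S
    rw [ins_of_zero]
    · rfl
    · intro x
      split_ifs <;> rfl
  have hder : ∀ R : T.Ins → (T.Ins →₀ ℂ), ∀ S,
      der R (fun S => if g = 1 ∧ d = 0 then cst T (T.χ / 24) S else 0) S = 0 := by
    intro R S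
    cases S with
    | nil => rfl
    | cons s S =>
      rw [der_cons, ins_of_zero]
      · have : (fun S => (fun S => if g = 1 ∧ d = 0 then cst T (T.χ / 24) S else 0) (s :: S))
            = 0 := by
          funext S
          simp only
          split_ifs <;> rfl
        rw [this, der_zero]
        ring
      · intro x
        split_ifs <;> rfl
  unfold dil
  rw [z_eq]
  simp only [op_add, op_smul, Pi.add_apply, Pi.smul_apply, smul_eq_mul]
  rw [op_ins hO.vev (hF.sy g d).ev, op_der, ext_idI]
  rw [op_finsupp_sum (biv T K) (fun xy => Phi F g d xy.1 xy.2) S]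
  have e1 : ext (vir T K) (Finsupp.single (1, T.one) 1) = shift T K := by
    rw [ext_single, one_smul, vir_e1 hT]
  have e2 : (fun s => ext idI (vir T K s)) = vir T K := by
    funext s; exact ext_idI _
  have e3 : (fun s => ext (vir T K) (idI s)) = vir T K := by
    funext s
    unfold idI
    rw [ext_single, one_smul]
  have e4 : ((biv T K).sum fun xy c => c * op (Finsupp.single (1, T.one) 1) idI
      (Phi F g d xy.1 xy.2) S) = (2 * (g : ℂ) - 2) *
      (biv T K).sum fun xy c => c * Phi F g d xy.1 xy.2 S := by
    rw [Finsupp.mul_sum]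
    apply Finsupp.sum_congr
    intro xy _
    rw [op_Phi hF hO g d xy.1 xy.2 (fun y' hy' => hO.Rev _ _ hy')]
    have e5 : excM (0 : Matrix T.A T.A ℂ) F g d xy.1 xy.2 S = 0 := by
      unfold excM
      have t1 : ∀ x : T.Ins, (fun S => two T (0 : Matrix T.A T.A ℂ) (x :: S)) = 0 := by
        intro x; funext S; exact two_zero _
      rw [t1, t1, mul_zero_left, mul_zero_right, two_zero]
      simp
    rw [e5]
    unfold idI
    simp only [Finsupp.sum_single_index, zero_mul, one_mul]
    ring
  rw [e1, e2, e3, e4, hfn]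
  simp only [ins_add_fn, ins_smul_fn, hins, der_add, der_smul, hder, Pi.add_apply, Pi.smul_apply,
    smul_eq_mul, Pi.zero_apply]
  have e6 : op (Finsupp.single (1, T.one) 1) idI
      (fun S => if g = 0 ∧ d = 0 then two T (T.C ^ K * T.η) S else 0) S =
      (2 * (g : ℂ) - 2) * (if g = 0 ∧ d = 0 then two T (T.C ^ K * T.η) S else 0) := by
    by_cases h : g = 0 ∧ d = 0
    · simp only [if_pos h]
      have := dil_two (T.C ^ K * T.η) S
      unfold dil at this
      have e7 : (fun S => two T (T.C ^ K * T.η) S) = two T (T.C ^ K * T.η) := rfl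
      rw [e7, this, h.1]
      push_cast
      ring
    · simp only [if_neg h]
      have := op_zero (v := Finsupp.single ((1, T.one) : T.Ins) (1 : ℂ)) (R := idI) S
      have e7 : (fun _ => (0 : ℂ)) = (0 : T.Fn) := rfl
      rw [e7, this]
      ring
  have e8 : op (Finsupp.single (1, T.one) 1) idI
      (fun S => if K = 1 ∧ g = 1 ∧ d = 0 then cst T (T.χ / 16 - strMuSq T / 4) S else 0) S =
      (2 * (g : ℂ) - 2) * (if K = 1 ∧ g = 1 ∧ d = 0 then
        cst T (T.χ / 16 - strMuSq T / 4) S else 0) := by
    by_cases h : K = 1 ∧ g = 1 ∧ d = 0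
    · simp only [if_pos h]
      have e7 : (fun S => cst T (T.χ / 16 - strMuSq T / 4) S) =
        cst T (T.χ / 16 - strMuSq T / 4) := rfl
      rw [e7, op_cst, h.2.1]
      push_cast
      ring
    · simp only [if_neg h]
      have := op_zero (v := Finsupp.single ((1, T.one) : T.Ins) (1 : ℂ)) (R := idI) S
      have e7 : (fun _ => (0 : ℂ)) = (0 : T.Fn) := rfl
      rw [e7, this]
      ring
  rw [e6, e8]
  ring

end Vale.Agent.P269.R2.H284
end
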