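import Vale.Agent.P269.R2.H284.Str

noncomputable section

namespace Vale.Agent.P269.R2.H284

open Finset
open scoped Classical

variable {T : Target}

/-- the weight of a list -/
def wt (f : T.A → ℕ) (S : List T.Ins) : ℤ := (S.map fun s => ((s.1 + f s.2 : ℕ) : ℤ) - 1).sum

/-- the function has weight `w` -/
def Wt (f : T.A → ℕ) (w : ℤ) (G : T.Fn) : Prop := ∀ S, G S ≠ 0 → wt f S = w

theorem wt_cons (f : T.A → ℕ) (s : T.Ins) (S : List T.Ins) :
    wt f (s :: S) = (((s.1 + f s.2 : ℕ) : ℤ) - 1) + wt f S := by simp [wt]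

theorem Wt.cons {f : T.A → ℕ} {w : ℤ} {G : T.Fn} (h : Wt f w G) (x : T.Ins) :
    Wt f (w - (((x.1 + f x.2 : ℕ) : ℤ) - 1)) (fun S => G (x :: S)) := by
  intro S hS
  have := h _ hS
  rw [wt_cons] at this
  omega

theorem ins_ne_zero {v : T.Ins →₀ ℂ} {G : T.Fn} {S : List T.Ins} (h : ins v G S ≠ 0) :
    ∃ x, v x ≠ 0 ∧ G (x :: S) ≠ 0 := by
  unfold ins Finsupp.sum at h
  obtain ⟨x, hx, h2⟩ := Finset.exists_ne_zero_of_sum_ne_zero h
  exact ⟨x, by simpa using hx, right_ne_zero_of_mul h2⟩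

theorem Wt.ins {f : T.A → ℕ} {w u : ℤ} {G : T.Fn} (h : Wt f w G) {v : T.Ins →₀ ℂ}
    (hv : ∀ x, v x ≠ 0 → ((x.1 + f x.2 : ℕ) : ℤ) - 1 = u) : Wt f (w - u) (ins v G) := by
  intro S hS
  obtain ⟨x, hx, h2⟩ := ins_ne_zero hS
  have := h.cons x S h2
  rw [hv x hx] at this
  exact this

theorem Wt.der {f : T.A → ℕ} {w u : ℤ} {G : T.Fn} (h : Wt f w G)
    {R : T.Ins → (T.Ins →₀ ℂ)}
    (hv : ∀ s x, R s x ≠ 0 → ((x.1 + f x.2 : ℕ) : ℤ) - 1 = ((s.1 + f s.2 : ℕ) : ℤ) - 1 + u) :
    Wt f (w - u) (der R G) := by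
  intro S hS
  induction S generalizing w G with
  | nil => exact absurd rfl hS
  | cons s S ih =>
    rw [der_cons] at hS
    by_cases h1 : H284.ins (R s) G S = 0
    · rw [h1, zero_add] at hS
      have := ih (h.cons s) hS
      rw [wt_cons]
      omega
    · obtain ⟨x, hx, h2⟩ := ins_ne_zero h1
      have := h _ h2
      rw [wt_cons] at this ⊢
      have h3 := hv s x hx
      omega

theorem Wt.mul {f : T.A → ℕ} {w w' : ℤ} {G H : T.Fn} (hG : Wt f w G) (hH : Wt f w' H) (n : ℕ) :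
    Wt f (w + w') (mul n G H) := by
  intro S hS
  induction S generalizing w w' G H n with
  | nil =>
    have h1 := hG [] (left_ne_zero_of_mul hS)
    have h2 := hH [] (right_ne_zero_of_mul hS)
    have : wt f ([] : List T.Ins) = 0 := by simp [wt]
    rw [this] at h1 h2 ⊢
    omega
  | cons s S ih =>
    rw [mul_cons] at hS
    rw [wt_cons]
    by_cases h1 : H284.mul n (fun S => G (s :: S)) H S = 0
    · rw [h1, mul_zero, zero_add] at hS
      have := ih hG (hH.cons s) _ hS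
      omega
    · have := ih (hG.cons s) hH _ h1
      omega

theorem Wt.add {f : T.A → ℕ} {w : ℤ} {G H : T.Fn} (hG : Wt f w G) (hH : Wt f w H) :
    Wt f w (G + H) := by
  intro S hS
  by_cases h : G S = 0
  · apply hH
    intro h'
    exact hS (by simp [h, h'])
  · exact hG S h

theorem Wt.smul {f : T.A → ℕ} {w : ℤ} {G : T.Fn} (hG : Wt f w G) (c : ℂ) :
    Wt f w (c • G) := by
  intro S hS
  exact hG S (fun h => hS (by simp [h]))

/-- a grading -/
structure IsGr (T : Target) (f : T.A → ℕ) : Prop where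
  one : f T.one = 0
  C : ∀ i a b, (T.C ^ i) a b ≠ 0 → f b = f a + i
  η : ∀ a b, T.η a b ≠ 0 → f a + f b = T.D
  ι : ∀ a b, T.ι a b ≠ 0 → f a + f b = T.D

theorem IsTarget.grp (hT : IsTarget T) : IsGr T T.p where
  one := hT.p_one
  C i a b h := (hT.Cpow_type i a b h).1
  η a b h := (hT.η_type a b h).1
  ι a b h := (hT.ι_type a b h).1

theorem IsTarget.grq (hT : IsTarget T) : IsGr T T.q where
  one := hT.q_one
  C i a b h := (hT.Cpow_type i a b h).2
  η a b h := (hT.η_type a b h).2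
  ι a b h := (hT.ι_type a b h).2

theorem finsupp_sum_ne {κ ι' : Type*} {s : Finset ι'} {v : ι' → κ →₀ ℂ} {x : κ}
    (h : (∑ i ∈ s, v i) x ≠ 0) : ∃ i ∈ s, v i x ≠ 0 := by
  rw [Finsupp.finsetSum_apply] at h
  obtain ⟨i, hi, h2⟩ := Finset.exists_ne_zero_of_sum_ne_zero h
  exact ⟨i, hi, h2⟩

theorem single_ne {κ : Type*} {x y : κ} {c : ℂ} (h : Finsupp.single x c y ≠ 0) :
    x = y ∧ c ≠ 0 := by
  by_cases hxy : x = y
  · subst hxy
    refine ⟨rfl, ?_⟩
    simpa using h
  · exact absurd (Finsupp.single_eq_of_ne' hxy) h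

theorem shift_wt {f : T.A → ℕ} (hf : IsGr T f) (K : ℕ) (x : T.Ins) (h : shift T K x ≠ 0) :
    ((x.1 + f x.2 : ℕ) : ℤ) - 1 = (K : ℤ) - 1 := by
  unfold shift at h
  obtain ⟨i, hi, h⟩ := finsupp_sum_ne h
  obtain ⟨b, _, h⟩ := finsupp_sum_ne h
  obtain ⟨hxy, h'⟩ := single_ne h
  subst hxy
  have hi' : i ≤ K := by simpa [Nat.lt_succ_iff] using hi
  have := hf.C i T.one b (right_ne_zero_of_mul h')
  rw [hf.one] at this
  simp only
  omega

theorem vir_wt {f : T.A → ℕ} (hf : IsGr T f) (K : ℕ) (s x : T.Ins) (h : vir T K s x ≠ 0) :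
    ((x.1 + f x.2 : ℕ) : ℤ) - 1 = ((s.1 + f s.2 : ℕ) : ℤ) - 1 + ((K : ℤ) - 1) := by
  unfold vir at h
  obtain ⟨i, hi, h⟩ := finsupp_sum_ne h
  split_ifs at h with h0
  · obtain ⟨b, _, h⟩ := finsupp_sum_ne h
    obtain ⟨hxy, h'⟩ := single_ne h
    subst hxy
    have := hf.C i s.2 b (right_ne_zero_of_mul h')
    simp only
    omega
  · simp at h

theorem biv_wt {f : T.A → ℕ} (hf : IsGr T f) (K : ℕ) (xy : T.Ins × T.Ins)
    (h : biv T K xy ≠ 0) :
    (((xy.1.1 + f xy.1.2 : ℕ) : ℤ) - 1) + (((xy.2.1 + f xy.2.2 : ℕ) : ℤ) - 1) =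
      (K : ℤ) + T.D - 4 := by
  unfold biv at h
  obtain ⟨i, hi, h⟩ := finsupp_sum_ne h
  obtain ⟨nm, hnm, h⟩ := finsupp_sum_ne h
  obtain ⟨c, _, h⟩ := finsupp_sum_ne h
  obtain ⟨a, _, h⟩ := finsupp_sum_ne h
  obtain ⟨b, _, h⟩ := finsupp_sum_ne h
  obtain ⟨hxy, h'⟩ := single_ne h
  subst hxy
  have h1 := hf.C i a b (right_ne_zero_of_mul h')
  have h2 := hf.ι c a (right_ne_zero_of_mul (left_ne_zero_of_mul (left_ne_zero_of_mul h')))
  have h3 : nm.1 + nm.2 = K - 2 - i := by simpa using hnm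
  have h4 : i < K - 1 := by simpa using hi
  simp only
  omega

theorem Cη_wt {f : T.A → ℕ} (hf : IsGr T f) (K : ℕ) (a b : T.A)
    (h : (T.C ^ K * T.η) a b ≠ 0) : f a + K + f b = T.D := by
  rw [Matrix.mul_apply] at h
  obtain ⟨e, _, he⟩ := Finset.exists_ne_zero_of_sum_ne_zero h
  have h1 := hf.C K a e (left_ne_zero_of_mul he)
  have h2 := hf.η e b (right_ne_zero_of_mul he)
  omega

theorem c1_antidiag (hT : IsTarget T) {d : T.B} {dd : T.B × T.B} (h : dd ∈ antidiagonal d) :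
    T.c1 d = T.c1 dd.1 + T.c1 dd.2 := by
  have : dd.1 + dd.2 = d := by simpa using h
  rw [← this, hT.c1_add]

theorem z_wt (hT : IsTarget T) {f : T.A → ℕ} (hf : IsGr T f) {F : Corr T}
    (hF : ∀ g d, Wt f (vd T g d) (F g d)) (K g : ℕ) (d : T.B) :
    Wt f (vd T g d - ((K : ℤ) - 1)) (z F K g d) := by
  rw [z_eq]
  refine Wt.add (Wt.add (Wt.add (Wt.add ?_ ?_) ?_) ?_) ?_
  · exact ((hF g d).ins (shift_wt hf K)).smul _
  · exact (hF g d).der (vir_wt hf K)
  · apply Wt.smul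
    intro S hS
    unfold Finsupp.sum at hS
    obtain ⟨xy, hx, h2⟩ := Finset.exists_ne_zero_of_sum_ne_zero hS
    have hw := biv_wt hf K xy (by simpa using hx)
    have h3 := right_ne_zero_of_mul h2
    unfold Phi at h3
    by_cases h4 : (if g = 0 then 0 else F (g - 1) d (xy.1 :: xy.2 :: S)) = 0
    · rw [h4, zero_add] at h3
      obtain ⟨gg, hgg, h3⟩ := Finset.exists_ne_zero_of_sum_ne_zero h3
      obtain ⟨dd, hdd, h3⟩ := Finset.exists_ne_zero_of_sum_ne_zero h3
      have := Wt.mul ((hF gg.1 dd.1).cons xy.1) ((hF gg.2 dd.2).cons xy.2) _ S h3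
      rw [this]
      have h5 := c1_antidiag hT hdd
      have h6 : gg.1 + gg.2 = g := by simpa using hgg
      unfold vd
      rw [← h6, h5]
      push_cast
      push_cast at hw
      linarith
    · by_cases hg : g = 0
      · simp [hg] at h4
      · rw [if_neg hg] at h4
        have := ((hF (g - 1) d).cons xy.1).cons xy.2 S h4
        rw [this]
        unfold vd
        have h7 : ((g - 1 : ℕ) : ℤ) = (g : ℤ) - 1 := by
          rw [Nat.cast_sub (by omega)]; simp
        rw [h7]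
        linarith
  · intro S hS
    by_cases h : g = 0 ∧ d = 0
    · simp only [if_pos h] at hS
      obtain ⟨rfl, rfl⟩ := h
      match S with
      | [] => exact absurd rfl hS
      | [s] => exact absurd (two_sing _ _) hS
      | [s, t] =>
        rw [two_pair] at hS
        split_ifs at hS with h0
        · have := Cη_wt hf K _ _ hS
          simp only [wt, List.map_cons, List.sum_cons, List.map_nil, List.sum_nil, vd,
            hT.c1_zero, h0.1, h0.2]
          push_cast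
          have h8 : (f s.2 : ℤ) + K + f t.2 = T.D := by exact_mod_cast this
          linarith
        · exact absurd rfl hS
      | s :: t :: u :: S => exact absurd (two_long _ _ _ _ _) hS
    · simp only [if_neg h] at hS
      exact absurd rfl hS
  · intro S hS
    by_cases h : K = 1 ∧ g = 1 ∧ d = 0
    · simp only [if_pos h] at hS
      obtain ⟨rfl, rfl, rfl⟩ := h
      cases S with
      | nil => simp [wt, vd, hT.c1_zero]
      | cons s S => exact absurd rfl hS
    · simp only [if_neg h] at hS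
      exact absurd rfl hS

end Vale.Agent.P269.R2.H284
end
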