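import Vale.Agent.P269.R2.H284.Dil

noncomputable section

namespace Vale.Agent.P269.R2.H284

open Finset
open scoped Classical

variable {T : Target}

variable {P : Divisor T}

theorem divh_zero (a : T.A) : divh P (0, a) = 0 := by simp [divh]

theorem divh_succ (m : ℕ) (a : T.A) :
    divh P (m + 1, a) = ∑ b, Finsupp.single (m, b) (P.H a b) := by simp [divh]

theorem ins_hv (G : T.Fn) (S : List T.Ins) :
    ins (hv P) G S = ∑ b, P.H T.one b * G ((0, b) :: S) := by
  rw [ins_eq_lc, hv]
  simp only [map_sum, Finsupp.linearCombination_single, smul_eq_mul]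

theorem IsDivisor.H_mu (hP : IsDivisor T P) {a b : T.A} (h : P.H a b ≠ 0) :
    T.mu b = T.mu a + 1 := by
  have := (hP.H_type a b h).1
  unfold Target.mu
  rw [this]
  push_cast
  ring

theorem IsDivisor.H_par (hP : IsDivisor T P) {a b : T.A} (h : P.H a b ≠ 0) :
    T.par b % 2 = T.par a % 2 := by
  have := hP.H_type a b h
  unfold Target.par
  omega

theorem IsDivisor.H_Cpow (hP : IsDivisor T P) (i : ℕ) : P.H * T.C ^ i = T.C ^ i * P.H := by
  have : Commute P.H T.C := hP.H_comm
  exact this.pow_right i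

theorem hv_even (hT : IsTarget T) (hP : IsDivisor T P) : EvV (hv P) := by
  intro x hx
  unfold hv at hx
  obtain ⟨b, _, hx⟩ := finsupp_sum_ne hx
  obtain ⟨hxy, hx'⟩ := single_ne hx
  subst hxy
  have := hP.H_par hx'
  simp only
  rw [this]
  simp [Target.par, hT.p_one, hT.q_one]

theorem divh_even (hP : IsDivisor T P) : Even' (divh P) := by
  intro s x hx
  unfold divh at hx
  split_ifs at hx with h0
  · simp at hx
  · obtain ⟨b, _, hx⟩ := finsupp_sum_ne hx
    obtain ⟨hxy, hx'⟩ := single_ne hx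
    subst hxy
    exact hP.H_par hx'

/-- (D1) -/
theorem vir_hv (hT : IsTarget T) (hP : IsDivisor T P) (K : ℕ) :
    ext (vir T K) (hv P) = ext (divh P) (shift T K) := by
  unfold hv shift
  simp only [ext_sum, ext_single]
  unfold vir
  simp only [Finset.smul_sum]
  rw [Finset.sum_comm]
  apply Finset.sum_congr rfl
  intro i hi
  have hi' : i ≤ K := by simpa [Nat.lt_succ_iff] using hi
  by_cases h : i + 1 ≤ 0 + K
  · simp only [if_pos h]
    have e1 : K - i = (K - 1 - i) + 1 := by omega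
    have e2 : 0 + K - 1 - i = K - 1 - i := by omega
    simp only [e1, e2, divh_succ, Finset.smul_sum, Finsupp.smul_single, smul_eq_mul]
    rw [Finset.sum_comm]
    rw [Finset.sum_comm (f := fun x b' => Finsupp.single (K - 1 - i, b')
      (br ((3 - (T.D : ℂ)) / 2) K i * (T.C ^ i) T.one x * P.H x b'))]
    apply Finset.sum_congr rfl
    intro b' _
    rw [← Finsupp.single_finsetSum, ← Finsupp.single_finsetSum]
    congr 1
    have h1 : ∀ x, P.H T.one x * (br (T.mu x + ((0 : ℕ) : ℂ) + 1 / 2) K i * (T.C ^ i) x b') =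
        br ((3 - (T.D : ℂ)) / 2) K i * (P.H T.one x * (T.C ^ i) x b') := by
      intro x
      by_cases h0 : P.H T.one x = 0
      · rw [h0]; ring
      · have e3 : T.mu x + ((0 : ℕ) : ℂ) + 1 / 2 = (3 - (T.D : ℂ)) / 2 := by
          rw [hP.H_mu h0, mu_one hT]; push_cast; ring
        rw [e3]; ring
    rw [Finset.sum_congr rfl fun x _ => h1 x, ← Finset.mul_sum]
    have h2 : ∑ x, P.H T.one x * (T.C ^ i) x b' = ∑ x, (T.C ^ i) T.one x * P.H x b' := by
      have := congrFun (congrFun (hP.H_Cpow i) T.one) b'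
      rwa [Matrix.mul_apply, Matrix.mul_apply] at this
    rw [h2, Finset.mul_sum]
    apply Finset.sum_congr rfl
    intro x _
    ring
  · simp only [if_neg h, smul_zero, Finset.sum_const_zero]
    have e1 : K - i = 0 := by omega
    symm
    apply Finset.sum_eq_zero
    intro b _
    rw [e1, divh_zero, smul_zero]

/-- the boundary term -/
def bth (T : Target) (P : Divisor T) (K : ℕ) (s : T.Ins) : T.Ins →₀ ℂ :=
  if s.1 = 0 then ∑ i ∈ range (K - 1), ∑ b,
    Finsupp.single (K - 2 - i, b) (br (T.mu s.2 + 1 / 2) K i * (P.H * T.C ^ i) s.2 b)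
  else 0

/-- (D2) -/
theorem divh_vir (hP : IsDivisor T P) (K : ℕ) (s : T.Ins) :
    ext (divh P) (vir T K s) = ext (vir T K) (divh P s) + bth T P K s := by
  obtain ⟨m, a⟩ := s
  have hcomm : ∀ (i : ℕ) (b' : T.A), ∑ x, (T.C ^ i) a x * P.H x b' = (P.H * T.C ^ i) a b' := by
    intro i b'
    rw [hP.H_Cpow i, Matrix.mul_apply]
  cases m with
  | zero =>
    rw [divh_zero, ext_zero, zero_add]
    unfold vir bth
    simp only [ext_sum, if_true]
    -- terms with i ≤ K - 2
    have hterm : ∀ i ∈ range (K + 1), ext (divh P) (if i + 1 ≤ 0 + K then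
          ∑ b, Finsupp.single (0 + K - 1 - i, b)
            (br (T.mu a + ((0 : ℕ) : ℂ) + 1 / 2) K i * (T.C ^ i) a b) else 0) =
        if i < K - 1 then ∑ b, Finsupp.single (K - 2 - i, b)
          (br (T.mu a + 1 / 2) K i * (P.H * T.C ^ i) a b) else 0 := by
      intro i hi
      by_cases h : i < K - 1
      · rw [if_pos h, if_pos (by omega), ext_sum]
        have e1 : 0 + K - 1 - i = (K - 2 - i) + 1 := by omega
        simp only [ext_single, e1, divh_succ, Finset.smul_sum, Finsupp.smul_single, smul_eq_mul]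
        rw [Finset.sum_comm]
        apply Finset.sum_congr rfl
        intro b' _
        rw [← Finsupp.single_finsetSum]
        congr 1
        rw [← hcomm, Finset.mul_sum]
        apply Finset.sum_congr rfl
        intro x _
        push_cast
        ring_nf
      · rw [if_neg h]
        by_cases h1 : i + 1 ≤ 0 + K
        · rw [if_pos h1, ext_sum]
          have e1 : 0 + K - 1 - i = 0 := by omega
          apply Finset.sum_eq_zero
          intro b _
          rw [ext_single, e1, divh_zero, smul_zero]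
        · rw [if_neg h1, ext_zero]
    rw [Finset.sum_congr rfl hterm, ← Finset.sum_filter]
    apply Finset.sum_congr
    · ext i
      simp only [Finset.mem_filter, Finset.mem_range]
      omega
    · intro i _
      rfl
  | succ m =>
    unfold vir bth
    rw [if_neg (by simp), add_zero, divh_succ, ext_sum, ext_sum]
    simp only [ext_single, Finset.smul_sum]
    rw [Finset.sum_comm (s := univ)]
    apply Finset.sum_congr rfl
    intro i hi
    have hi' : i ≤ K := by simpa [Nat.lt_succ_iff] using hi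
    rw [if_pos (by omega), ext_sum]
    simp only [ext_single]
    by_cases h : i + 1 ≤ m + K
    · simp only [if_pos h]
      have e1 : m + 1 + K - 1 - i = (m + K - 1 - i) + 1 := by omega
      simp only [e1, divh_succ, Finset.smul_sum, Finsupp.smul_single, smul_eq_mul]
      rw [Finset.sum_comm]
      rw [Finset.sum_comm (f := fun x b' => Finsupp.single (m + K - 1 - i, b')
        (P.H a x * (br (T.mu x + (m : ℂ) + 1 / 2) K i * (T.C ^ i) x b')))]
      apply Finset.sum_congr rfl
      intro b' _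
      rw [← Finsupp.single_finsetSum, ← Finsupp.single_finsetSum]
      congr 1
      have h1 : ∀ x, P.H a x * (br (T.mu x + (m : ℂ) + 1 / 2) K i * (T.C ^ i) x b') =
          br (T.mu a + ((m + 1 : ℕ) : ℂ) + 1 / 2) K i * (P.H a x * (T.C ^ i) x b') := by
        intro x
        by_cases h0 : P.H a x = 0
        · rw [h0]; ring
        · have e3 : T.mu x + (m : ℂ) + 1 / 2 = T.mu a + ((m + 1 : ℕ) : ℂ) + 1 / 2 := by
            rw [hP.H_mu h0]; push_cast; ring
          rw [e3]; ring
      rw [Finset.sum_congr rfl fun x _ => h1 x, ← Finset.mul_sum]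
      have h2 : ∑ x, P.H a x * (T.C ^ i) x b' = ∑ x, (T.C ^ i) a x * P.H x b' := by
        rw [hcomm, Matrix.mul_apply]
      rw [h2, Finset.mul_sum]
      apply Finset.sum_congr rfl
      intro x _
      ring
    · have e1 : m + 1 + K - 1 - i = 0 := by omega
      simp only [if_neg h, e1, divh_zero, smul_zero, Finset.sum_const_zero]

/-- (D3) -/
theorem divh_biv (hT : IsTarget T) (hP : IsDivisor T P) (K : ℕ) (f : T.Ins → T.Ins → ℂ) :
    ((biv T K).sum fun xy c => c * (((divh P xy.1).sum fun x e => e * f x xy.2) +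
      ((divh P xy.2).sum fun y e => e * f xy.1 y))) = 0 := by
  have hb1 := biv_sum (T := T) K (fun xy => ((divh P xy.1).sum fun x e => e * f x xy.2) +
      ((divh P xy.2).sum fun y e => e * f xy.1 y))
  rw [hb1]
  have l0 : ∀ (c : T.A) (h : T.Ins → ℂ), ((divh P (0, c)).sum fun x e => e * h x) = 0 := by
    intro c h; rw [divh_zero]; simp
  have l1 : ∀ (n : ℕ) (c : T.A) (h : T.Ins → ℂ),
      ((divh P (n + 1, c)).sum fun x e => e * h x) = ∑ b, P.H c b * h (n, b) := by
    intro n c h
    rw [sum_mul_eq_lc, divh_succ]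
    simp only [map_sum, Finsupp.linearCombination_single, smul_eq_mul]
  have hιH : ∀ c' a, ∑ c, T.ι c a * P.H c c' = ∑ a', T.ι c' a' * P.H a' a := by
    intro c' a
    have : P.H.transpose * T.ι = T.ι * P.H := by
      calc P.H.transpose * T.ι = (T.ι * T.η) * P.H.transpose * T.ι := by rw [hT.ι_η, one_mul]
        _ = T.ι * (T.η * P.H.transpose) * T.ι := by rw [mul_assoc T.ι]
        _ = T.ι * (P.H * T.η) * T.ι := by rw [hP.H_adj]
        _ = T.ι * P.H * (T.η * T.ι) := by simp only [mul_assoc]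
        _ = T.ι * P.H := by rw [hT.η_ι, mul_one]
    have h2 := congrFun (congrFun this c') a
    rw [Matrix.mul_apply, Matrix.mul_apply] at h2
    rw [← h2]
    apply Finset.sum_congr rfl
    intro c _
    rw [Matrix.transpose_apply]; ring
  have key : ∀ (i M : ℕ), (∑ nm ∈ antidiagonal (M + 1), ∑ c, ∑ a, ∑ b,
      ((-1) ^ (nm.1 + 1) * T.ι c a * br (T.mu a - nm.1 - 1 / 2) K i * (T.C ^ i) a b) *
        (((divh P (nm.1, c)).sum fun x e => e * f x (nm.2, b)) +
          ((divh P (nm.2, b)).sum fun y e => e * f (nm.1, c) y))) = 0 := by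
    intro i M
    simp only [mul_add, Finset.sum_add_distrib]
    rw [Finset.Nat.sum_antidiagonal_succ, Finset.Nat.sum_antidiagonal_succ']
    simp only [l0, l1, mul_zero, Finset.sum_const_zero, zero_add]
    rw [← Finset.sum_add_distrib]
    apply Finset.sum_eq_zero
    intro nm _
    -- first part
    have A1 : (∑ c, ∑ a, ∑ b,
        (-1 : ℂ) ^ (nm.1 + 1 + 1) * T.ι c a * br (T.mu a - ((nm.1 + 1 : ℕ) : ℂ) - 1 / 2) K i *
          (T.C ^ i) a b * ∑ c', P.H c c' * f (nm.1, c') (nm.2, b)) =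
        ∑ c', ∑ b, (-1 : ℂ) ^ nm.1 * (∑ a', T.ι c' a' * br (T.mu a' - nm.1 - 1 / 2) K i *
          (P.H * T.C ^ i) a' b) * f (nm.1, c') (nm.2, b) := by
      have B1 : ∀ c' b, (-1 : ℂ) ^ nm.1 * (∑ a', T.ι c' a' * br (T.mu a' - nm.1 - 1 / 2) K i *
          (P.H * T.C ^ i) a' b) * f (nm.1, c') (nm.2, b) =
          ∑ a, ∑ c, (-1 : ℂ) ^ (nm.1 + 1 + 1) * T.ι c a *
            br (T.mu a - ((nm.1 + 1 : ℕ) : ℂ) - 1 / 2) K i *
            (T.C ^ i) a b * (P.H c c' * f (nm.1, c') (nm.2, b)) := by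
        intro c' b
        have B2 : ∀ a, (∑ c, (-1 : ℂ) ^ (nm.1 + 1 + 1) * T.ι c a *
            br (T.mu a - ((nm.1 + 1 : ℕ) : ℂ) - 1 / 2) K i *
            (T.C ^ i) a b * (P.H c c' * f (nm.1, c') (nm.2, b))) =
            ∑ a', (-1 : ℂ) ^ nm.1 * (T.ι c' a' * br (T.mu a' - nm.1 - 1 / 2) K i *
              (P.H a' a * (T.C ^ i) a b)) * f (nm.1, c') (nm.2, b) := by
          intro a
          have C1 : (∑ c, (-1 : ℂ) ^ (nm.1 + 1 + 1) * T.ι c a *
            br (T.mu a - ((nm.1 + 1 : ℕ) : ℂ) - 1 / 2) K i *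
            (T.C ^ i) a b * (P.H c c' * f (nm.1, c') (nm.2, b))) =
            ((-1 : ℂ) ^ nm.1 * br (T.mu a - ((nm.1 + 1 : ℕ) : ℂ) - 1 / 2) K i *
            (T.C ^ i) a b * f (nm.1, c') (nm.2, b)) * ∑ c, T.ι c a * P.H c c' := by
            rw [Finset.mul_sum]
            apply Finset.sum_congr rfl
            intro c _
            rw [pow_succ, pow_succ]
            ring
          rw [C1, hιH, Finset.mul_sum]
          apply Finset.sum_congr rfl
          intro a' _
          by_cases h0 : P.H a' a = 0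
          · rw [h0]; ring
          · have e3 : T.mu a - ((nm.1 + 1 : ℕ) : ℂ) - 1 / 2 = T.mu a' - nm.1 - 1 / 2 := by
              rw [hP.H_mu h0]; push_cast; ring
            rw [e3]; ring
        rw [Finset.sum_congr rfl fun a _ => B2 a, Finset.sum_comm, Finset.mul_sum,
          Finset.sum_mul]
        apply Finset.sum_congr rfl
        intro a' _
        rw [Matrix.mul_apply, Finset.mul_sum, Finset.mul_sum, Finset.sum_mul]
      rw [Finset.sum_congr rfl fun c' _ => Finset.sum_congr rfl fun b _ => B1 c' b]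
      -- reorder the sums
      simp only [Finset.mul_sum]
      -- LHS: ∑ c, a, b, c' ; RHS: ∑ c', b, a, c
      rw [show (∑ c, ∑ a, ∑ b, ∑ c', (-1 : ℂ) ^ (nm.1 + 1 + 1) * T.ι c a *
            br (T.mu a - ((nm.1 + 1 : ℕ) : ℂ) - 1 / 2) K i *
            (T.C ^ i) a b * (P.H c c' * f (nm.1, c') (nm.2, b))) =
          ∑ x : T.A × T.A × T.A × T.A, (-1 : ℂ) ^ (nm.1 + 1 + 1) * T.ι x.1 x.2.1 *
            br (T.mu x.2.1 - ((nm.1 + 1 : ℕ) : ℂ) - 1 / 2) K i *
            (T.C ^ i) x.2.1 x.2.2.1 * (P.H x.1 x.2.2.2 *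
              f (nm.1, x.2.2.2) (nm.2, x.2.2.1)) from by
          simp only [Fintype.sum_prod_type]]
      rw [show (∑ c', ∑ b, ∑ a, ∑ c, (-1 : ℂ) ^ (nm.1 + 1 + 1) * T.ι c a *
            br (T.mu a - ((nm.1 + 1 : ℕ) : ℂ) - 1 / 2) K i *
            (T.C ^ i) a b * (P.H c c' * f (nm.1, c') (nm.2, b))) =
          ∑ x : T.A × T.A × T.A × T.A, (-1 : ℂ) ^ (nm.1 + 1 + 1) * T.ι x.2.2.2 x.2.2.1 *
            br (T.mu x.2.2.1 - ((nm.1 + 1 : ℕ) : ℂ) - 1 / 2) K i *
            (T.C ^ i) x.2.2.1 x.2.1 * (P.H x.2.2.2 x.1 *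
              f (nm.1, x.1) (nm.2, x.2.1)) from by
          simp only [Fintype.sum_prod_type]]
      refine Fintype.sum_bijective (fun x : T.A × T.A × T.A × T.A =>
        (x.2.2.2, x.2.2.1, x.2.1, x.1)) ?_ _ _ ?_
      · constructor
        · rintro ⟨a, b, c, d⟩ ⟨a', b', c', d'⟩ h
          simp only [Prod.mk.injEq] at h ⊢
          tauto
        · rintro ⟨a, b, c, d⟩
          exact ⟨(d, c, b, a), rfl⟩
      · rintro ⟨a, b, c, d⟩
        rfl
    -- second part
    have A2 : (∑ c, ∑ a, ∑ b,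
        (-1 : ℂ) ^ (nm.1 + 1) * T.ι c a * br (T.mu a - (nm.1 : ℂ) - 1 / 2) K i *
          (T.C ^ i) a b * ∑ b', P.H b b' * f (nm.1, c) (nm.2, b')) =
        ∑ c', ∑ b, -((-1 : ℂ) ^ nm.1 * (∑ a', T.ι c' a' * br (T.mu a' - nm.1 - 1 / 2) K i *
          (P.H * T.C ^ i) a' b) * f (nm.1, c') (nm.2, b)) := by
      apply Finset.sum_congr rfl
      intro c _
      have B1 : ∀ b', -((-1 : ℂ) ^ nm.1 * (∑ a', T.ι c a' * br (T.mu a' - nm.1 - 1 / 2) K i *
          (P.H * T.C ^ i) a' b') * f (nm.1, c) (nm.2, b')) =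
          ∑ a, ∑ b, (-1 : ℂ) ^ (nm.1 + 1) * T.ι c a * br (T.mu a - (nm.1 : ℂ) - 1 / 2) K i *
          (T.C ^ i) a b * (P.H b b' * f (nm.1, c) (nm.2, b')) := by
        intro b'
        rw [Finset.mul_sum, Finset.sum_mul, ← Finset.sum_neg_distrib]
        apply Finset.sum_congr rfl
        intro a _
        rw [hP.H_Cpow, Matrix.mul_apply, Finset.mul_sum, Finset.mul_sum, Finset.sum_mul,
          ← Finset.sum_neg_distrib]
        apply Finset.sum_congr rfl
        intro b _
        rw [pow_succ]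
        ring
      rw [Finset.sum_congr rfl fun b' _ => B1 b']
      symm
      rw [Finset.sum_comm]
      apply Finset.sum_congr rfl
      intro a _
      rw [Finset.sum_comm]
      apply Finset.sum_congr rfl
      intro b _
      rw [Finset.mul_sum]
    rw [A1, A2, ← Finset.sum_add_distrib]
    apply Finset.sum_eq_zero
    intro c' _
    rw [← Finset.sum_add_distrib]
    apply Finset.sum_eq_zero
    intro b _
    ring
  rcases Nat.lt_or_ge K 2 with hK | hK
  · have : K - 1 = 0 := by omega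
    rw [this]
    simp
  · obtain ⟨L, rfl⟩ : ∃ L, K = L + 2 := ⟨K - 2, by omega⟩
    have e1 : L + 2 - 1 = L + 1 := by omega
    rw [e1, Finset.sum_range_succ]
    have e3 : L + 2 - 2 - L = 0 := by omega
    rw [e3]
    have e4 : (∑ nm ∈ antidiagonal (0 : ℕ), ∑ c, ∑ a, ∑ b,
      ((-1) ^ (nm.1 + 1) * T.ι c a * br (T.mu a - nm.1 - 1 / 2) (L + 2) L *
        (T.C ^ L) a b) *
        (((divh P (nm.1, c)).sum fun x e => e * f x (nm.2, b)) +
          ((divh P (nm.2, b)).sum fun y e => e * f (nm.1, c) y))) = 0 := by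
      simp [l0]
    rw [e4, add_zero]
    apply Finset.sum_eq_zero
    intro i hi
    have hi' : i < L := by simpa using hi
    have e5 : L + 2 - 2 - i = (L - i - 1) + 1 := by omega
    rw [e5]
    exact key i _

end Vale.Agent.P269.R2.H284
end
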