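import Vale.Agent.P269.R2.H284.DivA

noncomputable section

namespace Vale.Agent.P269.R2.H284

open Finset
open scoped Classical

variable {T : Target} {P : Divisor T}

theorem Hη_type (hT : IsTarget T) (hP : IsDivisor T P) (a b : T.A)
    (h : (P.H * T.η) a b ≠ 0) : T.p a + 1 + T.p b = T.D ∧ T.q a + 1 + T.q b = T.D := by
  rw [Matrix.mul_apply] at h
  obtain ⟨e, _, he⟩ := Finset.exists_ne_zero_of_sum_ne_zero h
  have h1 := hP.H_type a e (left_ne_zero_of_mul he)
  have h2 := hT.η_type e b (right_ne_zero_of_mul he)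
  omega

theorem Hη_par (hT : IsTarget T) (hP : IsDivisor T P) (a b : T.A)
    (h : (P.H * T.η) a b ≠ 0) : T.par b % 2 = T.par a % 2 := by
  have := Hη_type hT hP a b h
  unfold Target.par
  omega

theorem CHη_type (hT : IsTarget T) (hP : IsDivisor T P) (i : ℕ) (a b : T.A)
    (h : (T.C ^ i * (P.H * T.η)) a b ≠ 0) : T.p a + i + 1 + T.p b = T.D := by
  rw [Matrix.mul_apply] at h
  obtain ⟨e, _, he⟩ := Finset.exists_ne_zero_of_sum_ne_zero h
  have h1 := hT.Cpow_type i a e (left_ne_zero_of_mul he)
  have h2 := Hη_type hT hP e b (right_ne_zero_of_mul he)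
  omega

theorem der_bth (K : ℕ) (G : T.Fn) (S : List T.Ins) :
    der (bth T P K) G S = ∑ i ∈ range (K - 1), ∑ b, der (fun s => Finsupp.single (K - 2 - i, b)
      (if s.1 = 0 then br (T.mu s.2 + 1 / 2) K i * (P.H * T.C ^ i) s.2 b else 0)) G S := by
  have : bth T P K = fun s => ∑ i ∈ range (K - 1), ∑ b, Finsupp.single (K - 2 - i, b)
      (if s.1 = 0 then br (T.mu s.2 + 1 / 2) K i * (P.H * T.C ^ i) s.2 b else 0) := by
    funext s
    unfold bth
    split_ifs with h
    · rfl
    · simp
  rw [this, der_sumR]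
  apply Finset.sum_congr rfl
  intro i _
  rw [der_sumR]

theorem contrh_left (hT : IsTarget T) (hP : IsDivisor T P) (K : ℕ) {F : T.Fn} (hF : Sy F)
    (S : List T.Ins) :
    ((biv T K).sum fun xy c => c * mul (T.par xy.2.2)
      (fun S => two T (P.H * T.η) (xy.1 :: S)) (fun S => F (xy.2 :: S)) S) =
      -der (bth T P K) F S := by
  have hb := biv_sum (T := T) K (fun xy => mul (T.par xy.2.2)
      (fun S => two T (P.H * T.η) (xy.1 :: S)) (fun S => F (xy.2 :: S)) S)
  rw [hb, der_bth, ← Finset.sum_neg_distrib]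
  apply Finset.sum_congr rfl
  intro i hi
  have hi' : i < K - 1 := by simpa using hi
  have hz : ∀ nm ∈ antidiagonal (K - 2 - i), nm ≠ (0, K - 2 - i) →
      (∑ c, ∑ a, ∑ b, ((-1) ^ (nm.1 + 1) * T.ι c a * br (T.mu a - nm.1 - 1 / 2) K i *
        (T.C ^ i) a b) * mul (T.par b) (fun S => two T (P.H * T.η) ((nm.1, c) :: S))
          (fun S => F ((nm.2, b) :: S)) S) = 0 := by
    intro nm hnm hne
    have h1 : nm.1 + nm.2 = K - 2 - i := by simpa using hnm
    have h2 : nm.1 ≠ 0 := by
      intro h0
      apply hne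
      ext
      · exact h0
      · simp only; omega
    refine Finset.sum_eq_zero fun c _ => Finset.sum_eq_zero fun a _ =>
      Finset.sum_eq_zero fun b _ => ?_
    have : (fun S => two T (P.H * T.η) ((nm.1, c) :: S)) = 0 := by
      rw [two_cons]
      funext S
      match S with
      | [] => rfl
      | [s] => simp [one1, h2]
      | s :: t :: S => rfl
    rw [this, mul_zero_left, mul_zero]
  have hmem : ((0, K - 2 - i) : ℕ × ℕ) ∈ antidiagonal (K - 2 - i) := by simp
  rw [Finset.sum_eq_single_of_mem _ hmem (fun nm h1 h2 => hz nm h1 h2)]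
  simp only
  have hterm : ∀ c a b, ((-1) ^ (0 + 1) * T.ι c a * br (T.mu a - ((0 : ℕ) : ℂ) - 1 / 2) K i *
        (T.C ^ i) a b) * mul (T.par b) (fun S => two T (P.H * T.η) ((0, c) :: S))
          (fun S => F ((K - 2 - i, b) :: S)) S =
      der (fun s => Finsupp.single (K - 2 - i, b)
        ((-((-1) ^ T.par b * br (T.mu a - 1 / 2) K i * (T.C ^ i) a b * T.ι c a)) *
          (if s.1 = 0 then (P.H * T.η) c s.2 else 0))) F S := by
    intro c a b
    rw [der_single_mul]
    by_cases h1 : T.ι c a = 0
    · rw [h1]; ring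
    by_cases h2 : (T.C ^ i) a b = 0
    · rw [h2]; ring
    rw [two_cons, mul_one_left _ _ _ hF]
    · have h3 : (-1 : ℂ) ^ (T.par b * T.par b) = (-1) ^ T.par b := by
        apply neg_pow_congr
        rcases Nat.mod_two_eq_zero_or_one (T.par b) with h | h <;> simp [Nat.mul_mod, h]
      simp only [true_and, h3, Nat.cast_zero, sub_zero]
      ring
    · intro s hs
      simp only [true_and] at hs
      have h4 : (P.H * T.η) c s.2 ≠ 0 := by
        intro h0
        rw [h0] at hs
        simp at hs
      have p1 := hT.ι_par c a h1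
      have p2 := hT.Cpow_par i a b h2
      have p3 := Hη_par hT hP c s.2 h4
      simp only
      omega
  rw [Finset.sum_congr rfl fun c _ => Finset.sum_congr rfl fun a _ =>
    Finset.sum_congr rfl fun b _ => hterm c a b]
  have hcomm : (∑ c, ∑ a, ∑ b, der (fun s => Finsupp.single (K - 2 - i, b)
        ((-((-1) ^ T.par b * br (T.mu a - 1 / 2) K i * (T.C ^ i) a b * T.ι c a)) *
          (if s.1 = 0 then (P.H * T.η) c s.2 else 0))) F S) =
      ∑ b, ∑ a, ∑ c, der (fun s => Finsupp.single (K - 2 - i, b)
        ((-((-1) ^ T.par b * br (T.mu a - 1 / 2) K i * (T.C ^ i) a b * T.ι c a)) *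
          (if s.1 = 0 then (P.H * T.η) c s.2 else 0))) F S := by
    rw [Finset.sum_comm]
    rw [Finset.sum_congr rfl fun a _ => Finset.sum_comm]
    rw [Finset.sum_comm]
  rw [hcomm, ← Finset.sum_neg_distrib]
  apply Finset.sum_congr rfl
  intro b _
  rw [der_single_neg]
  have hin : ∀ a, (∑ c, der (fun s => Finsupp.single (K - 2 - i, b)
        ((-((-1) ^ T.par b * br (T.mu a - 1 / 2) K i * (T.C ^ i) a b * T.ι c a)) *
          (if s.1 = 0 then (P.H * T.η) c s.2 else 0))) F S) =
      der (fun s => ∑ c, Finsupp.single (K - 2 - i, b)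
        ((-((-1) ^ T.par b * br (T.mu a - 1 / 2) K i * (T.C ^ i) a b * T.ι c a)) *
          (if s.1 = 0 then (P.H * T.η) c s.2 else 0))) F S := by
    intro a
    rw [der_sumR]
  rw [Finset.sum_congr rfl fun a _ => hin a, ← der_sumR]
  congr 1
  funext s
  simp only [← Finsupp.single_finsetSum]
  congr 1
  by_cases hs : s.1 = 0
  · simp only [hs, if_true]
    have h5 : ∀ a, (∑ c, (-((-1 : ℂ) ^ T.par b * br (T.mu a - 1 / 2) K i * (T.C ^ i) a b *
        T.ι c a)) * (P.H * T.η) c s.2) = -(br (T.mu s.2 + 1 / 2) K i *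
          (P.H s.2 a * (T.C ^ i) a b)) := by
      intro a
      have h6 : (∑ c, (-((-1 : ℂ) ^ T.par b * br (T.mu a - 1 / 2) K i * (T.C ^ i) a b *
        T.ι c a)) * (P.H * T.η) c s.2) = (-((-1 : ℂ) ^ T.par b * br (T.mu a - 1 / 2) K i *
          (T.C ^ i) a b)) * ∑ c, T.ι c a * (P.H * T.η) c s.2 := by
        rw [Finset.mul_sum]
        apply Finset.sum_congr rfl
        intro c _
        ring
      have h7 : ∑ c, T.ι c a * (P.H * T.η) c s.2 = (-1) ^ T.par a * P.H s.2 a := by
        have : ∀ c, T.ι c a * (P.H * T.η) c s.2 =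
            ∑ x, P.H s.2 x * (T.ι c a * T.η c x) := by
          intro c
          rw [hP.H_adj, Matrix.mul_apply, Finset.mul_sum]
          apply Finset.sum_congr rfl
          intro x _
          rw [Matrix.transpose_apply]; ring
        rw [Finset.sum_congr rfl fun c _ => this c, Finset.sum_comm]
        have h8 : ∀ x, ∑ c, P.H s.2 x * (T.ι c a * T.η c x) =
            P.H s.2 x * ((-1) ^ T.par a * if x = a then 1 else 0) := by
          intro x
          rw [← Finset.mul_sum, hT.sum_sign]
        rw [Finset.sum_congr rfl fun x _ => h8 x]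
        simp [mul_comm]
      rw [h6, h7]
      by_cases h9 : (T.C ^ i) a b = 0
      · rw [h9]; ring
      by_cases h10 : P.H s.2 a = 0
      · rw [h10]; ring
      have p2 := hT.Cpow_par i a b h9
      have h8 : (-1 : ℂ) ^ T.par b * (-1) ^ T.par a = 1 := by
        rw [← pow_add]
        have : (T.par b + T.par a) % 2 = 0 := by omega
        rw [neg_pow_congr (a := T.par b + T.par a) (b := 0) (by simpa using this)]
        simp
      have h11 : T.mu a - 1 / 2 = T.mu s.2 + 1 / 2 := by
        rw [hP.H_mu h10]; ring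
      rw [h11]
      linear_combination (-(br (T.mu s.2 + 1 / 2) K i * (T.C ^ i) a b * P.H s.2 a)) * h8
    rw [Finset.sum_congr rfl fun a _ => h5 a, Finset.sum_neg_distrib, ← Finset.mul_sum,
      Matrix.mul_apply]
  · simp [hs]

theorem contrh_right (hT : IsTarget T) (hP : IsDivisor T P) (K : ℕ) {F : T.Fn} (hF : Sy F)
    (hp : Pt 0 F) (S : List T.Ins) :
    ((biv T K).sum fun xy c => c * mul (T.par xy.2.2)
      (fun S => F (xy.1 :: S)) (fun S => two T (P.H * T.η) (xy.2 :: S)) S) =
      -der (bth T P K) F S := by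
  have hb := biv_sum (T := T) K (fun xy => mul (T.par xy.2.2)
      (fun S => F (xy.1 :: S)) (fun S => two T (P.H * T.η) (xy.2 :: S)) S)
  rw [hb, der_bth, ← Finset.sum_neg_distrib]
  apply Finset.sum_congr rfl
  intro i hi
  have hi' : i < K - 1 := by simpa using hi
  have hz : ∀ nm ∈ antidiagonal (K - 2 - i), nm ≠ (K - 2 - i, 0) →
      (∑ c, ∑ a, ∑ b, ((-1) ^ (nm.1 + 1) * T.ι c a * br (T.mu a - nm.1 - 1 / 2) K i *
        (T.C ^ i) a b) * mul (T.par b) (fun S => F ((nm.1, c) :: S))
          (fun S => two T (P.H * T.η) ((nm.2, b) :: S)) S) = 0 := by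
    intro nm hnm hne
    have h1 : nm.1 + nm.2 = K - 2 - i := by simpa using hnm
    have h2 : nm.2 ≠ 0 := by
      intro h0
      apply hne
      ext
      · simp only; omega
      · exact h0
    refine Finset.sum_eq_zero fun c _ => Finset.sum_eq_zero fun a _ =>
      Finset.sum_eq_zero fun b _ => ?_
    have : (fun S => two T (P.H * T.η) ((nm.2, b) :: S)) = 0 := by
      rw [two_cons]
      funext S
      match S with
      | [] => rfl
      | [s] => simp [one1, h2]
      | s :: t :: S => rfl
    rw [this, mul_zero_right, mul_zero]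
  have hmem : ((K - 2 - i, 0) : ℕ × ℕ) ∈ antidiagonal (K - 2 - i) := by simp
  rw [Finset.sum_eq_single_of_mem _ hmem (fun nm h1 h2 => hz nm h1 h2)]
  simp only
  have hterm : ∀ c a b, ((-1) ^ (K - 2 - i + 1) * T.ι c a *
        br (T.mu a - ((K - 2 - i : ℕ) : ℂ) - 1 / 2) K i *
        (T.C ^ i) a b) * mul (T.par b) (fun S => F ((K - 2 - i, c) :: S))
          (fun S => two T (P.H * T.η) ((0, b) :: S)) S =
      der (fun s => Finsupp.single (K - 2 - i, c)
        (((-1) ^ (K - 2 - i + 1) * T.ι c a *
        br (T.mu a - ((K - 2 - i : ℕ) : ℂ) - 1 / 2) K i * (T.C ^ i) a b) *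
          (if s.1 = 0 then (P.H * T.η) b s.2 else 0))) F S := by
    intro c a b
    rw [der_single_mul]
    by_cases h1 : T.ι c a = 0
    · rw [h1]; ring
    by_cases h2 : (T.C ^ i) a b = 0
    · rw [h2]; ring
    have p1 := hT.ι_par c a h1
    have p2 := hT.Cpow_par i a b h2
    rw [two_cons, mul_one_right _ (K - 2 - i, c) _ hF hp]
    · have h3 : (-1 : ℂ) ^ ((T.par b + T.par ((K - 2 - i, c) : T.Ins).2) *
          (0 + T.par ((K - 2 - i, c) : T.Ins).2)) = 1 := by
        have : (T.par b + T.par c) % 2 = 0 := by omega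
        rw [neg_pow_congr (b := 0)]
        · simp
        · rw [Nat.mul_mod, this, zero_mul]
      rw [h3]
      simp only [true_and, one_mul]
    · intro s hs
      simp only [true_and] at hs
      have h4 : (P.H * T.η) b s.2 ≠ 0 := by
        intro h0
        rw [h0] at hs
        simp at hs
      have p3 := Hη_par hT hP b s.2 h4
      simp only
      omega
  rw [Finset.sum_congr rfl fun c _ => Finset.sum_congr rfl fun a _ =>
    Finset.sum_congr rfl fun b _ => hterm c a b, ← Finset.sum_neg_distrib]
  apply Finset.sum_congr rfl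
  intro c _
  rw [der_single_neg]
  have hin : ∀ a, (∑ b, der (fun s => Finsupp.single (K - 2 - i, c)
        (((-1) ^ (K - 2 - i + 1) * T.ι c a *
        br (T.mu a - ((K - 2 - i : ℕ) : ℂ) - 1 / 2) K i * (T.C ^ i) a b) *
          (if s.1 = 0 then (P.H * T.η) b s.2 else 0))) F S) =
      der (fun s => ∑ b, Finsupp.single (K - 2 - i, c)
        (((-1) ^ (K - 2 - i + 1) * T.ι c a *
        br (T.mu a - ((K - 2 - i : ℕ) : ℂ) - 1 / 2) K i * (T.C ^ i) a b) *
          (if s.1 = 0 then (P.H * T.η) b s.2 else 0))) F S := by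
    intro a
    rw [der_sumR]
  rw [Finset.sum_congr rfl fun a _ => hin a, ← der_sumR]
  congr 1
  funext s
  simp only [← Finsupp.single_finsetSum]
  congr 1
  by_cases hs : s.1 = 0
  · simp only [hs, if_true]
    have h5 : ∀ a, (∑ b, ((-1 : ℂ) ^ (K - 2 - i + 1) * T.ι c a *
        br (T.mu a - ((K - 2 - i : ℕ) : ℂ) - 1 / 2) K i * (T.C ^ i) a b) *
          (P.H * T.η) b s.2) = -(br (T.mu s.2 + 1 / 2) K i) *
            (T.ι c a * (T.C ^ i * (P.H * T.η)) a s.2) := by
      intro a
      have h6 : (∑ b, ((-1 : ℂ) ^ (K - 2 - i + 1) * T.ι c a *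
        br (T.mu a - ((K - 2 - i : ℕ) : ℂ) - 1 / 2) K i * (T.C ^ i) a b) *
          (P.H * T.η) b s.2) = ((-1 : ℂ) ^ (K - 2 - i + 1) *
        br (T.mu a - ((K - 2 - i : ℕ) : ℂ) - 1 / 2) K i) *
          (T.ι c a * (T.C ^ i * (P.H * T.η)) a s.2) := by
        rw [Matrix.mul_apply, Finset.mul_sum, Finset.mul_sum]
        apply Finset.sum_congr rfl
        intro b _
        ring
      rw [h6]
      by_cases h7 : (T.C ^ i * (P.H * T.η)) a s.2 = 0
      · rw [h7]; ring
      have ht := CHη_type hT hP i a s.2 h7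
      obtain ⟨L, rfl⟩ : ∃ L, K = L + 1 := ⟨K - 1, by omega⟩
      have hmu : T.mu a - ((L + 1 - 2 - i : ℕ) : ℂ) - 1 / 2 = -(T.mu s.2 + 1 / 2) - (L : ℂ) := by
        have e1 : (L + 1 - 2 - i : ℕ) = (L : ℂ) - 1 - i := by
          have : L + 1 - 2 - i = L - (1 + i) := by omega
          rw [this, Nat.cast_sub (by omega)]
          push_cast; ring
        have e2 : (T.p a : ℂ) + i + 1 + T.p s.2 = T.D := by exact_mod_cast ht
        rw [e1]
        unfold Target.mu
        linear_combination e2
      rw [hmu, br_reflect]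
      have hsg : (-1 : ℂ) ^ (L + 1 - 2 - i + 1) * (-1) ^ (L + 1 + i) = -1 := by
        rw [← pow_add]
        have : L + 1 - 2 - i + 1 + (L + 1 + i) = 2 * L + 1 := by omega
        rw [this, pow_succ, pow_mul]
        simp
      linear_combination (br (T.mu s.2 + 1 / 2) (L + 1) i *
        (T.ι c a * (T.C ^ i * (P.H * T.η)) a s.2)) * hsg
    rw [Finset.sum_congr rfl fun a _ => h5 a, ← Finset.mul_sum]
    have h8 : ∑ a, T.ι c a * (T.C ^ i * (P.H * T.η)) a s.2 = (P.H * T.C ^ i) s.2 c := by
      have h9 : ∑ a, T.ι c a * (T.C ^ i * (P.H * T.η)) a s.2 =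
          (T.ι * (T.C ^ i * (P.H * T.η))) c s.2 := by
        rw [Matrix.mul_apply]
      have h10 : T.C ^ i * (P.H * T.η) = T.η * (P.H * T.C ^ i).transpose := by
        rw [hP.H_adj, ← mul_assoc, hT.Cpow_adj, mul_assoc, Matrix.transpose_mul]
      rw [h9, h10, ← mul_assoc, hT.ι_η, one_mul, Matrix.transpose_apply]
    rw [h8]; ring
  · simp [hs]

theorem biv_twoh (hT : IsTarget T) (hP : IsDivisor T P) (K : ℕ) (S : List T.Ins) :
    ((biv T K).sum fun xy c => c * two T (P.H * T.η) (xy.1 :: xy.2 :: S)) = 0 := by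
  have hb := biv_sum (T := T) K (fun xy => two T (P.H * T.η) (xy.1 :: xy.2 :: S))
  rw [hb]
  refine Finset.sum_eq_zero fun i _ => Finset.sum_eq_zero fun nm _ =>
      Finset.sum_eq_zero fun c _ => Finset.sum_eq_zero fun a _ =>
      Finset.sum_eq_zero fun b _ => ?_
  match S with
  | s :: S => rw [two_long, mul_zero]
  | [] =>
    rw [two_pair]
    by_cases h1 : T.ι c a = 0
    · rw [h1]; ring
    by_cases h2 : (T.C ^ i) a b = 0
    · rw [h2]; ring
    have p1 := (hT.ι_type c a h1).1
    have p2 := (hT.Cpow_type i a b h2).1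
    have : (P.H * T.η) c b = 0 := by
      by_contra h3
      have := (Hη_type hT hP c b h3).1
      omega
    simp only [this, ite_self, mul_zero]

theorem two_div (hT : IsTarget T) (hP : IsDivisor T P) (K : ℕ) (S : List T.Ins) :
    -ins (shift T (K + 1)) (two T (P.H * T.η)) S + der (vir T (K + 1)) (two T (P.H * T.η)) S +
      op (hv P) (divh P) (two T (T.C ^ (K + 1) * T.η)) S = 0 := by
  unfold op
  match S with
  | [] =>
    rw [ins_of_zero _ _ _ (fun x => two_sing _ x), ins_of_zero _ _ _ (fun x => two_sing _ x),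
      der_nil, der_nil]
    ring
  | [s] =>
    rw [der_cons, der_cons, der_nil, der_nil, ins_of_zero _ _ _ (fun x => two_sing _ x),
      ins_of_zero _ _ _ (fun x => two_sing _ x), ins_shift, ins_hv]
    rw [Finset.sum_eq_single_of_mem (K + 1) (by simp)]
    · have e1 : (∑ b, br ((3 - (T.D : ℂ)) / 2) (K + 1) (K + 1) * (T.C ^ (K + 1)) T.one b *
          two T (P.H * T.η) [(K + 1 - (K + 1), b), s]) = if s.1 = 0 then
            (P.H * (T.C ^ (K + 1) * T.η)) T.one s.2 else 0 := by
        rw [br_top]
        by_cases hs : s.1 = 0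
        · rw [if_pos hs, ← mul_assoc, hP.H_Cpow, mul_assoc, Matrix.mul_apply]
          apply Finset.sum_congr rfl
          intro b _
          rw [two_pair]
          simp [hs]
        · rw [if_neg hs]
          apply Finset.sum_eq_zero
          intro b _
          rw [two_pair]
          simp [hs]
      have e2 : (∑ b, P.H T.one b * two T (T.C ^ (K + 1) * T.η) [(0, b), s]) = if s.1 = 0 then
            (P.H * (T.C ^ (K + 1) * T.η)) T.one s.2 else 0 := by
        by_cases hs : s.1 = 0
        · rw [if_pos hs, Matrix.mul_apply]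
          apply Finset.sum_congr rfl
          intro b _
          rw [two_pair]
          simp [hs]
        · rw [if_neg hs]
          apply Finset.sum_eq_zero
          intro b _
          rw [two_pair]
          simp [hs]
      rw [e1, e2]
      ring
    · intro i hi hne
      have hi' : i ≤ K + 1 := by simpa [Nat.lt_succ_iff] using hi
      apply Finset.sum_eq_zero
      intro b _
      rw [two_pair, if_neg, mul_zero]
      rintro ⟨h1, _⟩
      have h1' : K + 1 - i = 0 := h1
      omega
  | [s, t] =>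
    rw [ins_of_zero _ _ _ (fun x => two_long _ x s t []),
      ins_of_zero _ _ _ (fun x => two_long _ x s t []), der_cons, der_cons, der_nil,
      der_cons, der_cons, der_nil]
    have hs : ins (vir T (K + 1) s) (two T (P.H * T.η)) [t] =
      if s.1 = 0 then br (T.mu s.2 + 1 / 2) (K + 1) K *
        ∑ b, (T.C ^ K) s.2 b * (if t.1 = 0 then (P.H * T.η) b t.2 else 0)
      else if s.1 = 1 then ∑ b, (T.C ^ (K + 1)) s.2 b * (if t.1 = 0 then (P.H * T.η) b t.2 else 0)
        else 0 := by
      apply ins_vir_zero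
      intro n b
      rw [two_pair]
      by_cases h1 : n = 0 <;> by_cases h2 : t.1 = 0 <;> simp [h1, h2]
    have ht : ins (vir T (K + 1) t) (fun S => two T (P.H * T.η) (s :: S)) [] =
      if t.1 = 0 then br (T.mu t.2 + 1 / 2) (K + 1) K *
        ∑ b, (T.C ^ K) t.2 b * (if s.1 = 0 then (P.H * T.η) s.2 b else 0)
      else if t.1 = 1 then ∑ b, (T.C ^ (K + 1)) t.2 b * (if s.1 = 0 then (P.H * T.η) s.2 b else 0)
        else 0 := by
      apply ins_vir_zero
      intro n b
      rw [two_pair]
      by_cases h1 : n = 0 <;> by_cases h2 : s.1 = 0 <;> simp [h1, h2]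
    have hds : ins (divh P s) (two T (T.C ^ (K + 1) * T.η)) [t] =
        if s.1 = 1 ∧ t.1 = 0 then (P.H * (T.C ^ (K + 1) * T.η)) s.2 t.2 else 0 := by
      obtain ⟨m, a⟩ := s
      cases m with
      | zero => rw [divh_zero, ins_zero]; simp
      | succ m =>
        rw [divh_succ, ins_eq_lc]
        simp only [map_sum, Finsupp.linearCombination_single, smul_eq_mul, two_pair]
        by_cases h1 : m = 0 ∧ t.1 = 0
        · rw [if_pos (by simp [h1.1, h1.2]), Matrix.mul_apply]
          apply Finset.sum_congr rfl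
          intro b _
          rw [if_pos h1]
        · rw [if_neg (by intro h'; exact h1 ⟨by omega, h'.2⟩)]
          apply Finset.sum_eq_zero
          intro b _
          rw [if_neg h1, mul_zero]
    have hdt : ins (divh P t) (fun S => two T (T.C ^ (K + 1) * T.η) (s :: S)) [] =
        if t.1 = 1 ∧ s.1 = 0 then (T.C ^ (K + 1) * (P.H * T.η)) s.2 t.2 else 0 := by
      obtain ⟨m, a⟩ := t
      cases m with
      | zero => rw [divh_zero, ins_zero]; simp
      | succ m =>
        rw [divh_succ, ins_eq_lc]
        simp only [map_sum, Finsupp.linearCombination_single, smul_eq_mul, two_pair]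
        by_cases h1 : m = 0 ∧ s.1 = 0
        · rw [if_pos (by simp [h1.1, h1.2])]
          have e3 : T.C ^ (K + 1) * (P.H * T.η) = (T.C ^ (K + 1) * T.η) * P.H.transpose := by
            rw [hP.H_adj, mul_assoc]
          rw [e3, Matrix.mul_apply]
          apply Finset.sum_congr rfl
          intro b _
          rw [if_pos ⟨h1.2, h1.1⟩, Matrix.transpose_apply]
          ring
        · rw [if_neg (by intro h'; exact h1 ⟨by omega, h'.2⟩)]
          apply Finset.sum_eq_zero
          intro b _
          rw [if_neg (by intro h'; exact h1 ⟨h'.2, h'.1⟩), mul_zero]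
    rw [hs, ht, hds, hdt]
    have adj : ∀ i, ∑ b, (T.C ^ i) t.2 b * (P.H * T.η) s.2 b =
        (T.C ^ i * (P.H * T.η)) s.2 t.2 := by
      intro i
      have e4 : T.C ^ i * (P.H * T.η) = (P.H * T.η) * (T.C ^ i).transpose := by
        rw [← mul_assoc, ← hP.H_Cpow, mul_assoc, hT.Cpow_adj, mul_assoc]
      rw [e4, Matrix.mul_apply]
      apply Finset.sum_congr rfl
      intro b _
      rw [Matrix.transpose_apply]; ring
    have dir : ∀ i, ∑ b, (T.C ^ i) s.2 b * (P.H * T.η) b t.2 =
        (T.C ^ i * (P.H * T.η)) s.2 t.2 := by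
      intro i
      rw [Matrix.mul_apply]
    have swp : P.H * (T.C ^ (K + 1) * T.η) = T.C ^ (K + 1) * (P.H * T.η) := by
      rw [← mul_assoc, hP.H_Cpow, mul_assoc]
    rw [swp]
    obtain ⟨m, a⟩ := s
    obtain ⟨n, b⟩ := t
    simp only at adj dir
    rcases m with _ | m
    · rcases n with _ | n
      · simp only [if_true, adj, dir]
        rw [br_subtop, br_subtop]
        by_cases h0 : (T.C ^ K * (P.H * T.η)) a b = 0
        · rw [h0]; simp
        · have ty := CHη_type hT hP K a b h0
          have ty' : (T.p a : ℂ) + K + 1 + T.p b = T.D := by exact_mod_cast ty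
          unfold Target.mu
          simp only [zero_ne_one, false_and, if_false]
          linear_combination (((K : ℂ) + 1) * (T.C ^ K * (P.H * T.η)) a b) * ty'
      · rcases n with _ | n
        · simp only [if_true, adj]
          simp
        · simp only [if_true]
          simp
    · rcases n with _ | n
      · rcases m with _ | m
        · simp only [if_true, dir]
          simp
        · simp only [if_true]
          simp
      · simp
  | s :: t :: u :: S =>
    rw [ins_of_zero _ _ _ (fun x => two_long _ x s t (u :: S)),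
      ins_of_zero _ _ _ (fun x => two_long _ x s t (u :: S))]
    have : ∀ R : T.Ins → (T.Ins →₀ ℂ), ∀ M : Matrix T.A T.A ℂ,
        der R (two T M) (s :: t :: u :: S) = 0 := by
      intro R M
      rw [der_cons, der_cons, der_cons, ins_of_zero _ _ _ (fun x => two_long _ x t u S),
        ins_of_zero _ _ _ (fun x => two_long _ s x u S),
        ins_of_zero _ _ _ (fun x => two_long _ s t x S)]
      have : (fun S => two T M (s :: t :: u :: S)) = 0 := by
        funext S
        exact two_long _ _ _ _ _
      rw [this, der_zero]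
      ring
    rw [this, this]
    ring

end Vale.Agent.P269.R2.H284
end
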