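import Vale.Agent.P269.R2.H284.CI

noncomputable section

namespace Vale.Agent.P269.R2.H284

open Finset
open scoped Classical

theorem cond1 {D : ℕ} (hD : 3 ≤ D) {c : ℕ} {e : Fin c → ℕ} {V : Type} [Fintype V]
    {pV qV : V → ℕ} {ηV : Matrix V V ℂ} (hV : IsPrimitive D e V pV qV ηV)
    (a : (ci D e V pV qV ηV).A) (h : (ci D e V pV qV ηV).p a + (ci D e V pV qV ηV).q a ≤ 1) :
    a = (ci D e V pV qV ηV).one := by
  rcases a with i | v
  · have h' : (i : ℕ) + i ≤ 1 := h
    have : i = 0 := by
      ext
      simp only [Fin.val_zero]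
      omega
    rw [this]
    rfl
  · have h' : pV v + qV v ≤ 1 := h
    have := hV.type v
    omega

theorem cond2 {D : ℕ} (hD : 3 ≤ D) {c : ℕ} {e : Fin c → ℕ} {V : Type} [Fintype V]
    {pV qV : V → ℕ} {ηV : Matrix V V ℂ} (hV : IsPrimitive D e V pV qV ηV)
    (a : (ci D e V pV qV ηV).A) (h : (ci D e V pV qV ηV).p a + (ci D e V pV qV ηV).q a = 2)
    (b : (ci D e V pV qV ηV).A) :
    (ciDiv D e V pV qV ηV).H (ci D e V pV qV ηV).one b ≠ 0 ↔ b = a := by
  rcases a with i | v
  · have h' : (i : ℕ) + i = 2 := h
    have hi : (i : ℕ) = 1 := by omega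
    rcases b with j | w
    · show (if (j : ℕ) = ((0 : Fin (D + 1)) : ℕ) + 1 then (1 : ℂ) else 0) ≠ 0 ↔
        (Sum.inl j : Fin (D + 1) ⊕ V) = Sum.inl i
      rw [Fin.val_zero, zero_add]
      constructor
      · intro h1
        have h2 : (j : ℕ) = 1 := by
          by_contra h3
          rw [if_neg h3] at h1
          exact h1 rfl
        congr 1
        ext
        omega
      · intro h1
        have h2 : j = i := Sum.inl.inj h1
        rw [h2, if_pos hi]
        exact one_ne_zero
    · show (0 : ℂ) ≠ 0 ↔ (Sum.inr w : Fin (D + 1) ⊕ V) = Sum.inl i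
      simp
  · have h' : pV v + qV v = 2 := h
    have := hV.type v
    omega

/-- the reduced lists of bounded weight form a finite set -/
theorem finite_red (T : Target) (n : ℕ) :
    {S : List T.Ins | Red S ∧ (S.map fun s => 2 * s.1 + T.p s.2 + T.q s.2 - 2).sum ≤ n}.Finite := by
  have h1 : ({s : T.Ins | s.1 ≤ n + 2} : Set T.Ins).Finite := by
    have : ({s : T.Ins | s.1 ≤ n + 2} : Set T.Ins) = (Set.Iic (n + 2)) ×ˢ (Set.univ : Set T.A) := by
      ext s
      simp
    rw [this]
    exact (Set.finite_Iic _).prod Set.finite_univ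
  have h2 : ∀ S : List T.Ins, Red S →
      (S.map fun s => 2 * s.1 + T.p s.2 + T.q s.2 - 2).sum ≤ n →
      S.length ≤ n ∧ ∀ s ∈ S, s ∈ {s : T.Ins | s.1 ≤ n + 2} := by
    intro S
    induction S generalizing n with
    | nil => intro _ _; simp
    | cons s S ih =>
      intro hR hs
      simp only [List.map_cons, List.sum_cons] at hs
      have h3 := hR s List.mem_cons_self
      have h4 := ih n h1 (fun t ht => hR t (List.mem_cons_of_mem _ ht)) (by omega)
      have h5 : S.length ≤ (S.map fun s => 2 * s.1 + T.p s.2 + T.q s.2 - 2).sum := by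
        clear ih hs h4
        induction S with
        | nil => simp
        | cons t S ih2 =>
          have h6 := hR t (List.mem_cons_of_mem _ List.mem_cons_self)
          have h7 := ih2 (fun u hu => by
            rcases List.mem_cons.mp hu with rfl | hu
            · exact h3
            · exact hR u (List.mem_cons_of_mem _ (List.mem_cons_of_mem _ hu)))
          simp only [List.map_cons, List.sum_cons, List.length_cons]
          omega
      refine ⟨by simp only [List.length_cons]; omega, ?_⟩
      intro t ht
      rcases List.mem_cons.mp ht with rfl | ht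
      · show t.1 ≤ n + 2
        omega
      · exact h4.2 t ht
  have h3 : ({S : List T.Ins | S.length ≤ n ∧ ∀ s ∈ S, s ∈ {s : T.Ins | s.1 ≤ n + 2}} :
      Set (List T.Ins)).Finite := by
    have h4 := h1.fintype
    have h5 := List.finite_length_le (α := {s : T.Ins | s.1 ≤ n + 2}) (n := n)
    refine (h5.image (List.map Subtype.val)).subset ?_
    rintro S ⟨hl, hm⟩
    refine ⟨S.attach.map fun s => ⟨s.1, hm s.1 s.2⟩, ?_, ?_⟩
    · show (List.map _ S.attach).length ≤ n
      rw [List.length_map, List.length_attach]
      exact hl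
    · rw [List.map_map]
      exact List.attach_map_subtype_val S
  exact h3.subset fun S hS => h2 S hS.1 hS.2

end Vale.Agent.P269.R2.H284
end
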