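import Vale.Agent.P269.R2.H284.Dim

noncomputable section

namespace Vale.Agent.P269.R2.H284

open Finset
open scoped Classical

variable {T : Target}

/-- insertions of even classes can be moved -/
def Ev (G : T.Fn) : Prop := ∀ S₁ s x S₂, T.par x.2 % 2 = 0 →
    G (S₁ ++ s :: x :: S₂) = G (S₁ ++ x :: s :: S₂)

theorem Sy.ev {G : T.Fn} (h : Sy G) : Ev G := by
  intro S₁ s x S₂ hx
  rw [h S₁ s x S₂, neg_pow_congr (b := 0)]
  · simp
  · rw [Nat.mul_mod, hx, mul_zero]

theorem Ev.cons {G : T.Fn} (h : Ev G) (y : T.Ins) : Ev (fun S => G (y :: S)) := by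
  intro S₁ s x S₂ hx
  exact h (y :: S₁) s x S₂ hx

theorem Ev.add {G H : T.Fn} (hG : Ev G) (hH : Ev H) : Ev (G + H) := by
  intro S₁ s x S₂ hx
  simp only [Pi.add_apply, hG S₁ s x S₂ hx, hH S₁ s x S₂ hx]

theorem Ev.smul {G : T.Fn} (hG : Ev G) (c : ℂ) : Ev (c • G) := by
  intro S₁ s x S₂ hx
  simp only [Pi.smul_apply, hG S₁ s x S₂ hx]

theorem Ev.zero : Ev (0 : T.Fn) := fun _ _ _ _ _ => rfl

theorem Ev.sum {κ : Type*} (t : Finset κ) (G : κ → T.Fn) (h : ∀ k ∈ t, Ev (G k)) :
    Ev (fun S => ∑ k ∈ t, G k S) := by
  intro S₁ s x S₂ hx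
  exact Finset.sum_congr rfl fun k hk => h k hk S₁ s x S₂ hx

theorem Ev.fsum {κ : Type*} (v : κ →₀ ℂ) (G : κ → T.Fn) (h : ∀ k, Ev (G k)) :
    Ev (fun S => v.sum fun x c => c * G x S) := by
  intro S₁ s x S₂ hx
  exact Finsupp.sum_congr fun k _ => by rw [h k S₁ s x S₂ hx]

theorem Ev.ins {G : T.Fn} (h : Ev G) (v : T.Ins →₀ ℂ) : Ev (ins v G) :=
  Ev.fsum v (fun x S => G (x :: S)) fun x => h.cons x

theorem Ev.der {G : T.Fn} (h : Ev G) {R : T.Ins → (T.Ins →₀ ℂ)} (hR : Even' R) :
    Ev (der R G) := by
  intro S₁ s x S₂ hx
  induction S₁ generalizing G with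
  | nil =>
    simp only [List.nil_append, der_cons]
    have h1 : H284.ins (R s) G (x :: S₂) = H284.ins (R s) (fun S => G (x :: S)) S₂ := by
      unfold H284.ins
      apply Finsupp.sum_congr
      intro y _
      have := h [] y x S₂ hx
      simp only [List.nil_append] at this
      rw [this]
    have h2 : H284.ins (R x) G (s :: S₂) = H284.ins (R x) (fun S => G (s :: S)) S₂ := by
      unfold H284.ins
      apply Finsupp.sum_congr
      intro y hy
      have hp := hR x y (by simpa using hy)
      have := h [] s y S₂ (by omega)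
      simp only [List.nil_append] at this
      show (R x) y * G (y :: s :: S₂) = (R x) y * G (s :: y :: S₂)
      rw [this]
    have h3 : (fun S => G (s :: x :: S)) = fun S => G (x :: s :: S) := by
      funext S
      exact h [] s x S hx
    rw [h1, h2, h3]
    ring
  | cons t S₁ ih =>
    simp only [List.cons_append, der_cons]
    rw [ih (h.cons t)]
    congr 1
    unfold H284.ins
    apply Finsupp.sum_congr
    intro y _
    have := h (y :: S₁) s x S₂ hx
    simp only [List.cons_append] at this
    rw [this]

theorem Ev.mul {G H : T.Fn} (hG : Ev G) (hH : Ev H) (w : ℕ) : Ev (mul w G H) := by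
  intro S₁ s x S₂ hx
  induction S₁ generalizing G H w with
  | nil =>
    simp only [List.nil_append, mul_cons]
    have h1 : (fun S => G (s :: x :: S)) = fun S => G (x :: s :: S) := by
      funext S
      exact hG [] s x S hx
    have h2 : (fun S => H (s :: x :: S)) = fun S => H (x :: s :: S) := by
      funext S
      exact hH [] s x S hx
    rw [h1, h2]
    have e1 : w + T.par s.2 + T.par x.2 = w + T.par x.2 + T.par s.2 := by omega
    rw [e1]
    have s1 : ∀ n : ℕ, (-1 : ℂ) ^ (n * T.par x.2) = 1 := by
      intro n
      rw [neg_pow_congr (b := 0)]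
      · simp
      · rw [Nat.mul_mod, hx, mul_zero]
    have s2 : (-1 : ℂ) ^ ((w + T.par x.2) * T.par s.2) = (-1) ^ (w * T.par s.2) := by
      apply neg_pow_congr
      rw [Nat.mul_mod, Nat.mul_mod w]
      have : (w + T.par x.2) % 2 = w % 2 := by omega
      rw [this]
    rw [s1, s1, s2]
    ring
  | cons t S₁ ih =>
    simp only [List.cons_append, mul_cons]
    rw [ih (hG.cons t) hH, ih hG (hH.cons t)]

theorem shift_even (hT : IsTarget T) (K : ℕ) (x : T.Ins) (h : shift T K x ≠ 0) :
    T.par x.2 % 2 = 0 := by
  have h1 := shift_wt hT.grp K x h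
  have h2 := shift_wt hT.grq K x h
  unfold Target.par
  omega

theorem vir_even (hT : IsTarget T) (K : ℕ) : Even' (vir T K) := by
  intro s x h
  have h1 := vir_wt hT.grp K s x h
  have h2 := vir_wt hT.grq K s x h
  unfold Target.par
  omega

theorem Cη_symm (hT : IsTarget T) (K : ℕ) (a b : T.A) (hb : T.par b % 2 = 0) :
    (T.C ^ K * T.η) a b = (T.C ^ K * T.η) b a := by
  rw [hT.Cpow_adj K, Matrix.mul_apply]
  rw [← hT.Cpow_adj K, Matrix.mul_apply]
  apply Finset.sum_congr rfl
  intro e _
  rw [Matrix.transpose_apply, hT.η_symm a e]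
  by_cases h : (T.C ^ K) b e = 0
  · rw [h]; ring
  · have := hT.Cpow_par K b e h
    rw [neg_pow_congr (b := 0)]
    · ring
    · rw [Nat.mul_mod, this, hb, mul_zero]

theorem two_ev (hT : IsTarget T) (K : ℕ) : Ev (two T (T.C ^ K * T.η)) := by
  intro S₁ s x S₂ hx
  match S₁, S₂ with
  | [], [] =>
    simp only [List.nil_append, two_pair]
    rw [Cη_symm hT K s.2 x.2 hx]
    simp only [and_comm]
  | [], u :: S₂ => simp only [List.nil_append, two_long]
  | [t], S₂ => simp only [List.cons_append, List.nil_append, two_long]
  | t :: u :: S₁, S₂ =>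
    rcases S₁ with _ | ⟨v, S₁⟩
    · simp only [List.cons_append, List.nil_append, two_long]
    · simp only [List.cons_append, two_long]

theorem cst_ev (c : ℂ) : Ev (cst T c) := by
  intro S₁ s x S₂ hx
  rcases S₁ with _ | ⟨v, S₁⟩ <;> rfl

theorem z_ev (hT : IsTarget T) {F : Corr T} (hF : IsGW T F) (K g : ℕ) (d : T.B) :
    Ev (z F K g d) := by
  rw [z_eq]
  refine Ev.add (Ev.add (Ev.add (Ev.add ?_ ?_) ?_) ?_) ?_
  · exact ((hF.sy g d).ev.ins _).smul _
  · exact (hF.sy g d).ev.der (vir_even hT K)
  · apply Ev.smul
    apply Ev.fsum (biv T K) (fun xy S => Phi F g d xy.1 xy.2 S)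
    intro xy
    have : Phi F g d xy.1 xy.2 = (fun S => if g = 0 then 0 else F (g - 1) d (xy.1 :: xy.2 :: S)) +
      fun S => ∑ gg ∈ antidiagonal g, ∑ dd ∈ antidiagonal d, mul (T.par xy.2.2)
        (fun S => F gg.1 dd.1 (xy.1 :: S)) (fun S => F gg.2 dd.2 (xy.2 :: S)) S := rfl
    have goal : Ev (Phi F g d xy.1 xy.2) := by
      rw [this]
      apply Ev.add
      · by_cases hg : g = 0
        · simp only [hg, if_true]
          exact Ev.zero
        · simp only [if_neg hg]
          exact ((hF.sy _ _).ev.cons _).cons _
      · apply Ev.sum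
        intro gg _
        apply Ev.sum
        intro dd _
        exact ((hF.sy _ _).ev.cons _).mul ((hF.sy _ _).ev.cons _) _
    exact goal
  · by_cases h : g = 0 ∧ d = 0
    · simp only [if_pos h]
      exact two_ev hT K
    · simp only [if_neg h]
      exact Ev.zero
  · by_cases h : K = 1 ∧ g = 1 ∧ d = 0
    · simp only [if_pos h]
      exact cst_ev _
    · simp only [if_neg h]
      exact Ev.zero

theorem Ev.front {G : T.Fn} (h : Ev G) {x : T.Ins} (hx : T.par x.2 % 2 = 0)
    (S₁ S₂ : List T.Ins) : G (S₁ ++ x :: S₂) = G (x :: (S₁ ++ S₂)) := by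
  induction S₁ generalizing G with
  | nil => rfl
  | cons s S₁ ih =>
    have h1 := ih (h.cons s)
    simp only [List.cons_append]
    rw [h1]
    exact h [] s x (S₁ ++ S₂) hx

theorem der_len (R : T.Ins → (T.Ins →₀ ℂ)) (G : T.Fn) (S : List T.Ins)
    (h : ∀ S' : List T.Ins, S'.length = S.length → G S' = 0) : der R G S = 0 := by
  induction S generalizing G with
  | nil => rfl
  | cons s S ih =>
    rw [der_cons, ins_of_zero _ _ _ (fun x => h (x :: S) (by simp)), zero_add]
    apply ih
    intro S' hS'
    exact h (s :: S') (by simp [hS'])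

/-! ### `L_{-1}` and `L_0` -/

theorem biv_zero : biv T 0 = 0 := by simp [biv]

theorem biv_one : biv T 1 = 0 := by simp [biv]

theorem z_zero {F : Corr T} (hF : IsGW T F) (g : ℕ) (d : T.B) :
    z F 0 g d = 0 := by
  funext S
  rw [z_eq]
  simp only [Pi.add_apply, Pi.smul_apply, smul_eq_mul, Pi.zero_apply, biv_zero,
    Finsupp.sum_zero_index]
  have h1 : ins (shift T 0) (F g d) S = F g d ((0, T.one) :: S) := by
    rw [ins_shift]
    simp only [zero_add, Finset.range_one, Finset.sum_singleton, pow_zero, br_zero_zero]
    rw [Finset.sum_eq_single_of_mem T.one (by simp)]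
    · simp
    · intro b _ hne
      rw [Matrix.one_apply_ne (Ne.symm hne)]
      ring
  have h2 : vir T 0 = low T := by
    funext s
    obtain ⟨m, a⟩ := s
    unfold vir low
    simp only [zero_add, Finset.range_one, Finset.sum_singleton, pow_zero, br_zero_zero]
    cases m with
    | zero => simp
    | succ m =>
      rw [if_pos (by omega), if_neg (by omega), Finset.sum_eq_single_of_mem a (by simp)]
      · simp
      · intro b _ hne
        rw [Matrix.one_apply_ne (Ne.symm hne)]
        simp
  rw [h1, h2, hF.string]
  simp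

theorem der_diag (c : T.Ins → ℂ) (G : T.Fn) (S : List T.Ins) :
    der (fun s => Finsupp.single s (c s)) G S = (S.map c).sum * G S := by
  induction S generalizing G with
  | nil => simp [der_nil]
  | cons s S ih =>
    rw [der_cons, ins_single, ih]
    simp only [List.map_cons, List.sum_cons]
    ring

theorem vir_one (s : T.Ins) :
    vir T 1 s = Finsupp.single s (T.mu s.2 + s.1 + 1 / 2) + divr T s := by
  obtain ⟨m, a⟩ := s
  unfold vir divr
  rw [Finset.sum_range_succ, Finset.range_one, Finset.sum_singleton]
  rw [if_pos (by omega)]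
  congr 1
  · rw [Finset.sum_eq_single_of_mem a (by simp)]
    · simp [br_one_zero]
    · intro b _ hne
      rw [pow_zero, Matrix.one_apply_ne (Ne.symm hne)]
      simp
  · cases m with
    | zero => simp
    | succ m =>
      rw [if_pos (by omega), if_neg (by simp)]
      apply Finset.sum_congr rfl
      intro b _
      rw [br_top, pow_one]
      congr 1
      ring

theorem z_one (hT : IsTarget T) {F : Corr T} (hF : IsGW T F) (g : ℕ) (d : T.B) :
    z F 1 g d = 0 := by
  funext S
  rw [z_eq]
  simp only [Pi.add_apply, Pi.smul_apply, smul_eq_mul, Pi.zero_apply, biv_one,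
    Finsupp.sum_zero_index]
  have h1 : ins (shift T 1) (F g d) S = (3 - (T.D : ℂ)) / 2 * F g d ((1, T.one) :: S) +
      ∑ b, T.C T.one b * F g d ((0, b) :: S) := by
    rw [ins_shift, Finset.sum_range_succ, Finset.range_one, Finset.sum_singleton]
    congr 1
    · rw [Finset.sum_eq_single_of_mem T.one (by simp)]
      · simp [br_one_zero]
      · intro b _ hne
        rw [pow_zero, Matrix.one_apply_ne (Ne.symm hne)]
        ring
    · apply Finset.sum_congr rfl
      intro b _
      rw [br_top, pow_one]
      simp
  have h2 : der (vir T 1) (F g d) S = (S.map fun s => T.mu s.2 + s.1 + 1 / 2).sum * F g d S +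
      der (divr T) (F g d) S := by
    have : vir T 1 = fun s => Finsupp.single s (T.mu s.2 + s.1 + 1 / 2) + divr T s := by
      funext s; exact vir_one s
    rw [this, der_addR, der_diag]
  rw [h1, h2, hF.dilaton, hF.divisor]
  have h3 : (S.map fun s => T.mu s.2 + (s.1 : ℂ) + 1 / 2).sum =
      ((S.map fun s => ((s.1 + T.p s.2 : ℕ) : ℤ) - 1).sum : ℤ) +
        S.length * ((3 - (T.D : ℂ)) / 2) := by
    clear h1 h2
    induction S with
    | nil => simp
    | cons s S ih =>
      simp only [List.map_cons, List.sum_cons, ih, List.length_cons]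
      push_cast
      unfold Target.mu
      ring
  have key : (-((3 - (T.D : ℂ)) / 2) * (2 * (g : ℂ) - 2 + S.length) - T.c1 d +
      (S.map fun s => T.mu s.2 + (s.1 : ℂ) + 1 / 2).sum) * F g d S = 0 := by
    by_cases h0 : F g d S = 0
    · rw [h0, mul_zero]
    · rw [h3, hF.dim_p g d S h0]
      push_cast
      ring
  have hconst : (-1 : ℂ) * ((3 - (T.D : ℂ)) / 2 *
        (if g = 1 ∧ d = 0 then cst T (T.χ / 24) S else 0) +
        (if g = 1 ∧ d = 0 then cst T (-(T.c1cD / 24)) S else 0)) +
      (if g = 1 ∧ d = 0 then cst T (T.χ / 16 - strMuSq T / 4) S else 0) = 0 := by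
    by_cases h : g = 1 ∧ d = 0
    · rw [if_pos h, if_pos h, if_pos h]
      cases S with
      | nil =>
        simp only [cst]
        linear_combination -hT.libgoberWood
      | cons s S => simp [cst]
    · rw [if_neg h, if_neg h, if_neg h]
      ring
  have e : (T.C ^ 1 * T.η) = T.C * T.η := by rw [pow_one]
  rw [e]
  simp only [true_and]
  linear_combination key + hconst

/-- If the virtual dimension without marked points is at most zero, then all Virasoro constraints
hold in this genus and class. -/
theorem main (hT : IsTarget T) (hb : ∀ a, T.p a + T.q a ≤ 1 → a = T.one) {F : Corr T}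
    (hF : IsGW T F) (g : ℕ) (d : T.B) (hv : vd T g d ≤ 0) (K : ℕ) : z F K g d = 0 := by
  rcases K with _ | K
  · exact z_zero hF g d
  induction K with
  | zero => exact z_one hT hF g d
  | succ K ih =>
    have hpar : T.par (((0, T.one) : T.Ins).2) % 2 = 0 := by
      simp [Target.par, hT.p_one, hT.q_one]
    have hstr : ∀ S, z F (K + 1 + 1) g d ((0, T.one) :: S) =
        der (low T) (z F (K + 1 + 1) g d) S := by
      intro S
      have := z_string hT hF (K + 1) g d S
      rw [ih] at this
      unfold str at this
      simp only [Pi.zero_apply, mul_zero] at this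
      linear_combination this
    have main : ∀ n, ∀ S : List T.Ins, S.length = n → z F (K + 1 + 1) g d S = 0 := by
      intro n
      induction n with
      | zero =>
        intro S hS
        have : S = [] := List.length_eq_zero_iff.mp hS
        subst this
        by_contra hne
        have := z_wt hT hT.grp (fun g d => hF.dim_p g d) (K + 1 + 1) g d [] hne
        simp only [wt, List.map_nil, List.sum_nil] at this
        push_cast at this
        omega
      | succ n ihn =>
        intro S hS
        by_cases hmem : (0, T.one) ∈ S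
        · obtain ⟨S₁, S₂, rfl⟩ := List.append_of_mem hmem
          rw [(z_ev hT hF _ g d).front hpar, hstr]
          apply der_len
          intro S' hS'
          apply ihn
          rw [hS']
          simp only [List.length_append, List.length_cons] at hS ⊢
          omega
        · by_contra hne
          have h1 := z_wt hT hT.grp (fun g d => hF.dim_p g d) (K + 1 + 1) g d S hne
          have h2 := z_wt hT hT.grq (fun g d => hF.dim_q g d) (K + 1 + 1) g d S hne
          have h3 : 0 ≤ wt T.p S + wt T.q S := by
            clear h1 h2 hne hS ihn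
            induction S with
            | nil => simp [wt]
            | cons s S ihS =>
              rw [wt_cons, wt_cons]
              have h4 := ihS (fun h => hmem (List.mem_cons_of_mem _ h))
              have h5 : s ≠ (0, T.one) := fun h => hmem (by rw [h]; exact List.mem_cons_self)
              have h6 : 2 ≤ 2 * s.1 + T.p s.2 + T.q s.2 := by
                by_contra hlt
                have h7 : s.1 = 0 := by omega
                have h8 := hb s.2 (by omega)
                exact h5 (Prod.ext h7 h8)
              push_cast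
              omega
          push_cast at h1 h2
          omega
    funext S
    exact main S.length S rfl

end Vale.Agent.P269.R2.H284
end
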