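import Vale.Agent.P269.R2.H284.Main

noncomputable section

namespace Vale.Agent.P269.R2.H284

open Finset
open scoped Classical

variable {T : Target}

/-- The operator `G ↦ (S ↦ G (v :: S) - der R G S)`. -/
def op (v : T.Ins →₀ ℂ) (R : T.Ins → (T.Ins →₀ ℂ)) (G : T.Fn) : T.Fn := fun S =>
  ins v G S - der R G S

/-- `v` is even -/
def EvV (v : T.Ins →₀ ℂ) : Prop := ∀ x, v x ≠ 0 → T.par x.2 % 2 = 0

variable {v : T.Ins →₀ ℂ} {R : T.Ins → (T.Ins →₀ ℂ)}

theorem op_add (G H : T.Fn) (S : List T.Ins) : op v R (G + H) S = op v R G S + op v R H S := by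
  simp only [op, ins_add_fn, Pi.add_apply, der_add]; ring

theorem op_smul (c : ℂ) (G : T.Fn) (S : List T.Ins) : op v R (c • G) S = c * op v R G S := by
  simp only [op, ins_smul_fn, Pi.smul_apply, der_smul, smul_eq_mul]; ring

theorem op_zero (S : List T.Ins) : op v R (0 : T.Fn) S = 0 := by
  have := op_smul (v := v) (R := R) 0 (0 : T.Fn) S
  simpa using this

theorem op_sum {κ : Type*} (t : Finset κ) (G : κ → T.Fn) (S : List T.Ins) :
    op v R (fun S => ∑ k ∈ t, G k S) S = ∑ k ∈ t, op v R (G k) S := by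
  classical
  induction t using Finset.induction_on with
  | empty => exact op_zero (v := v) (R := R) S
  | insert a t ha ih =>
    have : (fun S => ∑ k ∈ insert a t, G k S) = G a + fun S => ∑ k ∈ t, G k S := by
      funext S
      rw [Finset.sum_insert ha]; rfl
    rw [this, op_add, ih, Finset.sum_insert ha]

theorem op_finsupp_sum {κ : Type*} (u : κ →₀ ℂ) (G : κ → T.Fn) (S : List T.Ins) :
    op v R (fun S => u.sum fun x c => c * G x S) S = u.sum fun x c => c * op v R (G x) S := by
  have : (fun S => u.sum fun x c => c * G x S) = fun S => ∑ x ∈ u.support, (u x • G x) S := by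
    funext S
    rfl
  rw [this, op_sum]
  simp only [op_smul]
  rfl

theorem op_cons (hv : EvV v) {G : T.Fn} (h : Ev G) (x : T.Ins) (S : List T.Ins) :
    op v R (fun S => G (x :: S)) S = op v R G (x :: S) + ins (R x) G S := by
  have h1 : ins v (fun S => G (x :: S)) S = ins v G (x :: S) := by
    unfold ins
    apply Finsupp.sum_congr
    intro y hy
    have hp := hv y (by simpa using hy)
    have := h [] x y S hp
    simp only [List.nil_append] at this
    show v y * G (x :: y :: S) = v y * G (y :: x :: S)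
    rw [this]
  simp only [op, der_cons, h1]
  ring

theorem op_ins (hv : EvV v) {G : T.Fn} (h : Ev G) (u : T.Ins →₀ ℂ) (S : List T.Ins) :
    op v R (ins u G) S = ins u (op v R G) S + ins (ext R u) G S := by
  have : ins u G = fun S => u.sum fun x c => c * (fun S => G (x :: S)) S := rfl
  rw [this, op_finsupp_sum, ins_ext]
  simp only [op_cons hv h, mul_add]
  exact Finsupp.sum_add

theorem op_der (R' : T.Ins → (T.Ins →₀ ℂ)) (G : T.Fn) (S : List T.Ins) :
    op v R (der R' G) S = der R' (op v R G) S + ins (ext R' v) G S +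
      (der (fun s => ext R (R' s)) G S - der (fun s => ext R' (R s)) G S) := by
  have e : op v R G = ins v G + (-1 : ℂ) • der R G := by
    funext S
    simp only [op, Pi.add_apply, Pi.smul_apply, smul_eq_mul]
    ring
  have h := der_comm R R' G S
  rw [e, der_add, der_smul]
  simp only [op, ins_der]
  linear_combination -h

theorem ins_mul (hv : EvV v) (w : ℕ) (G H : T.Fn) (S : List T.Ins) :
    ins v (mul w G H) S = mul w (ins v G) H S + mul w G (ins v H) S := by
  rw [mul_ins_left, mul_ins_right]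
  unfold ins
  rw [← Finsupp.sum_add]
  apply Finsupp.sum_congr
  intro x hx
  have hp := hv x (by simpa using hx)
  rw [mul_cons, mul_congr_parity (w := w + T.par x.2) (w' := w) (by omega)]
  have : (-1 : ℂ) ^ (w * T.par x.2) = 1 := by
    rw [neg_pow_congr (b := 0)]
    · simp
    · rw [Nat.mul_mod, hp, mul_zero]
  rw [this]; ring

theorem op_mul (hv : EvV v) (hR : Even' R) (w : ℕ) (G H : T.Fn) (S : List T.Ins) :
    op v R (mul w G H) S = mul w (op v R G) H S + mul w G (op v R H) S := by
  have e1 : op v R G = ins v G + (-1 : ℂ) • der R G := by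
    funext S
    simp only [op, Pi.add_apply, Pi.smul_apply, smul_eq_mul]
    ring
  have e2 : op v R H = ins v H + (-1 : ℂ) • der R H := by
    funext S
    simp only [op, Pi.add_apply, Pi.smul_apply, smul_eq_mul]
    ring
  rw [e1, e2, mul_add_left, mul_add_right, mul_smul_left, mul_smul_right]
  simp only [op, ins_mul hv, der_mul hR]
  ring

/-- `op` applied to a family of correlators -/
structure IsOp (T : Target) (v : T.Ins →₀ ℂ) (R : T.Ins → (T.Ins →₀ ℂ)) (F : Corr T)
    (lam : ℕ → T.B → ℂ) (ρ : ℂ) (M : Matrix T.A T.A ℂ) (κ : ℂ) : Prop where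
  vev : EvV v
  Rev : Even' R
  lam_add : ∀ (g : ℕ) (d : T.B), ∀ gg ∈ antidiagonal g, ∀ dd ∈ antidiagonal d,
    lam gg.1 dd.1 + lam gg.2 dd.2 + ρ = lam g d
  lam_one : ∀ (g : ℕ) (d : T.B), lam g d + ρ = lam (g + 1) d
  eq : ∀ (g : ℕ) (d : T.B) (S : List T.Ins), op v R (F g d) S = lam g d * F g d S + (if g = 0 ∧ d = 0 then two T M S else 0) +
    (if g = 1 ∧ d = 0 then cst T κ S else 0)

/-- the exceptional terms -/
def excM (M : Matrix T.A T.A ℂ) (F : Corr T) (g : ℕ) (d : T.B) (x y : T.Ins)
    (S : List T.Ins) : ℂ :=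
  (if g = 1 ∧ d = 0 then two T M (x :: y :: S) else 0) +
    (mul (T.par y.2) (fun S => two T M (x :: S)) (fun S => F g d (y :: S)) S +
      mul (T.par y.2) (fun S => F g d (x :: S)) (fun S => two T M (y :: S)) S)

theorem op_Phi {F : Corr T} (hF : IsGW T F) {lam : ℕ → T.B → ℂ} {ρ : ℂ}
    {M : Matrix T.A T.A ℂ} {κ : ℂ} (h : IsOp T v R F lam ρ M κ) (g : ℕ) (d : T.B) (x y : T.Ins)
    (hy : ∀ y', R y y' ≠ 0 → T.par y'.2 % 2 = T.par y.2 % 2)
    (S : List T.Ins) :
    op v R (Phi F g d x y) S = (lam g d - ρ) * Phi F g d x y S +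
      (((R x).sum fun x' e => e * Phi F g d x' y S) +
      ((R y).sum fun y' e => e * Phi F g d x y' S)) + excM M F g d x y S := by
  -- the first part
  have hA : op v R (fun S => if g = 0 then 0 else F (g - 1) d (x :: y :: S)) S =
      (lam g d - ρ) * (if g = 0 then 0 else F (g - 1) d (x :: y :: S)) +
      (if g = 0 then 0 else ins (R x) (fun S' => F (g - 1) d S') (y :: S)) +
      (if g = 0 then 0 else ins (R y) (fun S' => F (g - 1) d (x :: S')) S) +
      (if g = 1 ∧ d = 0 then two T M (x :: y :: S) else 0) := by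
    by_cases hg : g = 0
    · subst hg
      have : (fun S => if (0 : ℕ) = 0 then 0 else F (0 - 1) d (x :: y :: S)) = (0 : T.Fn) := by
        funext S; simp
      rw [this]
      simp [op_zero]
    · simp only [if_neg hg]
      have h1 := op_cons (R := R) h.vev ((hF.sy (g - 1) d).ev.cons x) y S
      have h2 := op_cons (R := R) h.vev (hF.sy (g - 1) d).ev x (y :: S)
      rw [h1, h2, h.eq]
      have e1 : (g - 1 = 0 ∧ d = 0) ↔ (g = 1 ∧ d = 0) := by
        constructor
        · rintro ⟨h, h'⟩; exact ⟨by omega, h'⟩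
        · rintro ⟨h, h'⟩; exact ⟨by omega, h'⟩
      have e2 := h.lam_one (g - 1) d
      have e3 : g - 1 + 1 = g := by omega
      rw [e3] at e2
      have e4 : (if g - 1 = 1 ∧ d = 0 then cst T κ (x :: y :: S) else 0) = 0 := by
        split_ifs <;> rfl
      rw [e4]
      simp only [e1]
      linear_combination (F (g - 1) d (x :: y :: S)) * e2
  -- the product part
  have hM : ∀ gg ∈ antidiagonal g, ∀ dd ∈ antidiagonal d, op v R (mul (T.par y.2)
      (fun S => F gg.1 dd.1 (x :: S)) (fun S => F gg.2 dd.2 (y :: S))) S =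
      (lam g d - ρ) * mul (T.par y.2)
      (fun S => F gg.1 dd.1 (x :: S)) (fun S => F gg.2 dd.2 (y :: S)) S +
      mul (T.par y.2) (ins (R x) (F gg.1 dd.1)) (fun S => F gg.2 dd.2 (y :: S)) S +
      mul (T.par y.2) (fun S => F gg.1 dd.1 (x :: S)) (ins (R y) (F gg.2 dd.2)) S +
      ((if gg.1 = 0 ∧ dd.1 = 0 then mul (T.par y.2) (fun S => two T M (x :: S))
          (fun S => F gg.2 dd.2 (y :: S)) S else 0) +
        (if gg.2 = 0 ∧ dd.2 = 0 then mul (T.par y.2) (fun S => F gg.1 dd.1 (x :: S))
          (fun S => two T M (y :: S)) S else 0)) := by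
    intro gg hgg dd hdd
    rw [op_mul h.vev h.Rev]
    have e1 : op v R (fun S => F gg.1 dd.1 (x :: S)) =
        lam gg.1 dd.1 • (fun S => F gg.1 dd.1 (x :: S)) +
        ((fun S => if gg.1 = 0 ∧ dd.1 = 0 then two T M (x :: S) else 0) +
          ins (R x) (F gg.1 dd.1)) := by
      funext S
      rw [op_cons h.vev (hF.sy _ _).ev, h.eq]
      have e4 : (if gg.1 = 1 ∧ dd.1 = 0 then cst T κ (x :: S) else 0) = 0 := by
        split_ifs <;> rfl
      rw [e4]
      simp only [Pi.add_apply, Pi.smul_apply, smul_eq_mul]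
      ring
    have e2 : op v R (fun S => F gg.2 dd.2 (y :: S)) =
        lam gg.2 dd.2 • (fun S => F gg.2 dd.2 (y :: S)) +
        ((fun S => if gg.2 = 0 ∧ dd.2 = 0 then two T M (y :: S) else 0) +
          ins (R y) (F gg.2 dd.2)) := by
      funext S
      rw [op_cons h.vev (hF.sy _ _).ev, h.eq]
      have e4 : (if gg.2 = 1 ∧ dd.2 = 0 then cst T κ (y :: S) else 0) = 0 := by
        split_ifs <;> rfl
      rw [e4]
      simp only [Pi.add_apply, Pi.smul_apply, smul_eq_mul]
      ring
    rw [e1, e2, mul_add_left, mul_add_right, mul_add_left, mul_add_right, mul_smul_left,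
      mul_smul_right]
    have e3 : mul (T.par y.2) (fun S => if gg.1 = 0 ∧ dd.1 = 0 then two T M (x :: S) else 0)
        (fun S => F gg.2 dd.2 (y :: S)) S =
        if gg.1 = 0 ∧ dd.1 = 0 then mul (T.par y.2) (fun S => two T M (x :: S))
          (fun S => F gg.2 dd.2 (y :: S)) S else 0 := by
      split_ifs
      · rfl
      · exact mul_zero_left _ _ _
    have e4 : mul (T.par y.2) (fun S => F gg.1 dd.1 (x :: S))
        (fun S => if gg.2 = 0 ∧ dd.2 = 0 then two T M (y :: S) else 0) S =
        if gg.2 = 0 ∧ dd.2 = 0 then mul (T.par y.2) (fun S => F gg.1 dd.1 (x :: S))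
          (fun S => two T M (y :: S)) S else 0 := by
      split_ifs
      · rfl
      · exact mul_zero_right _ _ _
    rw [e3, e4]
    have e5 := h.lam_add g d gg hgg dd hdd
    linear_combination (mul (T.par y.2)
      (fun S => F gg.1 dd.1 (x :: S)) (fun S => F gg.2 dd.2 (y :: S)) S) * e5
  have hPhi : Phi F g d x y = (fun S => if g = 0 then 0 else F (g - 1) d (x :: y :: S)) +
      fun S => ∑ gg ∈ antidiagonal g, ∑ dd ∈ antidiagonal d, mul (T.par y.2)
        (fun S => F gg.1 dd.1 (x :: S)) (fun S => F gg.2 dd.2 (y :: S)) S := rfl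
  have hPhiS : Phi F g d x y S = (if g = 0 then 0 else F (g - 1) d (x :: y :: S)) +
      ∑ gg ∈ antidiagonal g, ∑ dd ∈ antidiagonal d, mul (T.par y.2)
        (fun S => F gg.1 dd.1 (x :: S)) (fun S => F gg.2 dd.2 (y :: S)) S := rfl
  rw [hPhi, op_add, hA, op_sum, ← hPhi, hPhiS]
  have h3 : ∀ gg ∈ antidiagonal g, op v R (fun S => ∑ dd ∈ antidiagonal d, mul (T.par y.2)
        (fun S => F gg.1 dd.1 (x :: S)) (fun S => F gg.2 dd.2 (y :: S)) S) S =
      ∑ dd ∈ antidiagonal d, ((lam g d - ρ) * mul (T.par y.2)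
      (fun S => F gg.1 dd.1 (x :: S)) (fun S => F gg.2 dd.2 (y :: S)) S +
      mul (T.par y.2) (ins (R x) (F gg.1 dd.1))
          (fun S => F gg.2 dd.2 (y :: S)) S +
      mul (T.par y.2) (fun S => F gg.1 dd.1 (x :: S)) (ins (R y) (F gg.2 dd.2)) S +
      ((if gg.1 = 0 ∧ dd.1 = 0 then mul (T.par y.2) (fun S => two T M (x :: S))
          (fun S => F gg.2 dd.2 (y :: S)) S else 0) +
        (if gg.2 = 0 ∧ dd.2 = 0 then mul (T.par y.2) (fun S => F gg.1 dd.1 (x :: S))
          (fun S => two T M (y :: S)) S else 0))) := by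
    intro gg hgg
    rw [op_sum]
    exact Finset.sum_congr rfl fun dd hdd => hM gg hgg dd hdd
  rw [Finset.sum_congr rfl h3]
  simp only [Finset.sum_add_distrib, ← Finset.mul_sum]
  rw [sum_antidiag_left g d (fun gg dd => mul (T.par y.2) (fun S => two T M (x :: S))
          (fun S => F gg.2 dd.2 (y :: S)) S),
    sum_antidiag_right g d (fun gg dd => mul (T.par y.2) (fun S => F gg.1 dd.1 (x :: S))
          (fun S => two T M (y :: S)) S)]
  -- the lowering parts
  have hx : ((R x).sum fun x' e => e * Phi F g d x' y S) =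
      (if g = 0 then 0 else ins (R x) (fun S' => F (g - 1) d S') (y :: S)) +
      ∑ gg ∈ antidiagonal g, ∑ dd ∈ antidiagonal d, mul (T.par y.2)
        (ins (R x) (F gg.1 dd.1)) (fun S => F gg.2 dd.2 (y :: S)) S := by
    simp only [mul_ins_left]
    unfold Phi
    simp only [mul_add]
    rw [Finsupp.sum_add]
    congr 1
    · split_ifs
      · simp
      · rfl
    · unfold Finsupp.sum
      simp only [Finset.mul_sum]
      rw [Finset.sum_comm]
      apply Finset.sum_congr rfl
      intro gg _
      rw [Finset.sum_comm]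
  have hyy : ((R y).sum fun y' e => e * Phi F g d x y' S) =
      (if g = 0 then 0 else ins (R y) (fun S' => F (g - 1) d (x :: S')) S) +
      ∑ gg ∈ antidiagonal g, ∑ dd ∈ antidiagonal d, mul (T.par y.2)
        (fun S => F gg.1 dd.1 (x :: S)) (ins (R y) (F gg.2 dd.2)) S := by
    simp only [mul_ins_right]
    have hpar : ((R y).sum fun y' e => e * Phi F g d x y' S) =
        ((R y).sum fun y' e => e * ((if g = 0 then 0 else F (g - 1) d (x :: y' :: S)) +
          ∑ gg ∈ antidiagonal g, ∑ dd ∈ antidiagonal d, mul (T.par y.2)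
      (fun S => F gg.1 dd.1 (x :: S)) (fun S => F gg.2 dd.2 (y' :: S)) S)) := by
      apply Finsupp.sum_congr
      intro y' hy'
      unfold Phi
      have hp := hy y' (by simpa using hy')
      congr 2
      apply Finset.sum_congr rfl
      intro gg _
      apply Finset.sum_congr rfl
      intro dd _
      exact mul_congr_parity hp _ _ _
    rw [hpar]
    simp only [mul_add]
    rw [Finsupp.sum_add]
    congr 1
    · split_ifs
      · simp
      · rfl
    · unfold Finsupp.sum
      simp only [Finset.mul_sum]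
      rw [Finset.sum_comm]
      apply Finset.sum_congr rfl
      intro gg _
      rw [Finset.sum_comm]
  rw [hx, hyy, excM]
  ring

theorem op_cst (c : ℂ) (S : List T.Ins) : op v R (cst T c) S = 0 := by
  unfold op
  have : der R (cst T c) S = 0 := by
    cases S with
    | nil => rfl
    | cons s S =>
      rw [der_cons, ins_of_zero _ _ _ (fun x => rfl)]
      have : (fun S => cst T c (s :: S)) = 0 := by funext S; rfl
      rw [this, der_zero]
      ring
  rw [this, ins_of_zero _ _ _ (fun x => rfl)]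
  ring

end Vale.Agent.P269.R2.H284
end
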