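import Vale.Agent.P269.R2.H284.Two

noncomputable section

namespace Vale.Agent.P269.R2.H284

open Finset
open scoped Classical

variable {T : Target}

theorem IsGW.sy {F : Corr T} (hF : IsGW T F) (g : ℕ) (d : T.B) : Sy (F g d) := hF.symm g d

theorem IsGW.cm (hT : IsTarget T) {F : Corr T} (hF : IsGW T F) (g : ℕ) (d : T.B) :
    Cm (F g d) := (hF.sy g d).cm hT

theorem IsGW.pt {F : Corr T} (hF : IsGW T F) (g : ℕ) (d : T.B) : Pt 0 (F g d) := by
  intro S hS
  have h1 := hF.dim_p g d S hS
  have h2 := hF.dim_q g d S hS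
  have h3 : (S.map fun s => ((s.1 + T.p s.2 : ℕ) : ℤ) - 1).sum +
      (S.map fun s => ((s.1 + T.q s.2 : ℕ) : ℤ) - 1).sum =
      (tp S : ℤ) + 2 * (S.map fun s => ((s.1 : ℕ) : ℤ) - 1).sum := by
    clear h1 h2 hS
    induction S with
    | nil => simp [tp]
    | cons s S ih =>
      rw [tp_cons]
      simp only [List.map_cons, List.sum_cons]
      push_cast
      have : (T.par s.2 : ℤ) = T.p s.2 + T.q s.2 := by unfold Target.par; push_cast; ring
      rw [this]
      push_cast at ih
      linarith
  omega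

theorem IsGW.str {F : Corr T} (hF : IsGW T F) (g : ℕ) (d : T.B) (S : List T.Ins) :
    str (F g d) S = if g = 0 ∧ d = 0 then two T T.η S else 0 := by
  unfold H284.str
  rw [hF.string g d S]
  ring

/-- the second-order part -/
def Phi (F : Corr T) (g : ℕ) (d : T.B) (x y : T.Ins) (S : List T.Ins) : ℂ :=
  (if g = 0 then 0 else F (g - 1) d (x :: y :: S)) +
    ∑ gg ∈ antidiagonal g, ∑ dd ∈ antidiagonal d, mul (T.par y.2)
      (fun S => F gg.1 dd.1 (x :: S)) (fun S => F gg.2 dd.2 (y :: S)) S

theorem str_sum {κ : Type*} (t : Finset κ) (G : κ → T.Fn) (S : List T.Ins) :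
    str (fun S => ∑ k ∈ t, G k S) S = ∑ k ∈ t, str (G k) S := by
  have : (fun S => ∑ k ∈ t, G k S) = ∑ k ∈ t, G k := by
    funext S
    simp
  rw [this]
  unfold str
  rw [der_sum, Finset.sum_apply, Finset.sum_sub_distrib]

/-- contributions of the exceptional terms of the string equation -/
def exc (F : Corr T) (g : ℕ) (d : T.B) (x y : T.Ins) (S : List T.Ins) : ℂ :=
  (if g = 1 ∧ d = 0 then two T T.η (x :: y :: S) else 0) +
    (mul (T.par y.2) (fun S => two T T.η (x :: S)) (fun S => F g d (y :: S)) S +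
      mul (T.par y.2) (fun S => F g d (x :: S)) (fun S => two T T.η (y :: S)) S)

theorem sum_antidiag_left (g : ℕ) (d : T.B) (f : ℕ × ℕ → T.B × T.B → ℂ) :
    (∑ gg ∈ antidiagonal g, ∑ dd ∈ antidiagonal d,
      if gg.1 = 0 ∧ dd.1 = 0 then f gg dd else 0) = f (0, g) (0, d) := by
  rw [Finset.sum_eq_single_of_mem ((0, g) : ℕ × ℕ) (by simp)]
  · rw [Finset.sum_eq_single_of_mem ((0, d) : T.B × T.B) (by simp)]
    · simp
    · intro dd hdd hne
      rw [if_neg]
      rintro ⟨_, h2⟩
      apply hne
      have : dd.1 + dd.2 = d := by simpa using hdd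
      rw [h2, zero_add] at this
      exact Prod.ext h2 this
  · intro gg hgg hne
    apply Finset.sum_eq_zero
    intro dd _
    rw [if_neg]
    rintro ⟨h1, _⟩
    apply hne
    have : gg.1 + gg.2 = g := by simpa using hgg
    exact Prod.ext h1 (by simp only; omega)

theorem sum_antidiag_right (g : ℕ) (d : T.B) (f : ℕ × ℕ → T.B × T.B → ℂ) :
    (∑ gg ∈ antidiagonal g, ∑ dd ∈ antidiagonal d,
      if gg.2 = 0 ∧ dd.2 = 0 then f gg dd else 0) = f (g, 0) (d, 0) := by
  rw [Finset.sum_eq_single_of_mem ((g, 0) : ℕ × ℕ) (by simp)]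
  · rw [Finset.sum_eq_single_of_mem ((d, 0) : T.B × T.B) (by simp)]
    · simp
    · intro dd hdd hne
      rw [if_neg]
      rintro ⟨_, h2⟩
      apply hne
      have : dd.1 + dd.2 = d := by simpa using hdd
      rw [h2, add_zero] at this
      exact Prod.ext this h2
  · intro gg hgg hne
    apply Finset.sum_eq_zero
    intro dd _
    rw [if_neg]
    rintro ⟨h1, _⟩
    apply hne
    have : gg.1 + gg.2 = g := by simpa using hgg
    exact Prod.ext (by simp only; omega) h1

theorem str_Phi (hT : IsTarget T) {F : Corr T} (hF : IsGW T F) (g : ℕ) (d : T.B) (x y : T.Ins)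
    (S : List T.Ins) :
    str (Phi F g d x y) S = (((low T x).sum fun x' e => e * Phi F g d x' y S) +
      ((low T y).sum fun y' e => e * Phi F g d x y' S)) + exc F g d x y S := by
  -- the first part
  have hA : str (fun S => if g = 0 then 0 else F (g - 1) d (x :: y :: S)) S =
      (if g = 0 then 0 else ins (low T x) (fun S' => F (g - 1) d S') (y :: S)) +
      (if g = 0 then 0 else ins (low T y) (fun S' => F (g - 1) d (x :: S')) S) +
      (if g = 1 ∧ d = 0 then two T T.η (x :: y :: S) else 0) := by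
    by_cases hg : g = 0
    · subst hg
      have : (fun S => if (0 : ℕ) = 0 then 0 else F (0 - 1) d (x :: y :: S)) = (0 : T.Fn) := by
        funext S; simp
      rw [this]
      simp [str, der_zero]
    · simp only [if_neg hg]
      have h1 := str_cons ((hF.cm hT (g - 1) d).cons x) y S
      have h2 := str_cons (hF.cm hT (g - 1) d) x (y :: S)
      rw [h1, h2, hF.str]
      have : (g - 1 = 0 ∧ d = 0) ↔ (g = 1 ∧ d = 0) := by
        constructor
        · rintro ⟨h, h'⟩; exact ⟨by omega, h'⟩
        · rintro ⟨h, h'⟩; exact ⟨by omega, h'⟩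
      simp only [this]
      ring
  -- the product part
  have hM : ∀ (gg : ℕ × ℕ) (dd : T.B × T.B), str (mul (T.par y.2)
      (fun S => F gg.1 dd.1 (x :: S)) (fun S => F gg.2 dd.2 (y :: S))) S =
      mul (T.par y.2) (ins (low T x) (F gg.1 dd.1)) (fun S => F gg.2 dd.2 (y :: S)) S +
      mul (T.par y.2) (fun S => F gg.1 dd.1 (x :: S)) (ins (low T y) (F gg.2 dd.2)) S +
      ((if gg.1 = 0 ∧ dd.1 = 0 then mul (T.par y.2) (fun S => two T T.η (x :: S))
          (fun S => F gg.2 dd.2 (y :: S)) S else 0) +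
        (if gg.2 = 0 ∧ dd.2 = 0 then mul (T.par y.2) (fun S => F gg.1 dd.1 (x :: S))
          (fun S => two T T.η (y :: S)) S else 0)) := by
    intro gg dd
    rw [str_mul hT]
    have e1 : str (fun S => F gg.1 dd.1 (x :: S)) =
        (fun S => if gg.1 = 0 ∧ dd.1 = 0 then two T T.η (x :: S) else 0) +
          ins (low T x) (F gg.1 dd.1) := by
      funext S
      rw [str_cons (hF.cm hT _ _), hF.str]
      rfl
    have e2 : str (fun S => F gg.2 dd.2 (y :: S)) =
        (fun S => if gg.2 = 0 ∧ dd.2 = 0 then two T T.η (y :: S) else 0) +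
          ins (low T y) (F gg.2 dd.2) := by
      funext S
      rw [str_cons (hF.cm hT _ _), hF.str]
      rfl
    rw [e1, e2, mul_add_left, mul_add_right]
    have e3 : mul (T.par y.2) (fun S => if gg.1 = 0 ∧ dd.1 = 0 then two T T.η (x :: S) else 0)
        (fun S => F gg.2 dd.2 (y :: S)) S =
        if gg.1 = 0 ∧ dd.1 = 0 then mul (T.par y.2) (fun S => two T T.η (x :: S))
          (fun S => F gg.2 dd.2 (y :: S)) S else 0 := by
      split_ifs
      · rfl
      · exact mul_zero_left _ _ _
    have e4 : mul (T.par y.2) (fun S => F gg.1 dd.1 (x :: S))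
        (fun S => if gg.2 = 0 ∧ dd.2 = 0 then two T T.η (y :: S) else 0) S =
        if gg.2 = 0 ∧ dd.2 = 0 then mul (T.par y.2) (fun S => F gg.1 dd.1 (x :: S))
          (fun S => two T T.η (y :: S)) S else 0 := by
      split_ifs
      · rfl
      · exact mul_zero_right _ _ _
    rw [e3, e4]
    ring
  have hPhi : Phi F g d x y = (fun S => if g = 0 then 0 else F (g - 1) d (x :: y :: S)) +
      fun S => ∑ gg ∈ antidiagonal g, ∑ dd ∈ antidiagonal d, mul (T.par y.2)
        (fun S => F gg.1 dd.1 (x :: S)) (fun S => F gg.2 dd.2 (y :: S)) S := rfl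
  rw [hPhi, str_add, hA, str_sum]
  have h3 : ∀ gg ∈ antidiagonal g, str (fun S => ∑ dd ∈ antidiagonal d, mul (T.par y.2)
        (fun S => F gg.1 dd.1 (x :: S)) (fun S => F gg.2 dd.2 (y :: S)) S) S =
      ∑ dd ∈ antidiagonal d, (mul (T.par y.2) (ins (low T x) (F gg.1 dd.1))
          (fun S => F gg.2 dd.2 (y :: S)) S +
      mul (T.par y.2) (fun S => F gg.1 dd.1 (x :: S)) (ins (low T y) (F gg.2 dd.2)) S +
      ((if gg.1 = 0 ∧ dd.1 = 0 then mul (T.par y.2) (fun S => two T T.η (x :: S))
          (fun S => F gg.2 dd.2 (y :: S)) S else 0) +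
        (if gg.2 = 0 ∧ dd.2 = 0 then mul (T.par y.2) (fun S => F gg.1 dd.1 (x :: S))
          (fun S => two T T.η (y :: S)) S else 0))) := by
    intro gg _
    rw [str_sum]
    exact Finset.sum_congr rfl fun dd _ => hM gg dd
  rw [Finset.sum_congr rfl h3]
  simp only [Finset.sum_add_distrib]
  rw [sum_antidiag_left g d (fun gg dd => mul (T.par y.2) (fun S => two T T.η (x :: S))
          (fun S => F gg.2 dd.2 (y :: S)) S),
    sum_antidiag_right g d (fun gg dd => mul (T.par y.2) (fun S => F gg.1 dd.1 (x :: S))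
          (fun S => two T T.η (y :: S)) S)]
  -- the lowering parts
  have hx : ((low T x).sum fun x' e => e * Phi F g d x' y S) =
      (if g = 0 then 0 else ins (low T x) (fun S' => F (g - 1) d S') (y :: S)) +
      ∑ gg ∈ antidiagonal g, ∑ dd ∈ antidiagonal d, mul (T.par y.2)
        (ins (low T x) (F gg.1 dd.1)) (fun S => F gg.2 dd.2 (y :: S)) S := by
    obtain ⟨n, a⟩ := x
    cases n with
    | zero => simp [low_zero, ins_zero, mul_zero_left]
    | succ n =>
      have e : ∀ G : T.Fn, ins (Finsupp.single (n, a) 1) G = fun S => G ((n, a) :: S) := by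
        intro G; funext S; rw [ins_single, one_mul]
      simp only [low_succ, e]
      simp [Phi]
  have hy : ((low T y).sum fun y' e => e * Phi F g d x y' S) =
      (if g = 0 then 0 else ins (low T y) (fun S' => F (g - 1) d (x :: S')) S) +
      ∑ gg ∈ antidiagonal g, ∑ dd ∈ antidiagonal d, mul (T.par y.2)
        (fun S => F gg.1 dd.1 (x :: S)) (ins (low T y) (F gg.2 dd.2)) S := by
    obtain ⟨n, a⟩ := y
    cases n with
    | zero => simp [low_zero, ins_zero, mul_zero_right]
    | succ n =>
      have e : ∀ G : T.Fn, ins (Finsupp.single (n, a) 1) G = fun S => G ((n, a) :: S) := by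
        intro G; funext S; rw [ins_single, one_mul]
      simp only [low_succ, e]
      simp [Phi]
  rw [hx, hy, exc]
  ring

theorem z_eq (F : Corr T) (K g : ℕ) (d : T.B) :
    z F K g d = (-1 : ℂ) • ins (shift T K) (F g d) + der (vir T K) (F g d) +
      (1 / 2 : ℂ) • (fun S => (biv T K).sum fun xy c => c * Phi F g d xy.1 xy.2 S) +
      (fun S => if g = 0 ∧ d = 0 then two T ((T.C ^ K) * T.η) S else 0) +
      (fun S => if K = 1 ∧ g = 1 ∧ d = 0 then cst T (T.χ / 16 - strMuSq T / 4) S else 0) := by
  funext S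
  simp only [z, Phi, Pi.add_apply, Pi.smul_apply, smul_eq_mul, neg_one_mul]
  rfl

theorem str_cst (c : ℂ) (S : List T.Ins) : str (cst T c) S = 0 := by
  unfold str
  have : der (low T) (cst T c) S = 0 := by
    cases S with
    | nil => rfl
    | cons s S =>
      rw [der_cons, ins_of_zero _ _ _ (fun x => rfl)]
      have : (fun S => cst T c (s :: S)) = 0 := by funext S; rfl
      rw [this, der_zero]
      ring
  rw [this]
  simp [cst]

/-- the string equation for the coefficients of `Z⁻¹ L_k Z` -/
theorem z_string (hT : IsTarget T) {F : Corr T} (hF : IsGW T F) (K g : ℕ) (d : T.B)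
    (S : List T.Ins) :
    str (z F (K + 1) g d) S = ((K : ℂ) + 1) * z F K g d S := by
  rw [z_eq F (K + 1), z_eq F K]
  simp only [str_add, str_smul, Pi.add_apply, Pi.smul_apply, smul_eq_mul]
  rw [str_ins (hF.cm hT g d), str_der, low_shift hT]
  rw [str_finsupp_sum (biv T (K + 1)) (fun xy => Phi F g d xy.1 xy.2) S]
  have e1 : (fun s => ext (low T) (vir T (K + 1) s)) =
      fun s => (ext (vir T (K + 1)) (low T s) + ((K : ℂ) + 1) • vir T K s) + bt T K s := by
    funext s; rw [low_vir]
  rw [e1, der_addR, der_addR, der_smulR, ins_add, ins_smul]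
  have e2 : ((biv T (K + 1)).sum fun xy c => c * str (Phi F g d xy.1 xy.2) S) =
      ((K : ℂ) + 1) * ((biv T K).sum fun xy c => c * Phi F g d xy.1 xy.2 S) +
      ((if K = 1 ∧ g = 1 ∧ d = 0 then cst T (4 * (T.χ / 16 - strMuSq T / 4)) S else 0) -
        2 * der (bt T K) (F g d) S) := by
    have e3 : ((biv T (K + 1)).sum fun xy c => c * str (Phi F g d xy.1 xy.2) S) =
        ((biv T (K + 1)).sum fun xy c => c *
          (((low T xy.1).sum fun x' e => e * Phi F g d x' xy.2 S) +
            ((low T xy.2).sum fun y' e => e * Phi F g d xy.1 y' S))) +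
        ((biv T (K + 1)).sum fun xy c => c * exc F g d xy.1 xy.2 S) := by
      rw [← Finsupp.sum_add]
      apply Finsupp.sum_congr
      intro xy _
      rw [str_Phi hT hF]; ring
    rw [e3, low_biv K (fun x y => Phi F g d x y S)]
    congr 1
    have e4 : ((biv T (K + 1)).sum fun xy c => c * exc F g d xy.1 xy.2 S) =
        (if g = 1 ∧ d = 0 then
          ((biv T (K + 1)).sum fun xy c => c * two T T.η (xy.1 :: xy.2 :: S)) else 0) +
        (((biv T (K + 1)).sum fun xy c => c * mul (T.par xy.2.2)
          (fun S => two T T.η (xy.1 :: S)) (fun S => F g d (xy.2 :: S)) S) +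
        ((biv T (K + 1)).sum fun xy c => c * mul (T.par xy.2.2)
          (fun S => F g d (xy.1 :: S)) (fun S => two T T.η (xy.2 :: S)) S)) := by
      rw [← Finsupp.sum_add]
      by_cases h : g = 1 ∧ d = 0
      · rw [if_pos h, ← Finsupp.sum_add]
        apply Finsupp.sum_congr
        intro xy _
        rw [exc, if_pos h]; ring
      · rw [if_neg h, zero_add]
        apply Finsupp.sum_congr
        intro xy _
        rw [exc, if_neg h]; ring
    rw [e4, contr_left hT K (hF.sy g d), contr_right hT K (hF.sy g d) (hF.pt g d), biv_two hT]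
    by_cases h : g = 1 ∧ d = 0
    · rw [if_pos h]
      by_cases hK : K = 1
      · rw [if_pos hK, if_pos ⟨hK, h⟩]; ring
      · rw [if_neg hK, if_neg (fun h' => hK h'.1)]; ring
    · rw [if_neg h, if_neg (fun h' => h h'.2)]; ring
  rw [e2]
  have e5 : str (fun S => if K + 1 = 1 ∧ g = 1 ∧ d = 0 then
      cst T (T.χ / 16 - strMuSq T / 4) S else 0) S = 0 := by
    by_cases h : K + 1 = 1 ∧ g = 1 ∧ d = 0
    · simp only [if_pos h]
      exact str_cst _ _
    · simp only [if_neg h]
      have := str_cst (T := T) 0 S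
      unfold str at this ⊢
      have h0 : (cst T 0) = 0 := by
        funext S; cases S <;> rfl
      rw [h0] at this
      exact this
  rw [e5]
  have hstr : str (F g d) = fun S => if g = 0 ∧ d = 0 then two T T.η S else 0 := by
    funext S; exact hF.str g d S
  rw [hstr]
  have e6 : (if K = 1 ∧ g = 1 ∧ d = 0 then cst T (4 * (T.χ / 16 - strMuSq T / 4)) S else 0) =
      2 * (((K : ℂ) + 1) * (if K = 1 ∧ g = 1 ∧ d = 0 then
        cst T (T.χ / 16 - strMuSq T / 4) S else 0)) := by
    by_cases h : K = 1 ∧ g = 1 ∧ d = 0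
    · rw [if_pos h, if_pos h, h.1]
      cases S with
      | nil => simp only [cst]; push_cast; ring
      | cons s S => simp [cst]
    · rw [if_neg h, if_neg h]; ring
  rw [e6]
  by_cases h0 : g = 0 ∧ d = 0
  · simp only [if_pos h0]
    have := two_string hT K S
    have e7 : str (fun S => two T (T.C ^ (K + 1) * T.η) S) S =
        two T (T.C ^ (K + 1) * T.η) ((0, T.one) :: S) -
        der (low T) (two T (T.C ^ (K + 1) * T.η)) S := rfl
    have e8 : (fun S => two T T.η S) = two T T.η := rfl
    rw [e7, e8]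
    simp only [Pi.add_apply, Pi.smul_apply, smul_eq_mul]
    linear_combination this
  · simp only [if_neg h0]
    have e9 : ins (shift T (K + 1)) (fun _ => (0 : ℂ)) S = 0 := ins_of_zero _ _ _ (fun x => rfl)
    have e10 : der (vir T (K + 1)) (fun _ => (0 : ℂ)) S = 0 := der_zero _ _
    have e11 : str (fun _ => (0 : ℂ)) S = 0 := by
      unfold str
      have : der (low T) (fun _ => (0 : ℂ)) S = 0 := der_zero _ _
      rw [this]; ring
    rw [e9, e10, e11]
    simp only [Pi.add_apply, Pi.smul_apply, smul_eq_mul]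
    ring

end Vale.Agent.P269.R2.H284
end
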