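import Vale.Agent.P269.R2.H284.Types

noncomputable section

namespace Vale.Agent.P269.R2.H284

open Finset
open scoped Classical

variable {T : Target}

theorem two_pair (M : Matrix T.A T.A ℂ) (s t : T.Ins) :
    two T M [s, t] = if s.1 = 0 ∧ t.1 = 0 then M s.2 t.2 else 0 := by
  have := congrFun (two_cons M s) [t]
  simpa [one1] using this

theorem two_nil (M : Matrix T.A T.A ℂ) : two T M [] = 0 := rfl

theorem two_sing (M : Matrix T.A T.A ℂ) (s : T.Ins) : two T M [s] = 0 := by
  obtain ⟨m, a⟩ := s
  cases m <;> rfl

theorem two_long (M : Matrix T.A T.A ℂ) (s t u : T.Ins) (S : List T.Ins) :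
    two T M (s :: t :: u :: S) = 0 := by
  obtain ⟨m, a⟩ := s
  obtain ⟨n, b⟩ := t
  cases m <;> cases n <;> rfl

theorem ins_eq_lc (v : T.Ins →₀ ℂ) (G : T.Fn) (S : List T.Ins) :
    ins v G S = Finsupp.linearCombination ℂ (fun x => G (x :: S)) v :=
  sum_mul_eq_lc v _

theorem ins_of_zero (v : T.Ins →₀ ℂ) (G : T.Fn) (S : List T.Ins) (h : ∀ x, G (x :: S) = 0) :
    ins v G S = 0 := by
  simp [ins, h]

theorem ins_vir (K : ℕ) (s : T.Ins) (G : T.Fn) (S : List T.Ins) :
    ins (vir T K s) G S = ∑ i ∈ range (K + 1), if i + 1 ≤ s.1 + K then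
      ∑ b, (br (T.mu s.2 + s.1 + 1 / 2) K i * (T.C ^ i) s.2 b) *
        G ((s.1 + K - 1 - i, b) :: S) else 0 := by
  rw [ins_eq_lc, vir, map_sum]
  apply Finset.sum_congr rfl
  intro i _
  split_ifs
  · simp only [map_sum, Finsupp.linearCombination_single, smul_eq_mul]
  · simp

theorem ins_shift (K : ℕ) (G : T.Fn) (S : List T.Ins) :
    ins (shift T K) G S = ∑ i ∈ range (K + 1),
      ∑ b, (br ((3 - (T.D : ℂ)) / 2) K i * (T.C ^ i) T.one b) * G ((K - i, b) :: S) := by
  rw [ins_eq_lc, shift]
  simp only [map_sum, Finsupp.linearCombination_single, smul_eq_mul]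

/-- contraction of `vir` with a function which only sees `τ_0` -/
theorem ins_vir_zero (K : ℕ) (s : T.Ins) (G : T.Fn) (S : List T.Ins) (f : T.A → ℂ)
    (hG : ∀ n b, G ((n, b) :: S) = if n = 0 then f b else 0) :
    ins (vir T (K + 1) s) G S =
      if s.1 = 0 then br (T.mu s.2 + 1 / 2) (K + 1) K * ∑ b, (T.C ^ K) s.2 b * f b
      else if s.1 = 1 then ∑ b, (T.C ^ (K + 1)) s.2 b * f b else 0 := by
  rw [ins_vir]
  obtain ⟨m, a⟩ := s
  simp only [hG]
  rcases m with _ | m | m
  · rw [if_pos rfl, Finset.sum_eq_single_of_mem K (by simp)]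
    · rw [if_pos (by omega), Finset.mul_sum]
      apply Finset.sum_congr rfl
      intro b _
      rw [if_pos (by omega)]
      simp only [Nat.cast_zero, add_zero]
      ring
    · intro i hi hne
      rw [ite_eq_right_iff]
      intro h
      apply Finset.sum_eq_zero
      intro b _
      rw [if_neg (by omega), mul_zero]
  · rw [if_neg (by simp), if_pos (by simp), Finset.sum_eq_single_of_mem (K + 1) (by simp)]
    · rw [if_pos (by omega)]
      apply Finset.sum_congr rfl
      intro b _
      rw [if_pos (by omega), br_top]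
      ring
    · intro i hi hne
      have hi' : i ≤ K + 1 := by simpa [Nat.lt_succ_iff] using hi
      rw [ite_eq_right_iff]
      intro h
      apply Finset.sum_eq_zero
      intro b _
      rw [if_neg (by omega), mul_zero]
  · rw [if_neg (by simp), if_neg (by omega)]
    apply Finset.sum_eq_zero
    intro i hi
    have hi' : i ≤ K + 1 := by simpa [Nat.lt_succ_iff] using hi
    rw [ite_eq_right_iff]
    intro h
    apply Finset.sum_eq_zero
    intro b _
    rw [if_neg (by omega), mul_zero]

theorem two_string (hT : IsTarget T) (K : ℕ) (S : List T.Ins) :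
    -ins (shift T (K + 1)) (two T T.η) S + der (vir T (K + 1)) (two T T.η) S +
      (two T (T.C ^ (K + 1) * T.η) ((0, T.one) :: S) -
        der (low T) (two T (T.C ^ (K + 1) * T.η)) S) =
    ((K : ℂ) + 1) * two T (T.C ^ K * T.η) S := by
  match S with
  | [] =>
    rw [ins_of_zero _ _ _ (fun x => two_sing _ x), der_nil, der_nil, two_sing, two_nil]
    ring
  | [s] =>
    rw [der_cons, der_cons, der_nil, der_nil, ins_of_zero _ _ _ (fun x => two_sing _ x),
      ins_of_zero _ _ _ (fun x => two_sing _ x), two_sing, two_pair, ins_shift]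
    rw [Finset.sum_eq_single_of_mem (K + 1) (by simp)]
    · have : (∑ b, br ((3 - (T.D : ℂ)) / 2) (K + 1) (K + 1) * (T.C ^ (K + 1)) T.one b *
          two T T.η [(K + 1 - (K + 1), b), s]) = if s.1 = 0 then
            (T.C ^ (K + 1) * T.η) T.one s.2 else 0 := by
        rw [br_top]
        by_cases hs : s.1 = 0
        · rw [if_pos hs, Matrix.mul_apply]
          apply Finset.sum_congr rfl
          intro b _
          rw [two_pair]
          simp [hs]
        · rw [if_neg hs]
          apply Finset.sum_eq_zero
          intro b _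
          rw [two_pair]
          simp [hs]
      rw [this]
      simp
    · intro i hi hne
      have hi' : i ≤ K + 1 := by simpa [Nat.lt_succ_iff] using hi
      apply Finset.sum_eq_zero
      intro b _
      rw [two_pair, if_neg, mul_zero]
      rintro ⟨h1, _⟩
      have h1' : K + 1 - i = 0 := h1
      omega
  | [s, t] =>
    rw [ins_of_zero _ _ _ (fun x => two_long _ x s t []), two_long, der_cons, der_cons, der_nil,
      der_cons, der_cons, der_nil, two_pair]
    have hs : ins (vir T (K + 1) s) (two T T.η) [t] =
      if s.1 = 0 then br (T.mu s.2 + 1 / 2) (K + 1) K *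
        ∑ b, (T.C ^ K) s.2 b * (if t.1 = 0 then T.η b t.2 else 0)
      else if s.1 = 1 then ∑ b, (T.C ^ (K + 1)) s.2 b * (if t.1 = 0 then T.η b t.2 else 0)
        else 0 := by
      apply ins_vir_zero
      intro n b
      rw [two_pair]
      by_cases h1 : n = 0 <;> by_cases h2 : t.1 = 0 <;> simp [h1, h2]
    have ht : ins (vir T (K + 1) t) (fun S => two T T.η (s :: S)) [] =
      if t.1 = 0 then br (T.mu t.2 + 1 / 2) (K + 1) K *
        ∑ b, (T.C ^ K) t.2 b * (if s.1 = 0 then T.η s.2 b else 0)
      else if t.1 = 1 then ∑ b, (T.C ^ (K + 1)) t.2 b * (if s.1 = 0 then T.η s.2 b else 0)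
        else 0 := by
      apply ins_vir_zero
      intro n b
      rw [two_pair]
      by_cases h1 : n = 0 <;> by_cases h2 : s.1 = 0 <;> simp [h1, h2]
    rw [hs, ht]
    have adj : ∀ i, ∑ b, (T.C ^ i) t.2 b * T.η s.2 b = (T.C ^ i * T.η) s.2 t.2 := by
      intro i
      rw [hT.Cpow_adj, Matrix.mul_apply]
      apply Finset.sum_congr rfl
      intro b _
      rw [Matrix.transpose_apply]; ring
    have dir : ∀ i, ∑ b, (T.C ^ i) s.2 b * T.η b t.2 = (T.C ^ i * T.η) s.2 t.2 := by
      intro i
      rw [Matrix.mul_apply]
    obtain ⟨m, a⟩ := s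
    obtain ⟨n, b⟩ := t
    simp only at adj dir
    rcases m with _ | m
    · rcases n with _ | n
      · simp only [if_true, adj, dir, ins_low_zero, and_self]
        rw [br_subtop, br_subtop]
        by_cases h0 : (T.C ^ K * T.η) a b = 0
        · rw [h0]; ring
        · have ty := (hT.Cpow_η_type K a b h0).1
          have ty' : (T.p a : ℂ) + K + T.p b = T.D := by exact_mod_cast ty
          unfold Target.mu
          linear_combination (-((K : ℂ) + 1) * (T.C ^ K * T.η) a b) * (-ty')
      · rcases n with _ | n
        · simp only [if_true, adj, ins_low_zero, ins_low_succ, two_pair]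
          simp
        · simp only [if_true, ins_low_zero, ins_low_succ, two_pair]
          simp
    · rcases n with _ | n
      · rcases m with _ | m
        · simp only [if_true, dir, ins_low_zero, ins_low_succ, two_pair]
          simp
        · simp only [if_true, ins_low_zero, ins_low_succ, two_pair]
          simp
      · simp only [ins_low_succ, two_pair]
        simp
  | s :: t :: u :: S =>
    rw [ins_of_zero _ _ _ (fun x => two_long _ x s t (u :: S)), two_long, two_long]
    have : ∀ R : T.Ins → (T.Ins →₀ ℂ), ∀ M : Matrix T.A T.A ℂ,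
        der R (two T M) (s :: t :: u :: S) = 0 := by
      intro R M
      rw [der_cons, der_cons, der_cons, ins_of_zero _ _ _ (fun x => two_long _ x t u S),
        ins_of_zero _ _ _ (fun x => two_long _ s x u S),
        ins_of_zero _ _ _ (fun x => two_long _ s t x S)]
      have : (fun S => two T M (s :: t :: u :: S)) = 0 := by
        funext S
        exact two_long _ _ _ _ _
      rw [this, der_zero]
      ring
    rw [this, this]
    ring

/-- the contraction of the bivector with the pairing gives the constant -/
theorem biv_two (hT : IsTarget T) (K : ℕ) (S : List T.Ins) :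
    ((biv T (K + 1)).sum fun xy c => c * two T T.η (xy.1 :: xy.2 :: S)) =
      if K = 1 then cst T (4 * (T.χ / 16 - strMuSq T / 4)) S else 0 := by
  have hb := biv_sum (T := T) (K + 1) (fun xy => two T T.η (xy.1 :: xy.2 :: S))
  rw [hb]
  match S with
  | s :: S =>
    have : (if K = 1 then cst T (4 * (T.χ / 16 - strMuSq T / 4)) (s :: S) else 0) = 0 := by
      split_ifs <;> rfl
    rw [this]
    refine Finset.sum_eq_zero fun i _ => Finset.sum_eq_zero fun nm _ =>
      Finset.sum_eq_zero fun c _ => Finset.sum_eq_zero fun a _ =>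
      Finset.sum_eq_zero fun b _ => ?_
    simp only
    rw [two_long, mul_zero]
  | [] =>
    rcases Nat.eq_zero_or_pos K with hK | hK
    · subst hK; simp
    obtain ⟨L, rfl⟩ : ∃ L, K = L + 1 := ⟨K - 1, by omega⟩
    have e1 : L + 1 + 1 - 1 = L + 1 := by omega
    rw [e1, Finset.sum_eq_single_of_mem L (by simp)]
    · have e3 : L + 1 + 1 - 2 - L = 0 := by omega
      rw [e3]
      simp only [Finset.Nat.antidiagonal_zero, Finset.sum_singleton, two_pair, and_self, if_true]
      rcases Nat.eq_zero_or_pos L with hL | hL
      · subst hL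
        simp only [zero_add, if_true, pow_zero, cst]
        have h1 : ∀ c a, (∑ b, (-1 : ℂ) ^ 1 * T.ι c a *
            br (T.mu a - ((0 : ℕ) : ℂ) - 1 / 2) (1 + 1) 0 *
            (1 : Matrix T.A T.A ℂ) a b * T.η c b) =
            -(T.mu a ^ 2 - 1 / 4) * (T.ι c a * T.η c a) := by
          intro c a
          rw [Finset.sum_eq_single_of_mem a (by simp)]
          · rw [Matrix.one_apply_eq, br_two_zero]
            push_cast
            ring
          · intro b _ hne
            rw [Matrix.one_apply_ne (Ne.symm hne)]
            ring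
        rw [Finset.sum_congr rfl fun c _ => Finset.sum_congr rfl fun a _ => h1 c a,
          Finset.sum_comm]
        have h2 : ∀ a, (∑ c, -(T.mu a ^ 2 - 1 / 4) * (T.ι c a * T.η c a)) =
            -(T.mu a ^ 2 - 1 / 4) * (-1) ^ T.par a := by
          intro a
          rw [← Finset.mul_sum, hT.sum_sign a a, if_pos rfl, mul_one]
        rw [Finset.sum_congr rfl fun a _ => h2 a, hT.χ_eq, strMuSq]
        have h3 : (∑ a, -(T.mu a ^ 2 - 1 / 4) * (-1) ^ T.par a) =
            -(∑ a, (-1) ^ T.par a * T.mu a ^ 2) + (1 / 4) * ∑ a, (-1 : ℂ) ^ T.par a := by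
          rw [Finset.mul_sum, ← Finset.sum_neg_distrib, ← Finset.sum_add_distrib]
          apply Finset.sum_congr rfl
          intro a _
          ring
        rw [h3]; ring
      · rw [if_neg (by omega)]
        refine Finset.sum_eq_zero fun c _ => Finset.sum_eq_zero fun a _ =>
          Finset.sum_eq_zero fun b _ => ?_
        by_cases h1 : T.ι c a = 0
        · rw [h1]; ring
        by_cases h2 : (T.C ^ L) a b = 0
        · rw [h2]; ring
        have p1 := (hT.ι_type c a h1).1
        have p2 := (hT.Cpow_type L a b h2).1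
        have : T.η c b = 0 := by
          by_contra h3
          have := (hT.η_type c b h3).1
          omega
        rw [this, mul_zero]
    · intro i hi hne
      have hi' : i ≤ L := by simpa [Nat.lt_succ_iff] using hi
      refine Finset.sum_eq_zero fun nm hnm => Finset.sum_eq_zero fun c _ =>
        Finset.sum_eq_zero fun a _ => Finset.sum_eq_zero fun b _ => ?_
      have hs : nm.1 + nm.2 = L + 1 + 1 - 2 - i := by simpa using hnm
      simp only [two_pair]
      rw [if_neg (by omega), mul_zero]

end Vale.Agent.P269.R2.H284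
end
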