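import Vale.Agent.P269.R2.H284.Vec

noncomputable section

namespace Vale.Agent.P269.R2.H284

open Finset
open scoped Classical

variable {T : Target}

theorem IsTarget.η_ι (hT : IsTarget T) : T.η * T.ι = 1 :=
  Matrix.mul_nonsing_inv _ (isUnit_iff_ne_zero.mpr hT.nondeg)

theorem IsTarget.ι_η (hT : IsTarget T) : T.ι * T.η = 1 :=
  Matrix.nonsing_inv_mul _ (isUnit_iff_ne_zero.mpr hT.nondeg)

theorem IsTarget.Cpow_type (hT : IsTarget T) (i : ℕ) (a b : T.A) (h : (T.C ^ i) a b ≠ 0) :
    T.p b = T.p a + i ∧ T.q b = T.q a + i := by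
  induction i generalizing b with
  | zero =>
    rw [pow_zero, Matrix.one_apply] at h
    have : a = b := by
      by_contra hne
      simp [hne] at h
    subst this
    simp
  | succ i ih =>
    rw [pow_succ, Matrix.mul_apply] at h
    obtain ⟨e, _, he⟩ := Finset.exists_ne_zero_of_sum_ne_zero h
    have h1 := ih e (left_ne_zero_of_mul he)
    have h2 := hT.C_type e b (right_ne_zero_of_mul he)
    omega

theorem IsTarget.Cpow_par (hT : IsTarget T) (i : ℕ) (a b : T.A) (h : (T.C ^ i) a b ≠ 0) :
    T.par b % 2 = T.par a % 2 := by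
  have := hT.Cpow_type i a b h
  unfold Target.par
  omega

theorem IsTarget.η_par (hT : IsTarget T) (a b : T.A) (h : T.η a b ≠ 0) :
    T.par b % 2 = T.par a % 2 := by
  have := hT.η_type a b h
  unfold Target.par
  omega

theorem IsTarget.ι_type (hT : IsTarget T) (a b : T.A) (h : T.ι a b ≠ 0) :
    T.p a + T.p b = T.D ∧ T.q a + T.q b = T.D := by
  set P : T.A → T.A → Prop := fun a b => T.p a + T.p b = T.D ∧ T.q a + T.q b = T.D with hP
  let ι' : Matrix T.A T.A ℂ := Matrix.of fun a b => if P a b then T.ι a b else 0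
  have key : T.η * ι' = 1 := by
    rw [← hT.η_ι]
    ext x b
    rw [Matrix.mul_apply, Matrix.mul_apply]
    by_cases hx : T.p x = T.p b ∧ T.q x = T.q b
    · apply Finset.sum_congr rfl
      intro c _
      by_cases hc : T.η x c = 0
      · rw [hc]; ring
      · have := hT.η_type x c hc
        have hPc : P c b := by rw [hP]; constructor <;> omega
        simp only [ι', Matrix.of_apply, if_pos hPc]
    · have e1 : ∑ c, T.η x c * T.ι c b = 0 := by
        have := congrFun (congrFun hT.η_ι x) b
        rw [Matrix.mul_apply, Matrix.one_apply] at this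
        rw [this, if_neg]
        rintro rfl
        exact hx ⟨rfl, rfl⟩
      rw [e1]
      apply Finset.sum_eq_zero
      intro c _
      by_cases hc : T.η x c = 0
      · rw [hc]; ring
      · have := hT.η_type x c hc
        have hPc : ¬ P c b := by
          rw [hP]
          rintro ⟨h1, h2⟩
          exact hx ⟨by omega, by omega⟩
        simp only [ι', Matrix.of_apply, if_neg hPc, mul_zero]
  have : ι' = T.ι := by
    calc ι' = (T.ι * T.η) * ι' := by rw [hT.ι_η, one_mul]
      _ = T.ι * (T.η * ι') := by rw [mul_assoc]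
      _ = T.ι := by rw [key, mul_one]
  by_contra hne
  apply h
  rw [← this]
  simp only [ι', Matrix.of_apply]
  rw [if_neg hne]

theorem IsTarget.ι_par (hT : IsTarget T) (a b : T.A) (h : T.ι a b ≠ 0) :
    T.par b % 2 = T.par a % 2 := by
  have := hT.ι_type a b h
  unfold Target.par
  omega

theorem IsTarget.sum_η_ι (hT : IsTarget T) (s a : T.A) :
    ∑ c, T.η s c * T.ι c a = if s = a then 1 else 0 := by
  have := congrFun (congrFun hT.η_ι s) a
  rwa [Matrix.mul_apply, Matrix.one_apply] at this

theorem IsTarget.sum_ι_η (hT : IsTarget T) (s a : T.A) :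
    ∑ c, T.ι s c * T.η c a = if s = a then 1 else 0 := by
  have := congrFun (congrFun hT.ι_η s) a
  rwa [Matrix.mul_apply, Matrix.one_apply] at this

theorem IsTarget.sum_sign (hT : IsTarget T) (s a : T.A) :
    ∑ c, T.ι c a * T.η c s = (-1) ^ T.par a * if s = a then 1 else 0 := by
  rw [← hT.sum_η_ι, Finset.mul_sum]
  apply Finset.sum_congr rfl
  intro c _
  by_cases h1 : T.ι c a = 0
  · rw [h1]; ring
  by_cases h2 : T.η c s = 0
  · have : T.η s c = 0 := by rw [hT.η_symm, h2, mul_zero]
    rw [h2, this]; ring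
  have p1 := hT.ι_par c a h1
  have p2 := hT.η_par c s h2
  rw [hT.η_symm c s]
  have : (-1 : ℂ) ^ (T.par c * T.par s) = (-1) ^ T.par a := by
    apply neg_pow_congr
    rw [Nat.mul_mod, p2, ← p1, ← Nat.mul_mod]
    rcases Nat.mod_two_eq_zero_or_one (T.par a) with h | h <;> simp [Nat.mul_mod, h]
  rw [this]; ring

/-- `c_1^i` is self-adjoint -/
theorem IsTarget.Cpow_adj (hT : IsTarget T) (i : ℕ) :
    T.C ^ i * T.η = T.η * (T.C ^ i).transpose := by
  induction i with
  | zero => simp
  | succ i ih =>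
    calc T.C ^ (i + 1) * T.η = T.C * (T.C ^ i * T.η) := by rw [pow_succ', mul_assoc]
      _ = (T.C * T.η) * (T.C ^ i).transpose := by rw [ih, mul_assoc]
      _ = T.η * (T.C.transpose * (T.C ^ i).transpose) := by rw [hT.C_adj, mul_assoc]
      _ = T.η * (T.C ^ (i + 1)).transpose := by rw [← Matrix.transpose_mul, ← pow_succ]

theorem IsTarget.Cpow_η_type (hT : IsTarget T) (i : ℕ) (a s : T.A)
    (h : (T.C ^ i * T.η) a s ≠ 0) :
    T.p a + i + T.p s = T.D ∧ T.q a + i + T.q s = T.D := by
  rw [Matrix.mul_apply] at h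
  obtain ⟨e, _, he⟩ := Finset.exists_ne_zero_of_sum_ne_zero h
  have h1 := hT.Cpow_type i a e (left_ne_zero_of_mul he)
  have h2 := hT.η_type e s (right_ne_zero_of_mul he)
  omega

theorem der_sumR {κ : Type*} (t : Finset κ) (R : κ → T.Ins → (T.Ins →₀ ℂ)) (G : T.Fn)
    (S : List T.Ins) : der (fun s => ∑ k ∈ t, R k s) G S = ∑ k ∈ t, der (R k) G S := by
  classical
  induction t using Finset.induction_on with
  | empty =>
    simp only [Finset.sum_empty]
    induction S generalizing G with
    | nil => rfl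
    | cons s S ih => rw [der_cons, ih, ins_zero]; simp
  | insert a t ha ih =>
    simp only [Finset.sum_insert ha]
    rw [der_addR, ih]

theorem der_single_mul (y : T.Ins) (c : ℂ) (v : T.Ins → ℂ) (G : T.Fn) (S : List T.Ins) :
    der (fun s => Finsupp.single y (c * v s)) G S =
      c * der (fun s => Finsupp.single y (v s)) G S := by
  rw [← der_smulR]
  congr 1
  funext s
  simp

theorem der_single_neg (y : T.Ins) (v : T.Ins → ℂ) (G : T.Fn) (S : List T.Ins) :
    -der (fun s => Finsupp.single y (v s)) G S =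
      der (fun s => Finsupp.single y (-v s)) G S := by
  have := der_single_mul y (-1) v G S
  simp only [neg_one_mul] at this
  exact this.symm

/-- the boundary contraction, written out -/
theorem der_bt (K : ℕ) (G : T.Fn) (S : List T.Ins) :
    der (bt T K) G S = ∑ i ∈ range K, ∑ b, der (fun s => Finsupp.single (K - 1 - i, b)
      (if s.1 = 0 then br (T.mu s.2 - 1 / 2) (K + 1) i * (T.C ^ i) s.2 b else 0)) G S := by
  have : bt T K = fun s => ∑ i ∈ range K, ∑ b, Finsupp.single (K - 1 - i, b)
      (if s.1 = 0 then br (T.mu s.2 - 1 / 2) (K + 1) i * (T.C ^ i) s.2 b else 0) := by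
    funext s
    unfold bt
    split_ifs with h
    · rfl
    · simp
  rw [this, der_sumR]
  apply Finset.sum_congr rfl
  intro i _
  rw [der_sumR]

theorem contr_left (hT : IsTarget T) (K : ℕ) {F : T.Fn} (hF : Sy F) (S : List T.Ins) :
    ((biv T (K + 1)).sum fun xy c => c * mul (T.par xy.2.2)
      (fun S => two T T.η (xy.1 :: S)) (fun S => F (xy.2 :: S)) S) = -der (bt T K) F S := by
  have hb := biv_sum (T := T) (K + 1) (fun xy => mul (T.par xy.2.2)
      (fun S => two T T.η (xy.1 :: S)) (fun S => F (xy.2 :: S)) S)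
  rw [hb, der_bt, ← Finset.sum_neg_distrib]
  have e0 : K + 1 - 1 = K := rfl
  rw [e0]
  apply Finset.sum_congr rfl
  intro i hi
  have hi' : i < K := by simpa using hi
  -- only the first element of the antidiagonal contributes
  have hz : ∀ nm ∈ antidiagonal (K + 1 - 2 - i), nm ≠ (0, K - 1 - i) →
      (∑ c, ∑ a, ∑ b, ((-1) ^ (nm.1 + 1) * T.ι c a * br (T.mu a - nm.1 - 1 / 2) (K + 1) i *
        (T.C ^ i) a b) * mul (T.par b) (fun S => two T T.η ((nm.1, c) :: S))
          (fun S => F ((nm.2, b) :: S)) S) = 0 := by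
    intro nm hnm hne
    have h1 : nm.1 + nm.2 = K + 1 - 2 - i := by simpa using hnm
    have h2 : nm.1 ≠ 0 := by
      intro h0
      apply hne
      ext
      · exact h0
      · simp only; omega
    refine Finset.sum_eq_zero fun c _ => Finset.sum_eq_zero fun a _ =>
      Finset.sum_eq_zero fun b _ => ?_
    have : (fun S => two T T.η ((nm.1, c) :: S)) = 0 := by
      rw [two_cons]
      funext S
      match S with
      | [] => rfl
      | [s] => simp [one1, h2]
      | s :: t :: S => rfl
    rw [this, mul_zero_left, mul_zero]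
  have hmem : ((0, K - 1 - i) : ℕ × ℕ) ∈ antidiagonal (K + 1 - 2 - i) := by
    simp
  rw [Finset.sum_eq_single_of_mem _ hmem (fun nm h1 h2 => hz nm h1 h2)]
  simp only
  -- evaluate each term
  have hterm : ∀ c a b, ((-1) ^ (0 + 1) * T.ι c a * br (T.mu a - ((0 : ℕ) : ℂ) - 1 / 2) (K + 1) i *
        (T.C ^ i) a b) * mul (T.par b) (fun S => two T T.η ((0, c) :: S))
          (fun S => F ((K - 1 - i, b) :: S)) S =
      der (fun s => Finsupp.single (K - 1 - i, b)
        ((-((-1) ^ T.par b * br (T.mu a - 1 / 2) (K + 1) i * (T.C ^ i) a b * T.ι c a)) *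
          (if s.1 = 0 then T.η c s.2 else 0))) F S := by
    intro c a b
    rw [der_single_mul]
    by_cases h1 : T.ι c a = 0
    · rw [h1]; ring
    by_cases h2 : (T.C ^ i) a b = 0
    · rw [h2]; ring
    rw [two_cons, mul_one_left _ _ _ hF]
    · have h3 : (-1 : ℂ) ^ (T.par b * T.par b) = (-1) ^ T.par b := by
        apply neg_pow_congr
        rcases Nat.mod_two_eq_zero_or_one (T.par b) with h | h <;> simp [Nat.mul_mod, h]
      simp only [true_and, h3, Nat.cast_zero, sub_zero]
      ring
    · intro s hs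
      simp only [true_and] at hs
      have h4 : T.η c s.2 ≠ 0 := by
        intro h0
        rw [h0] at hs
        simp at hs
      have p1 := hT.ι_par c a h1
      have p2 := hT.Cpow_par i a b h2
      have p3 := hT.η_par c s.2 h4
      simp only
      omega
  rw [Finset.sum_congr rfl fun c _ => Finset.sum_congr rfl fun a _ =>
    Finset.sum_congr rfl fun b _ => hterm c a b]
  -- interchange and collect
  have hcomm : (∑ c, ∑ a, ∑ b, der (fun s => Finsupp.single (K - 1 - i, b)
        ((-((-1) ^ T.par b * br (T.mu a - 1 / 2) (K + 1) i * (T.C ^ i) a b * T.ι c a)) *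
          (if s.1 = 0 then T.η c s.2 else 0))) F S) =
      ∑ b, ∑ a, ∑ c, der (fun s => Finsupp.single (K - 1 - i, b)
        ((-((-1) ^ T.par b * br (T.mu a - 1 / 2) (K + 1) i * (T.C ^ i) a b * T.ι c a)) *
          (if s.1 = 0 then T.η c s.2 else 0))) F S := by
    rw [Finset.sum_comm]
    rw [Finset.sum_congr rfl fun a _ => Finset.sum_comm]
    rw [Finset.sum_comm]
  rw [hcomm, ← Finset.sum_neg_distrib]
  apply Finset.sum_congr rfl
  intro b _
  rw [der_single_neg]
  have hin : ∀ a, (∑ c, der (fun s => Finsupp.single (K - 1 - i, b)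
        ((-((-1) ^ T.par b * br (T.mu a - 1 / 2) (K + 1) i * (T.C ^ i) a b * T.ι c a)) *
          (if s.1 = 0 then T.η c s.2 else 0))) F S) =
      der (fun s => ∑ c, Finsupp.single (K - 1 - i, b)
        ((-((-1) ^ T.par b * br (T.mu a - 1 / 2) (K + 1) i * (T.C ^ i) a b * T.ι c a)) *
          (if s.1 = 0 then T.η c s.2 else 0))) F S := by
    intro a
    rw [der_sumR]
  rw [Finset.sum_congr rfl fun a _ => hin a, ← der_sumR]
  congr 1
  funext s
  simp only [← Finsupp.single_finsetSum]
  congr 1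
  by_cases hs : s.1 = 0
  · simp only [hs, if_true]
    have h5 : ∀ a, (∑ c, (-((-1 : ℂ) ^ T.par b * br (T.mu a - 1 / 2) (K + 1) i * (T.C ^ i) a b *
        T.ι c a)) * T.η c s.2) = -(br (T.mu a - 1 / 2) (K + 1) i * (T.C ^ i) a b *
          if s.2 = a then 1 else 0) := by
      intro a
      have h6 : (∑ c, (-((-1 : ℂ) ^ T.par b * br (T.mu a - 1 / 2) (K + 1) i * (T.C ^ i) a b *
        T.ι c a)) * T.η c s.2) = (-((-1 : ℂ) ^ T.par b * br (T.mu a - 1 / 2) (K + 1) i *
          (T.C ^ i) a b)) * ∑ c, T.ι c a * T.η c s.2 := by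
        rw [Finset.mul_sum]
        apply Finset.sum_congr rfl
        intro c _
        ring
      rw [h6, hT.sum_sign]
      by_cases h7 : (T.C ^ i) a b = 0
      · rw [h7]; ring
      have p2 := hT.Cpow_par i a b h7
      have h8 : (-1 : ℂ) ^ T.par b * (-1) ^ T.par a = 1 := by
        rw [← pow_add]
        have : (T.par b + T.par a) % 2 = 0 := by omega
        rw [neg_pow_congr (a := T.par b + T.par a) (b := 0) (by simpa using this)]
        simp
      linear_combination (-(br (T.mu a - 1 / 2) (K + 1) i * (T.C ^ i) a b *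
          if s.2 = a then 1 else 0)) * h8
    rw [Finset.sum_congr rfl fun a _ => h5 a]
    simp [Finset.sum_neg_distrib]
  · simp [hs]

theorem contr_right (hT : IsTarget T) (K : ℕ) {F : T.Fn} (hF : Sy F) (hp : Pt 0 F)
    (S : List T.Ins) :
    ((biv T (K + 1)).sum fun xy c => c * mul (T.par xy.2.2)
      (fun S => F (xy.1 :: S)) (fun S => two T T.η (xy.2 :: S)) S) = -der (bt T K) F S := by
  have hb := biv_sum (T := T) (K + 1) (fun xy => mul (T.par xy.2.2)
      (fun S => F (xy.1 :: S)) (fun S => two T T.η (xy.2 :: S)) S)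
  rw [hb, der_bt, ← Finset.sum_neg_distrib]
  have e0 : K + 1 - 1 = K := rfl
  rw [e0]
  apply Finset.sum_congr rfl
  intro i hi
  have hi' : i < K := by simpa using hi
  have hz : ∀ nm ∈ antidiagonal (K + 1 - 2 - i), nm ≠ (K - 1 - i, 0) →
      (∑ c, ∑ a, ∑ b, ((-1) ^ (nm.1 + 1) * T.ι c a * br (T.mu a - nm.1 - 1 / 2) (K + 1) i *
        (T.C ^ i) a b) * mul (T.par b) (fun S => F ((nm.1, c) :: S))
          (fun S => two T T.η ((nm.2, b) :: S)) S) = 0 := by
    intro nm hnm hne
    have h1 : nm.1 + nm.2 = K + 1 - 2 - i := by simpa using hnm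
    have h2 : nm.2 ≠ 0 := by
      intro h0
      apply hne
      ext
      · simp only; omega
      · exact h0
    refine Finset.sum_eq_zero fun c _ => Finset.sum_eq_zero fun a _ =>
      Finset.sum_eq_zero fun b _ => ?_
    have : (fun S => two T T.η ((nm.2, b) :: S)) = 0 := by
      rw [two_cons]
      funext S
      match S with
      | [] => rfl
      | [s] => simp [one1, h2]
      | s :: t :: S => rfl
    rw [this, mul_zero_right, mul_zero]
  have hmem : ((K - 1 - i, 0) : ℕ × ℕ) ∈ antidiagonal (K + 1 - 2 - i) := by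
    simp
  rw [Finset.sum_eq_single_of_mem _ hmem (fun nm h1 h2 => hz nm h1 h2)]
  simp only
  have hterm : ∀ c a b, ((-1) ^ (K - 1 - i + 1) * T.ι c a *
        br (T.mu a - ((K - 1 - i : ℕ) : ℂ) - 1 / 2) (K + 1) i *
        (T.C ^ i) a b) * mul (T.par b) (fun S => F ((K - 1 - i, c) :: S))
          (fun S => two T T.η ((0, b) :: S)) S =
      der (fun s => Finsupp.single (K - 1 - i, c)
        (((-1) ^ (K - 1 - i + 1) * T.ι c a *
        br (T.mu a - ((K - 1 - i : ℕ) : ℂ) - 1 / 2) (K + 1) i * (T.C ^ i) a b) *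
          (if s.1 = 0 then T.η b s.2 else 0))) F S := by
    intro c a b
    rw [der_single_mul]
    by_cases h1 : T.ι c a = 0
    · rw [h1]; ring
    by_cases h2 : (T.C ^ i) a b = 0
    · rw [h2]; ring
    have p1 := hT.ι_par c a h1
    have p2 := hT.Cpow_par i a b h2
    rw [two_cons, mul_one_right _ (K - 1 - i, c) _ hF hp]
    · have h3 : (-1 : ℂ) ^ ((T.par b + T.par ((K - 1 - i, c) : T.Ins).2) *
          (0 + T.par ((K - 1 - i, c) : T.Ins).2)) = 1 := by
        have : (T.par b + T.par c) % 2 = 0 := by omega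
        rw [neg_pow_congr (b := 0)]
        · simp
        · rw [Nat.mul_mod, this, zero_mul]
      rw [h3]
      simp only [true_and, one_mul]
    · intro s hs
      simp only [true_and] at hs
      have h4 : T.η b s.2 ≠ 0 := by
        intro h0
        rw [h0] at hs
        simp at hs
      have p3 := hT.η_par b s.2 h4
      simp only
      omega
  rw [Finset.sum_congr rfl fun c _ => Finset.sum_congr rfl fun a _ =>
    Finset.sum_congr rfl fun b _ => hterm c a b, ← Finset.sum_neg_distrib]
  apply Finset.sum_congr rfl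
  intro c _
  rw [der_single_neg]
  have hin : ∀ a, (∑ b, der (fun s => Finsupp.single (K - 1 - i, c)
        (((-1) ^ (K - 1 - i + 1) * T.ι c a *
        br (T.mu a - ((K - 1 - i : ℕ) : ℂ) - 1 / 2) (K + 1) i * (T.C ^ i) a b) *
          (if s.1 = 0 then T.η b s.2 else 0))) F S) =
      der (fun s => ∑ b, Finsupp.single (K - 1 - i, c)
        (((-1) ^ (K - 1 - i + 1) * T.ι c a *
        br (T.mu a - ((K - 1 - i : ℕ) : ℂ) - 1 / 2) (K + 1) i * (T.C ^ i) a b) *
          (if s.1 = 0 then T.η b s.2 else 0))) F S := by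
    intro a
    rw [der_sumR]
  rw [Finset.sum_congr rfl fun a _ => hin a, ← der_sumR]
  congr 1
  funext s
  simp only [← Finsupp.single_finsetSum]
  congr 1
  by_cases hs : s.1 = 0
  · simp only [hs, if_true]
    have h5 : ∀ a, (∑ b, ((-1 : ℂ) ^ (K - 1 - i + 1) * T.ι c a *
        br (T.mu a - ((K - 1 - i : ℕ) : ℂ) - 1 / 2) (K + 1) i * (T.C ^ i) a b) *
          T.η b s.2) = -(br (T.mu s.2 - 1 / 2) (K + 1) i) * (T.ι c a * (T.C ^ i * T.η) a s.2) := by
      intro a
      have h6 : (∑ b, ((-1 : ℂ) ^ (K - 1 - i + 1) * T.ι c a *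
        br (T.mu a - ((K - 1 - i : ℕ) : ℂ) - 1 / 2) (K + 1) i * (T.C ^ i) a b) *
          T.η b s.2) = ((-1 : ℂ) ^ (K - 1 - i + 1) *
        br (T.mu a - ((K - 1 - i : ℕ) : ℂ) - 1 / 2) (K + 1) i) *
          (T.ι c a * (T.C ^ i * T.η) a s.2) := by
        rw [Matrix.mul_apply, Finset.mul_sum, Finset.mul_sum]
        apply Finset.sum_congr rfl
        intro b _
        ring
      rw [h6]
      by_cases h7 : (T.C ^ i * T.η) a s.2 = 0
      · rw [h7]; ring
      have ht := (hT.Cpow_η_type i a s.2 h7).1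
      have hmu : T.mu a - ((K - 1 - i : ℕ) : ℂ) - 1 / 2 = -(T.mu s.2 - 1 / 2) - (K : ℂ) := by
        have e1 : (K - 1 - i : ℕ) = (K : ℂ) - 1 - i := by
          rw [Nat.cast_sub (by omega), Nat.cast_sub (by omega)]
          push_cast; ring
        have e2 : (T.p a : ℂ) + i + T.p s.2 = T.D := by exact_mod_cast ht
        rw [e1]
        unfold Target.mu
        linear_combination e2
      rw [hmu, br_reflect]
      have hsg : (-1 : ℂ) ^ (K - 1 - i + 1) * (-1) ^ (K + 1 + i) = -1 := by
        rw [← pow_add]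
        have : K - 1 - i + 1 + (K + 1 + i) = 2 * K + 1 := by omega
        rw [this, pow_succ, pow_mul]
        simp
      linear_combination (br (T.mu s.2 - 1 / 2) (K + 1) i * (T.ι c a * (T.C ^ i * T.η) a s.2)) *
        hsg
    rw [Finset.sum_congr rfl fun a _ => h5 a, ← Finset.mul_sum]
    have h8 : ∑ a, T.ι c a * (T.C ^ i * T.η) a s.2 = (T.C ^ i) s.2 c := by
      have h9 : ∑ a, T.ι c a * (T.C ^ i * T.η) a s.2 = (T.ι * (T.C ^ i * T.η)) c s.2 := by
        rw [Matrix.mul_apply]
      rw [h9, hT.Cpow_adj, ← mul_assoc, hT.ι_η, one_mul, Matrix.transpose_apply]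
    rw [h8]; ring
  · simp [hs]

end Vale.Agent.P269.R2.H284
end
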