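import Vale.Agent.P269.R2.H284.Contr

noncomputable section

namespace Vale.Agent.P269.R2.H284

open Finset
open scoped Classical

variable {T : Target}

theorem sum_mul_eq_lc {κ : Type*} (v : κ →₀ ℂ) (f : κ → ℂ) :
    (v.sum fun x c => c * f x) = Finsupp.linearCombination ℂ f v := by
  rw [Finsupp.linearCombination_apply]
  rfl

theorem biv_sum (K : ℕ) (f : T.Ins × T.Ins → ℂ) :
    ((biv T K).sum fun x c => c * f x) =
      ∑ i ∈ range (K - 1), ∑ nm ∈ antidiagonal (K - 2 - i), ∑ c, ∑ a, ∑ b,
      ((-1) ^ (nm.1 + 1) * T.ι c a * br (T.mu a - nm.1 - 1 / 2) K i * (T.C ^ i) a b) *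
        f ((nm.1, c), (nm.2, b)) := by
  rw [sum_mul_eq_lc, biv]
  simp only [map_sum, Finsupp.linearCombination_single, smul_eq_mul]

theorem low_zero (a : T.A) : low T (0, a) = 0 := by simp [low]

theorem low_succ (m : ℕ) (a : T.A) : low T (m + 1, a) = Finsupp.single (m, a) 1 := by simp [low]

theorem ins_low_zero (a : T.A) (G : T.Fn) (S : List T.Ins) : ins (low T (0, a)) G S = 0 := by
  rw [low_zero, ins_zero]; rfl

theorem ins_low_succ (m : ℕ) (a : T.A) (G : T.Fn) (S : List T.Ins) :
    ins (low T (m + 1, a)) G S = G ((m, a) :: S) := by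
  rw [low_succ, ins_single, one_mul]

theorem mu_one (hT : IsTarget T) : T.mu T.one = -(T.D : ℂ) / 2 := by
  simp [Target.mu, hT.p_one]; ring

theorem low_shift (hT : IsTarget T) (K : ℕ) :
    ext (low T) (shift T (K + 1)) = vir T (K + 1) (0, T.one) + ((K : ℂ) + 1) • shift T K := by
  unfold shift vir
  simp only [ext_sum, ext_single]
  rw [Finset.sum_range_succ, Finset.sum_range_succ (n := K + 1)]
  have h1 : ∀ b, low T (K + 1 - (K + 1), b) = 0 := by
    intro b; rw [Nat.sub_self, low_zero]
  simp only [h1, smul_zero, Finset.sum_const_zero, add_zero]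
  have h2 : ¬ (K + 1 + 1 ≤ 0 + (K + 1)) := by omega
  rw [if_neg h2, add_zero, Finset.smul_sum, ← Finset.sum_add_distrib]
  apply Finset.sum_congr rfl
  intro i hi
  have hi' : i ≤ K := by simpa [Nat.lt_succ_iff] using hi
  have h3 : i + 1 ≤ 0 + (K + 1) := by omega
  rw [if_pos h3, Finset.smul_sum, ← Finset.sum_add_distrib]
  apply Finset.sum_congr rfl
  intro b _
  have e1 : K + 1 - i = (K - i) + 1 := by omega
  have e2 : 0 + (K + 1) - 1 - i = K - i := by omega
  simp only [e1, e2]
  rw [low_succ, Finsupp.smul_single, Finsupp.smul_single, ← Finsupp.single_add]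
  congr 1
  have := br_sub ((3 - (T.D : ℂ)) / 2) K i
  rw [mu_one hT]
  have e3 : (-(T.D : ℂ) / 2 + ((0 : ℕ) : ℂ) + 1 / 2) = (3 - (T.D : ℂ)) / 2 - 1 := by
    push_cast; ring
  rw [e3]
  simp only [smul_eq_mul]
  linear_combination ((T.C ^ i) T.one b) * this

/-- the boundary term -/
def bt (T : Target) (K : ℕ) (s : T.Ins) : T.Ins →₀ ℂ :=
  if s.1 = 0 then ∑ i ∈ range K, ∑ b,
    Finsupp.single (K - 1 - i, b) (br (T.mu s.2 - 1 / 2) (K + 1) i * (T.C ^ i) s.2 b)
  else 0

theorem low_vir (K : ℕ) (s : T.Ins) :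
    ext (low T) (vir T (K + 1) s) =
      ext (vir T (K + 1)) (low T s) + ((K : ℂ) + 1) • vir T K s + bt T K s := by
  obtain ⟨m, a⟩ := s
  cases m with
  | zero =>
    rw [low_zero, ext_zero, zero_add]
    unfold vir bt
    simp only [ext_sum, if_true]
    rw [Finset.sum_range_succ, Finset.sum_range_succ]
    have h2 : ¬ (K + 1 + 1 ≤ 0 + (K + 1)) := by omega
    have h3 : K + 1 ≤ 0 + (K + 1) := by omega
    have h4 : ∀ b, low T (0 + (K + 1) - 1 - K, b) = 0 := by
      intro b
      have : 0 + (K + 1) - 1 - K = 0 := by omega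
      rw [this, low_zero]
    rw [if_neg h2, if_pos h3, ext_zero, add_zero, ext_sum]
    simp only [ext_single, h4, smul_zero, Finset.sum_const_zero, add_zero]
    rw [Finset.sum_range_succ (n := K)]
    have h5 : ¬ (K + 1 ≤ 0 + K) := by omega
    rw [if_neg h5, add_zero, Finset.smul_sum, ← Finset.sum_add_distrib]
    apply Finset.sum_congr rfl
    intro i hi
    have hi' : i < K := by simpa using hi
    have h6 : i + 1 ≤ 0 + (K + 1) := by omega
    have h7 : i + 1 ≤ 0 + K := by omega
    rw [if_pos h6, if_pos h7, ext_sum, Finset.smul_sum, ← Finset.sum_add_distrib]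
    apply Finset.sum_congr rfl
    intro b _
    have e1 : 0 + (K + 1) - 1 - i = (K - 1 - i) + 1 := by omega
    have e2 : 0 + K - 1 - i = K - 1 - i := by omega
    rw [ext_single, e1, e2, low_succ, Finsupp.smul_single, Finsupp.smul_single,
      ← Finsupp.single_add]
    congr 1
    have := br_sub (T.mu a + ((0 : ℕ) : ℂ) + 1 / 2) K i
    have e3 : T.mu a + ((0 : ℕ) : ℂ) + 1 / 2 - 1 = T.mu a - 1 / 2 := by push_cast; ring
    rw [e3] at this
    simp only [smul_eq_mul]
    linear_combination ((T.C ^ i) a b) * this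
  | succ m =>
    rw [low_succ, ext_single, one_smul]
    unfold vir bt
    rw [if_neg (by simp), add_zero]
    simp only [ext_sum]
    rw [Finset.sum_range_succ (n := K + 1), Finset.sum_range_succ (n := K + 1), Finset.smul_sum]
    have key : ∀ i, i ≤ K →
        ext (low T) (if i + 1 ≤ m + 1 + (K + 1) then
          ∑ b, Finsupp.single (m + 1 + (K + 1) - 1 - i, b)
            (br (T.mu a + ((m + 1 : ℕ) : ℂ) + 1 / 2) (K + 1) i * (T.C ^ i) a b)
          else 0) =
        (if i + 1 ≤ m + (K + 1) then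
          ∑ b, Finsupp.single (m + (K + 1) - 1 - i, b)
            (br (T.mu a + (m : ℂ) + 1 / 2) (K + 1) i * (T.C ^ i) a b)
          else 0) + ((K : ℂ) + 1) • (if i + 1 ≤ m + 1 + K then
          ∑ b, Finsupp.single (m + 1 + K - 1 - i, b)
            (br (T.mu a + ((m + 1 : ℕ) : ℂ) + 1 / 2) K i * (T.C ^ i) a b)
          else 0) := by
      intro i hi
      rw [if_pos (by omega), if_pos (by omega), if_pos (by omega), ext_sum, Finset.smul_sum,
        ← Finset.sum_add_distrib]
      apply Finset.sum_congr rfl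
      intro b _
      have e1 : m + 1 + (K + 1) - 1 - i = (m + K - i) + 1 := by omega
      have e2 : m + (K + 1) - 1 - i = m + K - i := by omega
      have e3 : m + 1 + K - 1 - i = m + K - i := by omega
      rw [ext_single, e1, e2, e3, low_succ, Finsupp.smul_single, Finsupp.smul_single,
        ← Finsupp.single_add]
      congr 1
      have := br_sub (T.mu a + ((m + 1 : ℕ) : ℂ) + 1 / 2) K i
      have e4 : T.mu a + ((m + 1 : ℕ) : ℂ) + 1 / 2 - 1 = T.mu a + (m : ℂ) + 1 / 2 := by
        push_cast; ring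
      rw [e4] at this
      simp only [smul_eq_mul]
      linear_combination ((T.C ^ i) a b) * this
    have last : ext (low T) (if K + 1 + 1 ≤ m + 1 + (K + 1) then
          ∑ b, Finsupp.single (m + 1 + (K + 1) - 1 - (K + 1), b)
            (br (T.mu a + ((m + 1 : ℕ) : ℂ) + 1 / 2) (K + 1) (K + 1) * (T.C ^ (K + 1)) a b)
          else 0) = (if K + 1 + 1 ≤ m + (K + 1) then
          ∑ b, Finsupp.single (m + (K + 1) - 1 - (K + 1), b)
            (br (T.mu a + (m : ℂ) + 1 / 2) (K + 1) (K + 1) * (T.C ^ (K + 1)) a b)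
          else 0) := by
      rw [if_pos (by omega), ext_sum]
      cases m with
      | zero =>
        rw [if_neg (by omega)]
        apply Finset.sum_eq_zero
        intro b _
        have e1 : 0 + 1 + (K + 1) - 1 - (K + 1) = 0 := by omega
        rw [e1, ext_single, low_zero, smul_zero]
      | succ m =>
        rw [if_pos (by omega)]
        apply Finset.sum_congr rfl
        intro b _
        have e1 : m + 1 + 1 + (K + 1) - 1 - (K + 1) = m + 1 := by omega
        have e2 : m + 1 + (K + 1) - 1 - (K + 1) = m := by omega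
        rw [e1, e2, ext_single, low_succ, Finsupp.smul_single, br_top, br_top]
        simp
    rw [last, Finset.sum_congr rfl fun i hi => key i (by simpa [Nat.lt_succ_iff] using hi),
      Finset.sum_add_distrib]
    abel

/-- lowering the bivector -/
theorem low_biv (K : ℕ) (f : T.Ins → T.Ins → ℂ) :
    ((biv T (K + 1)).sum fun xy c => c * (((low T xy.1).sum fun x e => e * f x xy.2) +
      ((low T xy.2).sum fun y e => e * f xy.1 y))) =
    ((K : ℂ) + 1) * (biv T K).sum fun xy c => c * f xy.1 xy.2 := by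
  have hb1 := biv_sum (T := T) (K + 1) (fun xy => ((low T xy.1).sum fun x e => e * f x xy.2) +
      ((low T xy.2).sum fun y e => e * f xy.1 y))
  have hb2 := biv_sum (T := T) K (fun xy => f xy.1 xy.2)
  rw [hb1, hb2]
  have l0 : ∀ (c : T.A) (h : T.Ins → ℂ), ((low T (0, c)).sum fun x e => e * h x) = 0 := by
    intro c h; rw [low_zero]; simp
  have l1 : ∀ (n : ℕ) (c : T.A) (h : T.Ins → ℂ),
      ((low T (n + 1, c)).sum fun x e => e * h x) = h (n, c) := by
    intro n c h; rw [low_succ]; simp
  -- fixed index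
  have key : ∀ (i M : ℕ), (∑ nm ∈ antidiagonal (M + 1), ∑ c, ∑ a, ∑ b,
      ((-1) ^ (nm.1 + 1) * T.ι c a * br (T.mu a - nm.1 - 1 / 2) (K + 1) i * (T.C ^ i) a b) *
        (((low T (nm.1, c)).sum fun x e => e * f x (nm.2, b)) +
          ((low T (nm.2, b)).sum fun y e => e * f (nm.1, c) y))) =
      ((K : ℂ) + 1) * ∑ nm ∈ antidiagonal M, ∑ c, ∑ a, ∑ b,
      ((-1) ^ (nm.1 + 1) * T.ι c a * br (T.mu a - nm.1 - 1 / 2) K i * (T.C ^ i) a b) *
        f (nm.1, c) (nm.2, b) := by
    intro i M
    simp only [mul_add, Finset.sum_add_distrib]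
    rw [Finset.Nat.sum_antidiagonal_succ, Finset.Nat.sum_antidiagonal_succ']
    simp only [l0, l1, mul_zero, Finset.sum_const_zero, zero_add, add_zero]
    rw [← Finset.sum_add_distrib, Finset.mul_sum]
    apply Finset.sum_congr rfl
    intro nm _
    simp only [Finset.mul_sum, ← Finset.sum_add_distrib]
    refine Finset.sum_congr rfl fun c _ => Finset.sum_congr rfl fun a _ =>
      Finset.sum_congr rfl fun b _ => ?_
    have := br_sub (T.mu a - nm.1 - 1 / 2) K i
    have e : T.mu a - nm.1 - 1 / 2 - 1 = T.mu a - ((nm.1 + 1 : ℕ) : ℂ) - 1 / 2 := by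
      push_cast; ring
    rw [e] at this
    rw [pow_succ (-1 : ℂ) (nm.1 + 1)]
    linear_combination ((-1) ^ (nm.1 + 1) * T.ι c a * (T.C ^ i) a b * f (nm.1, c) (nm.2, b)) * this
  rcases Nat.lt_or_ge K 1 with hK | hK
  · have : K = 0 := by omega
    subst this
    simp
  · obtain ⟨L, rfl⟩ : ∃ L, K = L + 1 := ⟨K - 1, by omega⟩
    have e1 : L + 1 + 1 - 1 = L + 1 := by omega
    have e2 : L + 1 - 1 = L := by omega
    rw [e1, e2, Finset.sum_range_succ]
    have e3 : L + 1 + 1 - 2 - L = 0 := by omega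
    rw [e3]
    have e4 : (∑ nm ∈ antidiagonal (0 : ℕ), ∑ c, ∑ a, ∑ b,
      ((-1) ^ (nm.1 + 1) * T.ι c a * br (T.mu a - nm.1 - 1 / 2) (L + 1 + 1) L *
        (T.C ^ L) a b) *
        (((low T (nm.1, c)).sum fun x e => e * f x (nm.2, b)) +
          ((low T (nm.2, b)).sum fun y e => e * f (nm.1, c) y))) = 0 := by
      simp [l0]
    rw [e4, add_zero, Finset.mul_sum]
    apply Finset.sum_congr rfl
    intro i hi
    have hi' : i < L := by simpa using hi
    have e5 : L + 1 + 1 - 2 - i = (L + 1 - 2 - i) + 1 := by omega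
    rw [e5]
    exact key i _

end Vale.Agent.P269.R2.H284
end
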